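import Vale.Agent.P214.INST.Props

/-!
# P214, block INST: assembly of `ABS.Chain.Good`
-/

open Set Filter Topology MeasureTheory Metric
open scoped RealInnerProductSpace ContDiff

set_option linter.all false

namespace Vale.Agent.P214.INST

open WIN WSEQ FM

variable {m n Q : ℕ} {E : Type*} [NormedAddCommGroup E] [InnerProductSpace ℝ E]
  [FiniteDimensional ℝ E] [MeasurableSpace E] [BorelSpace E]

/-- finitely many statements hold for the same `ε₀` -/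
lemma Ev.and {p q : ∀ (T : Submodule ℝ E) (F : Frame m n T) (ν : Measure E) (P : E → E →L[ℝ] E)
      (Kp : Set E) (δ : ℝ → ℝ) (X : Exps) (C C₅ ε : ℝ), WSeq m n Q T F ν P Kp δ X C C₅ ε → Prop}
    (hp : Ev E m n Q p) (hq : Ev E m n Q q) :
    Ev E m n Q fun T F ν P Kp δ X C C₅ ε S =>
      p T F ν P Kp δ X C C₅ ε S ∧ q T F ν P Kp δ X C C₅ ε S := by
  intro X C C₅
  obtain ⟨a, ha, h1⟩ := hp X C C₅
  obtain ⟨b, hb, h2⟩ := hq X C C₅
  refine ⟨min a b, lt_min ha hb, fun T F ν P Kp δ ε τ S hS hε => ?_⟩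
  exact ⟨h1 T F ν P Kp δ ε τ S hS (hε.trans (min_le_left _ _)),
    h2 T F ν P Kp δ ε τ S hS (hε.trans (min_le_right _ _))⟩

lemma Ev.mono {p q : ∀ (T : Submodule ℝ E) (F : Frame m n T) (ν : Measure E)
      (P : E → E →L[ℝ] E) (Kp : Set E) (δ : ℝ → ℝ) (X : Exps) (C C₅ ε : ℝ),
      WSeq m n Q T F ν P Kp δ X C C₅ ε → Prop}
    (hp : Ev E m n Q p) (h : ∀ (T : Submodule ℝ E) (F : Frame m n T) (ν : Measure E)
      (P : E → E →L[ℝ] E) (Kp : Set E) (δ : ℝ → ℝ) (X : Exps) (C C₅ ε τ : ℝ)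
      (S : WSeq m n Q T F ν P Kp δ X C C₅ ε), Ctx τ S →
        p T F ν P Kp δ X C C₅ ε S → q T F ν P Kp δ X C C₅ ε S) : Ev E m n Q q := by
  intro X C C₅
  obtain ⟨a, ha, h1⟩ := hp X C C₅
  exact ⟨a, ha, fun T F ν P Kp δ ε τ S hS hε =>
    h T F ν P Kp δ X C C₅ ε τ S hS (h1 T F ν P Kp δ ε τ S hS hε)⟩

/-- **the chain of a good point is good** -/
theorem good_of_stmts {k K : ℝ → ℝ} {κ : ℝ} (hκ : 0 ≤ κ) (hfat : FatStmt E m n Q)
    (hode : OdeStmt E m n Q k K κ) (hdec : DecayStmt E m n Q k K) (hlim : LimStmt E m n Q k K)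
    (hsoft : SoftStmt E m n Q k K) (hsw : SwitchStmt E m n Q k K) :
    Ev E m n Q fun _ _ _ _ _ _ _ _ _ _ _ => ∃ Y : ABS.Chain, Y.Good := by
  have hall := ((((hfat.and hode).and hdec).and hlim).and hsoft).and hsw
  refine Ev.mono hall fun T F ν P Kp δ X C C₅ ε τ S hS h => ?_
  obtain ⟨⟨⟨⟨⟨⟨k₀, hk₀⟩, h1⟩, h2⟩, h3⟩, h4⟩, h5⟩ := h
  obtain ⟨e, he⟩ := h5 k₀ hk₀
  obtain ⟨e1, e2, e3, e4⟩ := he κ
  obtain ⟨s1, s2, s3, s4, s5, s6⟩ := h4 k₀ e κ hk₀
  refine ⟨chain k K κ e S k₀, ?_⟩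
  exact
    { κ_nn := hκ
      c_pos := by
        have := hS.ok.c_pos
        show 0 < X.c / 2
        linarith
      T_pos := s1
      T_anti := s2
      T_lim := s3
      T_one := s4
      hasH := fun i t ht => (s5 i t ht).1
      hasa := fun i t ht => (s5 i t ht).2.1
      H_pos := fun i t ht => (s5 i t ht).2.2.1
      h_le := fun i t ht => (s5 i t ht).2.2.2
      ode := h1 k₀ e hk₀
      mono := s6
      decay := h2 k₀ e κ hk₀
      lim := h3 k₀ e κ hk₀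
      switch := e1
      e_pos := e2
      growth := e3
      e_le := e4 }

end Vale.Agent.P214.INST
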