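import Vale.Agent.P214.FM.Real
import Vale.Agent.P214.WIN.Props

/-!
# P214, block INST, [B1]: kernel heights and cylindrical heights (helper700)

General lemmas, for one reference `w` and one tube `h₁`:
* `Adm.setIntegral_fmeas` : change of variables;
* `Adm.om_sq_le`, `Adm.rel_sq_le` : `|om Y|²` and `|rel y|²` are comparable, `y = Ψ(Y)`;
* `Adm.int_om_le` (B1g) : `∫_{|bx Y| < s} |om|² ≤ 2 ∫_{|bx y| < s + 2 ε h₁} |rel|²`;
* `Adm.HF_le`, `Adm.HF_ge` : bounds of the kernel height.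
-/

open Set Filter Topology MeasureTheory Metric
open scoped RealInnerProductSpace ContDiff

set_option linter.all false

namespace Vale.Agent.P214.FM

open FV ODE

variable {E : Type*} [NormedAddCommGroup E] [InnerProductSpace ℝ E] [FiniteDimensional ℝ E]
  [MeasurableSpace E] [BorelSpace E]

variable {m : ℕ} {T : Submodule ℝ E} {w : E → E} {ε κ h₁ : ℝ} {ν : Measure E} {z : E}
  {t s B β : ℝ} {k : ℝ → ℝ} {A : Set E}

lemma Adm.embed (H : Adm T w ε κ h₁) : MeasurableEmbedding (PsiInv T w h₁) := by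
  have h0 : PsiInv T w h₁ = H.hom.symm := funext H.PsiInv_eq
  rw [h0]
  exact H.hom.symm.measurableEmbedding

lemma Adm.integral_fmeas' (H : Adm T w ε κ h₁) {F : Type*} [NormedAddCommGroup F]
    [NormedSpace ℝ F] (ν : Measure E) (f : E → F) :
    ∫ Y, f Y ∂(fmeas T w h₁ ν) = ∫ y, f (PsiInv T w h₁ y) ∂ν := by
  unfold fmeas
  rw [H.embed.integral_map]

lemma Adm.setIntegral_fmeas (H : Adm T w ε κ h₁) {F : Type*} [NormedAddCommGroup F]
    [NormedSpace ℝ F] (ν : Measure E) (f : E → F) (A : Set E) :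
    ∫ Y in A, f Y ∂(fmeas T w h₁ ν) = ∫ y in PsiInv T w h₁ ⁻¹' A, f (PsiInv T w h₁ y) ∂ν := by
  unfold fmeas
  rw [H.embed.setIntegral_map]

/-! ### pointwise comparison -/

lemma Adm.rel_le (H : Adm T w ε κ h₁) (y : E) :
    ‖co T y - w y‖ ≤ (1 + ε ^ 2) * ‖co T (PsiInv T w h₁ y)‖ := by
  have h1 := H.ref.norm_height_le h₁ (PsiInv T w h₁ y)
  rw [H.Psi_PsiInv] at h1
  have h2 : ‖co T y - w y‖ ≤ ‖co T (PsiInv T w h₁ y)‖ +
      ‖co T (PsiInv T w h₁ y) - (co T y - w y)‖ := by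
    calc ‖co T y - w y‖ = ‖co T (PsiInv T w h₁ y) -
          (co T (PsiInv T w h₁ y) - (co T y - w y))‖ := by congr 1; abel
      _ ≤ _ := norm_sub_le _ _
  linarith

lemma Adm.le_rel (H : Adm T w ε κ h₁) (y : E) :
    (1 - ε ^ 2) * ‖co T (PsiInv T w h₁ y)‖ ≤ ‖co T y - w y‖ := by
  have h1 := H.ref.norm_height_le h₁ (PsiInv T w h₁ y)
  rw [H.Psi_PsiInv] at h1
  have h2 : ‖co T (PsiInv T w h₁ y)‖ ≤ ‖co T y - w y‖ +
      ‖co T (PsiInv T w h₁ y) - (co T y - w y)‖ := by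
    calc ‖co T (PsiInv T w h₁ y)‖ = ‖(co T y - w y) + (co T (PsiInv T w h₁ y) -
          (co T y - w y))‖ := by congr 1; abel
      _ ≤ _ := norm_add_le _ _
  linarith

lemma Adm.co_le (H : Adm T w ε κ h₁) (y : E) :
    ‖co T (PsiInv T w h₁ y)‖ ≤ 256 / 255 * ‖co T y - w y‖ := by
  have h1 := H.le_rel y
  have h2 := H.eps_le
  have h3 := H.ref.eps_nonneg
  have h4 := norm_nonneg (co T (PsiInv T w h₁ y))
  have h5 : ε ^ 2 ≤ 1 / 256 := by nlinarith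
  nlinarith

lemma Ref.norm_om_le (hw : Ref T w ε κ) (Y : E) : ‖om T w Y‖ ≤ (1 + ε) * ‖co T Y‖ := by
  unfold om
  refine (norm_sub_le _ _).trans ?_
  have := hw.norm_adj_fderiv_apply_le Y (co T Y)
  linarith

lemma Ref.co_le_om (hw : Ref T w ε κ) (Y : E) : ‖co T Y‖ ≤ ‖om T w Y‖ := by
  have h1 : co T (om T w Y) = co T Y := by
    unfold om
    rw [map_sub, hw.co_adj_fderiv, sub_zero, co_self]
  rw [← h1]
  exact norm_co_le T _

/-- `|om Y|² ≤ 2 |rel y|²` -/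
lemma Adm.om_sq_le (H : Adm T w ε κ h₁) (y : E) :
    ‖om T w (PsiInv T w h₁ y)‖ ^ 2 ≤ 2 * ‖co T y - w y‖ ^ 2 := by
  have h1 := H.ref.norm_om_le (PsiInv T w h₁ y)
  have h2 := H.co_le y
  have h3 := H.eps_le
  have h4 := H.ref.eps_nonneg
  have h5 : ‖om T w (PsiInv T w h₁ y)‖ ≤ 4 / 3 * ‖co T y - w y‖ := by
    calc _ ≤ (1 + ε) * ‖co T (PsiInv T w h₁ y)‖ := h1
      _ ≤ (1 + 1 / 16) * (256 / 255 * ‖co T y - w y‖) := by gcongr
      _ ≤ _ := by nlinarith [norm_nonneg (co T y - w y)]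
  calc _ ≤ (4 / 3 * ‖co T y - w y‖) ^ 2 := pow_le_pow_left₀ (norm_nonneg _) h5 2
    _ ≤ _ := by nlinarith [sq_nonneg ‖co T y - w y‖]

/-- `|rel y|² ≤ 2 |om Y|²` -/
lemma Adm.rel_sq_le (H : Adm T w ε κ h₁) (y : E) :
    ‖co T y - w y‖ ^ 2 ≤ 2 * ‖om T w (PsiInv T w h₁ y)‖ ^ 2 := by
  have h1 := H.rel_le y
  have h2 := H.ref.co_le_om (PsiInv T w h₁ y)
  have h3 := H.eps_le
  have h4 := H.ref.eps_nonneg
  have h5 : ‖co T y - w y‖ ≤ 4 / 3 * ‖om T w (PsiInv T w h₁ y)‖ := by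
    calc _ ≤ (1 + ε ^ 2) * ‖co T (PsiInv T w h₁ y)‖ := h1
      _ ≤ (1 + (1 / 16) ^ 2) * ‖om T w (PsiInv T w h₁ y)‖ := by gcongr
      _ ≤ _ := by nlinarith [norm_nonneg (om T w (PsiInv T w h₁ y))]
  calc _ ≤ (4 / 3 * ‖om T w (PsiInv T w h₁ y)‖) ^ 2 := pow_le_pow_left₀ (norm_nonneg _) h5 2
    _ ≤ _ := by nlinarith [sq_nonneg ‖om T w (PsiInv T w h₁ y)‖]

/-- displacement of the base point -/
lemma Adm.disp_le (H : Adm T w ε κ h₁) (y : E) :
    ‖T.starProjection y - T.starProjection (PsiInv T w h₁ y)‖ ≤ 2 * ε * h₁ := by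
  have := H.ref.norm_star_Psi_sub_le H.hpos (PsiInv T w h₁ y)
  rwa [H.Psi_PsiInv] at this

lemma Adm.disp_le' (H : Adm T w ε κ h₁) (y : E) :
    ‖T.starProjection y - T.starProjection (PsiInv T w h₁ y)‖ ≤ ε * ‖co T (PsiInv T w h₁ y)‖ := by
  have := H.ref.norm_star_Psi_sub_le' h₁ (PsiInv T w h₁ y)
  rwa [H.Psi_PsiInv] at this

lemma bx_sub (T : Submodule ℝ E) (z y Y : E) :
    bx T z y - bx T z Y = T.starProjection y - T.starProjection Y := by
  rw [bx_eq, bx_eq]; abel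

lemma Adm.bx_le (H : Adm T w ε κ h₁) (z y : E) :
    ‖bx T z y‖ ≤ ‖bx T z (PsiInv T w h₁ y)‖ + 2 * ε * h₁ := by
  have h1 := H.disp_le y
  rw [← bx_sub T z] at h1
  have := norm_sub_norm_le (bx T z y) (bx T z (PsiInv T w h₁ y))
  linarith

lemma Adm.bx_le' (H : Adm T w ε κ h₁) (z y : E) :
    ‖bx T z y‖ ≤ ‖bx T z (PsiInv T w h₁ y)‖ + ε * ‖co T (PsiInv T w h₁ y)‖ := by
  have h1 := H.disp_le' y
  rw [← bx_sub T z] at h1
  have := norm_sub_norm_le (bx T z y) (bx T z (PsiInv T w h₁ y))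
  linarith

lemma Adm.le_bx' (H : Adm T w ε κ h₁) (z y : E) :
    ‖bx T z (PsiInv T w h₁ y)‖ ≤ ‖bx T z y‖ + ε * ‖co T (PsiInv T w h₁ y)‖ := by
  have h1 := H.disp_le' y
  rw [← bx_sub T z] at h1
  have := norm_sub_norm_le (bx T z (PsiInv T w h₁ y)) (bx T z y)
  rw [norm_sub_rev] at this
  linarith

lemma isOpen_bx_lt (T : Submodule ℝ E) (z : E) (s : ℝ) : IsOpen {y : E | ‖bx T z y‖ < s} :=
  isOpen_lt (contDiff_bx (n := 0) T z).continuous.norm continuous_const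

lemma measurableSet_bx_lt (T : Submodule ℝ E) (z : E) (s : ℝ) :
    MeasurableSet {y : E | ‖bx T z y‖ < s} := (isOpen_bx_lt T z s).measurableSet

lemma continuous_PsiInv (H : Adm T w ε κ h₁) : Continuous (PsiInv T w h₁) :=
  H.contDiff_PsiInv.continuous

/-! ### heights -/

/-- **(B1g)** -/
theorem Adm.int_om_le (H : Adm T w ε κ h₁) (z : E) (s : ℝ)
    (hint : IntegrableOn (fun y => ‖co T y - w y‖ ^ 2) {y | ‖bx T z y‖ < s + 2 * ε * h₁} ν) :
    ∫ Y in {Y | ‖bx T z Y‖ < s}, ‖om T w Y‖ ^ 2 ∂(fmeas T w h₁ ν) ≤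
      2 * ∫ y in {y | ‖bx T z y‖ < s + 2 * ε * h₁}, ‖co T y - w y‖ ^ 2 ∂ν := by
  rw [H.setIntegral_fmeas]
  have hsub : PsiInv T w h₁ ⁻¹' {Y | ‖bx T z Y‖ < s} ⊆ {y | ‖bx T z y‖ < s + 2 * ε * h₁} := by
    intro y hy
    have h1 := H.bx_le z y
    have h2 : ‖bx T z (PsiInv T w h₁ y)‖ < s := hy
    show ‖bx T z y‖ < s + 2 * ε * h₁
    linarith
  have hm : MeasurableSet (PsiInv T w h₁ ⁻¹' {Y | ‖bx T z Y‖ < s}) :=
    (continuous_PsiInv H).measurable (measurableSet_bx_lt T z s)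
  have h2 := hint.mono_set hsub
  calc ∫ y in PsiInv T w h₁ ⁻¹' {Y | ‖bx T z Y‖ < s}, ‖om T w (PsiInv T w h₁ y)‖ ^ 2 ∂ν
      ≤ ∫ y in PsiInv T w h₁ ⁻¹' {Y | ‖bx T z Y‖ < s}, 2 * ‖co T y - w y‖ ^ 2 ∂ν :=
        integral_mono_of_nonneg (Eventually.of_forall fun _ => sq_nonneg _) (h2.const_mul 2)
          (Eventually.of_forall fun y => H.om_sq_le y)
    _ = 2 * ∫ y in PsiInv T w h₁ ⁻¹' {Y | ‖bx T z Y‖ < s}, ‖co T y - w y‖ ^ 2 ∂ν :=
        integral_const_mul _ _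
    _ ≤ _ := by
        gcongr ?_ * ?_
        exact setIntegral_mono_set hint (Eventually.of_forall fun _ => sq_nonneg _)
          (Eventually.of_forall hsub)

/-- the integrand of the kernel height -/
noncomputable def hIn (T : Submodule ℝ E) (w : E → E) (h₁ : ℝ) (z : E) (k : ℝ → ℝ) (t : ℝ)
    (y : E) : ℝ :=
  k (aX T w z (PsiInv T w h₁ y) / t ^ 2) *
    (vp T w z (PsiInv T w h₁ y) * ‖om T w (PsiInv T w h₁ y)‖ ^ 2)

lemma Adm.HF_eq (H : Adm T w ε κ h₁) (m : ℕ) (z : E) (k : ℝ → ℝ) (t : ℝ) :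
    HF m T w z k (fmeas T w h₁ ν) t = t ^ (-(m:ℤ)) * ∫ y, hIn T w h₁ z k t y ∂ν := by
  unfold HF kI
  rw [H.integral_fmeas']
  rfl

lemma Adm.hIn_le (H : Adm T w ε κ h₁) (hk1 : ∀ s, 1 ≤ s → k s = 0)
    (hk2 : ∀ s, 0 ≤ s → k s ≤ B) (hk0 : ∀ s, 0 ≤ k s) (ht : 0 < t) (y : E) :
    0 ≤ hIn T w h₁ z k t y ∧
    hIn T w h₁ z k t y ≤ ({y | ‖bx T z (PsiInv T w h₁ y)‖ < t} : Set E).indicator
      (fun y => 2 * B * ‖co T y - w y‖ ^ 2) y := by
  have hB : 0 ≤ B := (hk0 0).trans (hk2 0 le_rfl)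
  have h1 := H.om_sq_le y
  have v1 := Ref.vp_le_one (T := T) (w := w) z (PsiInv T w h₁ y)
  have v0 := H.ref.half_le_vp H.eps_le z (PsiInv T w h₁ y)
  have hnn : 0 ≤ vp T w z (PsiInv T w h₁ y) * ‖om T w (PsiInv T w h₁ y)‖ ^ 2 :=
    mul_nonneg (by linarith) (sq_nonneg _)
  refine ⟨mul_nonneg (hk0 _) hnn, ?_⟩
  by_cases hy : ‖bx T z (PsiInv T w h₁ y)‖ < t
  · rw [indicator_of_mem (by exact hy)]
    have h2 : k (aX T w z (PsiInv T w h₁ y) / t ^ 2) ≤ B :=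
      hk2 _ (div_nonneg (by unfold aX; positivity) (sq_nonneg _))
    calc hIn T w h₁ z k t y ≤ B * (1 * (2 * ‖co T y - w y‖ ^ 2)) := by
          unfold hIn
          gcongr
      _ = _ := by ring
  · rw [indicator_of_notMem (by exact hy)]
    have h2 : 1 ≤ aX T w z (PsiInv T w h₁ y) / t ^ 2 := by
      rw [one_le_div (by positivity)]
      exact pow_le_pow_left₀ ht.le (not_lt.1 hy) 2
    unfold hIn
    rw [hk1 _ h2, zero_mul]

lemma measurable_vp (hw : Ref T w ε κ) (z : E) : Measurable (vp T w z) := by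
  have h1 : Continuous (XX T w z) := (hw.contDiff_XX z).continuous
  have h2 : Continuous (nX T w z) := by
    unfold nX sg
    exact h1.sub (hw.contDiff_PS.continuous.clm_apply h1)
  unfold vp
  exact measurable_const.sub ((h2.measurable.norm.pow_const 2).div (h1.measurable.norm.pow_const 2))

lemma Adm.measurable_hIn (H : Adm T w ε κ h₁) (hk : Continuous k) :
    Measurable (hIn T w h₁ z k t) := by
  have h1 : Measurable (PsiInv T w h₁) := (continuous_PsiInv H).measurable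
  have h2 : Measurable (aX T w z) := by
    unfold aX
    exact ((H.ref.contDiff_XX z).continuous.measurable.norm.pow_const 2)
  have h3 : Measurable (om T w) := H.ref.contDiff_om.continuous.measurable
  unfold hIn
  exact (hk.measurable.comp ((h2.comp h1).div_const _)).mul
    (((measurable_vp H.ref z).comp h1).mul ((h3.comp h1).norm.pow_const 2))

/-- the integrand is integrable if `|rel|²` is integrable near the support of the kernel -/
lemma Adm.integrable_hIn (H : Adm T w ε κ h₁) (hk : Continuous k) (hk1 : ∀ s, 1 ≤ s → k s = 0)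
    (hk2 : ∀ s, 0 ≤ s → k s ≤ B) (hk0 : ∀ s, 0 ≤ k s) (ht : 0 < t) (hA : MeasurableSet A)
    (hint : IntegrableOn (fun y => ‖co T y - w y‖ ^ 2) A ν)
    (hsub : ∀ᵐ y ∂ν, ‖bx T z (PsiInv T w h₁ y)‖ < t → y ∈ A) :
    Integrable (hIn T w h₁ z k t) ν := by
  have hB : 0 ≤ B := (hk0 0).trans (hk2 0 le_rfl)
  have h1 : Integrable (A.indicator (fun y => 2 * B * ‖co T y - w y‖ ^ 2)) ν :=
    (integrable_indicator_iff hA).2 (Integrable.const_mul hint (2 * B))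
  refine h1.mono' (H.measurable_hIn hk).aestronglyMeasurable ?_
  filter_upwards [hsub] with y hy
  obtain ⟨a, b⟩ := H.hIn_le (z := z) hk1 hk2 hk0 ht y
  rw [Real.norm_eq_abs, abs_of_nonneg a]
  refine b.trans ?_
  by_cases hyt : ‖bx T z (PsiInv T w h₁ y)‖ < t
  · rw [indicator_of_mem (by exact hyt), indicator_of_mem (hy hyt)]
  · rw [indicator_of_notMem (by exact hyt)]
    exact indicator_nonneg (fun _ _ => by positivity) _

/-- **upper bound of the kernel height** -/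
theorem Adm.HF_le (H : Adm T w ε κ h₁) (m : ℕ) (hk : Continuous k) (hk1 : ∀ s, 1 ≤ s → k s = 0)
    (hk2 : ∀ s, 0 ≤ s → k s ≤ B) (hk0 : ∀ s, 0 ≤ k s) (ht : 0 < t) (hA : MeasurableSet A)
    (hint : IntegrableOn (fun y => ‖co T y - w y‖ ^ 2) A ν)
    (hsub : ∀ᵐ y ∂ν, ‖bx T z (PsiInv T w h₁ y)‖ < t → y ∈ A) :
    HF m T w z k (fmeas T w h₁ ν) t ≤ 2 * B * (t ^ m)⁻¹ * ∫ y in A, ‖co T y - w y‖ ^ 2 ∂ν := by
  have hB : 0 ≤ B := (hk0 0).trans (hk2 0 le_rfl)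
  rw [H.HF_eq, zpow_neg, zpow_natCast]
  have h1 : Integrable (A.indicator (fun y => 2 * B * ‖co T y - w y‖ ^ 2)) ν :=
    (integrable_indicator_iff hA).2 (Integrable.const_mul hint (2 * B))
  have h2 : ∫ y, hIn T w h₁ z k t y ∂ν ≤ ∫ y, A.indicator
      (fun y => 2 * B * ‖co T y - w y‖ ^ 2) y ∂ν := by
    refine integral_mono_ae (H.integrable_hIn hk hk1 hk2 hk0 ht hA hint hsub) h1 ?_
    filter_upwards [hsub] with y hy
    obtain ⟨a, b⟩ := H.hIn_le (z := z) hk1 hk2 hk0 ht y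
    refine b.trans ?_
    by_cases hyt : ‖bx T z (PsiInv T w h₁ y)‖ < t
    · rw [indicator_of_mem (by exact hyt), indicator_of_mem (hy hyt)]
    · rw [indicator_of_notMem (by exact hyt)]
      exact indicator_nonneg (fun _ _ => by positivity) _
  rw [integral_indicator hA, integral_const_mul] at h2
  calc (t ^ m)⁻¹ * ∫ y, hIn T w h₁ z k t y ∂ν ≤
        (t ^ m)⁻¹ * (2 * B * ∫ y in A, ‖co T y - w y‖ ^ 2 ∂ν) := by gcongr
    _ = _ := by ring

/-- **lower bound of the kernel height** -/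
theorem Adm.HF_ge (H : Adm T w ε κ h₁) (m : ℕ) (hk0 : ∀ s, 0 ≤ k s) (ht : 0 < t)
    (hA : MeasurableSet A) (hint : Integrable (hIn T w h₁ z k t) ν) (hβ : 0 ≤ β)
    (hlow : ∀ᵐ y ∂ν, y ∈ A → β ≤ k (aX T w z (PsiInv T w h₁ y) / t ^ 2)) :
    β / 4 * (t ^ m)⁻¹ * ∫ y in A, ‖co T y - w y‖ ^ 2 ∂ν ≤ HF m T w z k (fmeas T w h₁ ν) t := by
  rw [H.HF_eq, zpow_neg, zpow_natCast]
  have hnn : ∀ y, 0 ≤ hIn T w h₁ z k t y := fun y => by
    have v0 := H.ref.half_le_vp H.eps_le z (PsiInv T w h₁ y)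
    exact mul_nonneg (hk0 _) (mul_nonneg (by linarith) (sq_nonneg _))
  have hpt : ∀ᵐ y ∂ν, A.indicator (fun y => β / 4 * ‖co T y - w y‖ ^ 2) y ≤
      hIn T w h₁ z k t y := by
    filter_upwards [hlow] with y hy
    by_cases hyA : y ∈ A
    · rw [indicator_of_mem hyA]
      have h1 := H.rel_sq_le y
      have v0 := H.ref.half_le_vp H.eps_le z (PsiInv T w h₁ y)
      calc β / 4 * ‖co T y - w y‖ ^ 2 ≤ β / 4 * (2 * ‖om T w (PsiInv T w h₁ y)‖ ^ 2) := by gcongr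
        _ = β * (1 / 2 * ‖om T w (PsiInv T w h₁ y)‖ ^ 2) := by ring
        _ ≤ _ := by
            unfold hIn
            have := hy hyA
            gcongr
            exact hk0 _
    · rw [indicator_of_notMem hyA]; exact hnn y
  have h2 : ∫ y in A, β / 4 * ‖co T y - w y‖ ^ 2 ∂ν ≤ ∫ y, hIn T w h₁ z k t y ∂ν := by
    rw [← integral_indicator hA]
    refine integral_mono_of_nonneg ?_ hint hpt
    exact Eventually.of_forall fun y => indicator_nonneg (fun _ _ => by positivity) _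
  rw [integral_const_mul] at h2
  calc β / 4 * (t ^ m)⁻¹ * ∫ y in A, ‖co T y - w y‖ ^ 2 ∂ν =
        (t ^ m)⁻¹ * (β / 4 * ∫ y in A, ‖co T y - w y‖ ^ 2 ∂ν) := by ring
    _ ≤ _ := by gcongr

end Vale.Agent.P214.FM
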