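import Vale.Agent.P214.ABS.Defs
import Mathlib.Analysis.SpecialFunctions.Pow.Asymptotics
import Mathlib.Analysis.SpecialFunctions.Pow.Continuity
import Mathlib.Analysis.SpecificLimits.Basic
import Mathlib.Topology.Order.IntermediateValue

/-!
# P214, block INST: the switches of the references, real analysis (helper700)

Input (`SwDat`): radii `r`, heights `h`, kernel heights `hh k t` (window `k`), the upper bound of the
kernel height at the switch radius, the lower bounds slightly above `r (k+1)`.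
Output: heights `e k` of the switches; fields `e_pos`, `growth`, `e_le`, `switch` of
`ABS.Chain.Good`, with exponent `c / 2`.
-/

open Set Filter Topology

namespace Vale.Agent.P214.INST

noncomputable section

/-- the collar belonging to the height `h` (equal to `WSEQ.th`) -/
def thI (h : ℝ) : ℝ := (Real.log h⁻¹)⁻¹ ^ 7

/-- the switch radius -/
def TI (r h : ℕ → ℝ) (k : ℕ) : ℝ := r k * (1 - 10 * thI (h k))

/-- the basic data of the radii and heights -/
structure SeqIn (c ε : ℝ) (r h : ℕ → ℝ) : Prop where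
  r_pos : ∀ k, 0 < r k
  h_pos : ∀ k, 0 < h k
  h_le : ∀ k, h k ≤ ε
  h_next : ∀ k, h (k + 1) ≤ h k ^ (1 + c)
  r_le : ∀ k, r (k + 1) ≤ r k * (1 - 12 * thI (h k))

/-- the facts on the kernel heights -/
structure SwDat (c C₀ c₀ ε : ℝ) (r h : ℕ → ℝ) (hh : ℕ → ℝ → ℝ) : Prop extends
    SeqIn c ε r h where
  cont : ∀ k, ContinuousOn (hh k) (Icc (TI r h (k + 1)) (TI r h k))
  up : ∀ k, hh k (TI r h (k + 1)) ≤ C₀ * h k ^ (1 + c)
  low : ∀ k, ∃ y, TI r h (k + 1) ≤ y ∧ y ≤ r (k + 1) * (1 + thI (h k)) ∧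
    30 * (y / r (k + 1) - 1) ≤ ((Real.log (hh k y)⁻¹)⁻¹) ^ 6 ∧
    c₀ * thI (h (k + 1)) ^ 3 * h (k + 1) ≤ hh k y ∧ hh k y ≤ C₀ * h k ^ (1 + c)
  low' : ∀ k, r (k + 1) < r k * (1 - 12 * thI (h k)) →
    c₀ * thI (h k) ^ 3 * h k ^ (1 + c) ≤ hh k (r (k + 1) * (1 + thI (h k)))

/-! ### smallness -/

lemma log_inv_eq (h : ℝ) : Real.log h⁻¹ = -Real.log h := Real.log_inv h

lemma tendsto_log_inv : Tendsto (fun h : ℝ => Real.log h⁻¹) (𝓝[>] 0) atTop := by
  simp only [log_inv_eq]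
  exact tendsto_neg_atBot_atTop.comp Real.tendsto_log_nhdsGT_zero

lemma tendsto_rpow_div (δ : ℝ) (hδ : 0 < δ) (N : ℕ) :
    Tendsto (fun h : ℝ => h ^ δ * (Real.log h⁻¹) ^ N) (𝓝[>] 0) (𝓝 0) := by
  rcases Nat.eq_zero_or_pos N with hN | hN
  · subst hN
    simp only [pow_zero, mul_one]
    have : Tendsto (fun h : ℝ => h ^ δ) (𝓝 0) (𝓝 (0 ^ δ)) :=
      (Real.continuousAt_rpow_const 0 δ (Or.inr hδ.le)).tendsto
    rw [Real.zero_rpow hδ.ne'] at this
    exact this.mono_left nhdsWithin_le_nhds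
  · have hN' : (0:ℝ) < N := by exact_mod_cast hN
    have h1 : Tendsto (fun h : ℝ => Real.log h * h ^ (δ / N)) (𝓝[>] 0) (𝓝 0) :=
      tendsto_log_mul_rpow_nhdsGT_zero (by positivity)
    have h2 : Tendsto (fun h : ℝ => (-(Real.log h * h ^ (δ / N))) ^ N) (𝓝[>] 0) (𝓝 ((-0) ^ N)) :=
      (h1.neg).pow N
    rw [neg_zero, zero_pow hN.ne'] at h2
    refine h2.congr' ?_
    filter_upwards [self_mem_nhdsWithin] with h hh
    have hh0 : (0:ℝ) < h := hh
    rw [log_inv_eq, ← neg_mul, mul_pow, ← Real.rpow_natCast (h ^ (δ / N)), ← Real.rpow_mul hh0.le,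
      div_mul_cancel₀ _ hN'.ne', mul_comm]

/-- powers of the height beat all powers of the collar -/
lemma ev_small {δ : ℝ} (hδ : 0 < δ) (N : ℕ) {η : ℝ} (hη : 0 < η) :
    ∀ᶠ h in 𝓝[>] (0:ℝ), h ^ δ ≤ η * thI h ^ N := by
  have h1 := (tendsto_rpow_div δ hδ (7 * N)).eventually (gt_mem_nhds hη)
  have h2 := tendsto_log_inv.eventually (eventually_gt_atTop 0)
  filter_upwards [h1, h2, self_mem_nhdsWithin] with h a b c
  have hp : 0 < Real.log h⁻¹ ^ (7 * N) := pow_pos b _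
  have e : thI h ^ N = (Real.log h⁻¹ ^ (7 * N))⁻¹ := by
    unfold thI
    rw [← pow_mul, inv_pow]
  rw [e, ← div_eq_mul_inv, le_div_iff₀ hp]
  exact a.le

/-- the smallness conditions at one height -/
structure Sm (c C₁ c₀ h : ℝ) : Prop where
  pos : 0 < h
  big : 10000 ≤ Real.log h⁻¹
  le_one : h ≤ 1
  s2 : C₁ * h ^ (1 + c) ≤ c₀ * thI h ^ 3 * h
  s3 : C₁ * h ^ (1 + c) ≤ (c₀ * thI h ^ 3 * h) ^ (1 + c / 2)
  s4 : C₁ * h ^ (1 + 9 / 5 * c) ≤
    (Real.exp (-11) * (c₀ * thI h ^ 3 * h ^ (1 + c))) ^ (1 + c / 2)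
  s5 : C₁ * h ^ (1 + c) ≤ h ^ (1 + c / 2)
  s6 : C₁ * h ^ (1 + 9 / 5 * c) ≤ Real.exp (-11) * (c₀ * thI h ^ 3 * h ^ (1 + c))
  s7 : h ^ 2 ≤ c₀ * thI h ^ 3 * h ^ (1 + c)
  s8 : C₁ * h ≤ 1 / 2
  s9 : C₁ * h ^ (1 + c) ≤ h

lemma thI_pos {h : ℝ} (hb : 0 < Real.log h⁻¹) : 0 < thI h := by
  unfold thI; positivity

lemma thI_le {h : ℝ} (hb : 10000 ≤ Real.log h⁻¹) : thI h ≤ 1 / 4000 := by
  unfold thI
  have h1 : (Real.log h⁻¹)⁻¹ ≤ 1 / 10000 := by
    rw [inv_eq_one_div]; exact one_div_le_one_div_of_le (by norm_num) hb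
  have h0 : 0 ≤ (Real.log h⁻¹)⁻¹ := by positivity
  calc (Real.log h⁻¹)⁻¹ ^ 7 ≤ (1 / 10000 : ℝ) ^ 7 := pow_le_pow_left₀ h0 h1 7
    _ ≤ 1 / 4000 := by norm_num

theorem exists_Sm {c C₁ c₀ : ℝ} (hc : 0 < c) (hc1 : c ≤ 1 / 100) (hC₁ : 0 < C₁) (hc₀ : 0 < c₀) :
    ∃ ε : ℝ, 0 < ε ∧ ε ≤ 1 ∧ ∀ h : ℝ, 0 < h → h ≤ ε → Sm c C₁ c₀ h := by
  have hE : 0 < Real.exp (-11) := Real.exp_pos _
  -- the eventual facts
  have key : ∀ᶠ h in 𝓝[>] (0:ℝ), Sm c C₁ c₀ h := by
    have a0 := tendsto_log_inv.eventually (eventually_ge_atTop 10000)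
    have a1 : ∀ᶠ h in 𝓝[>] (0:ℝ), h ≤ 1 := by
      filter_upwards [Ioo_mem_nhdsGT (show (0:ℝ) < 1 by norm_num)] with h hh using hh.2.le
    have a2 := ev_small hc 3 (η := c₀ / C₁) (by positivity)
    have a3 := ev_small (δ := c / 2) (by positivity) 6 (η := c₀ ^ (1 + c / 2) / C₁)
      (by positivity)
    have a4 := ev_small (δ := 1 / 5 * c) (by positivity) 6
      (η := (Real.exp (-11) * c₀) ^ (1 + c / 2) / C₁) (by positivity)
    have a5 := ev_small (δ := c / 2) (by positivity) 0 (η := 1 / C₁) (by positivity)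
    have a6 := ev_small (δ := 4 / 5 * c) (by positivity) 3
      (η := Real.exp (-11) * c₀ / C₁) (by positivity)
    have a7 := ev_small (δ := 1 - c) (by linarith) 3 (η := c₀) (by positivity)
    have a8 := ev_small (δ := 1) (by norm_num) 0 (η := 1 / 2 / C₁) (by positivity)
    filter_upwards [a0, a1, a2, a3, a4, a5, a6, a7, a8, self_mem_nhdsWithin] with h b0 b1 b2 b3 b4
      b5 b6 b7 b8 hpos
    have hp : (0:ℝ) < h := hpos
    have hθ : 0 < thI h := thI_pos (by linarith)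
    have hθ1 : thI h ≤ 1 := (thI_le b0).trans (by norm_num)
    have e1 : ∀ x y : ℝ, h ^ (x + y) = h ^ x * h ^ y := fun x y => Real.rpow_add hp x y
    have f2 : C₁ * h ^ c ≤ c₀ * thI h ^ 3 := by
      calc C₁ * h ^ c ≤ C₁ * (c₀ / C₁ * thI h ^ 3) := by gcongr
        _ = _ := by field_simp
    have f5 : C₁ * h ^ (c / 2) ≤ 1 := by
      calc C₁ * h ^ (c / 2) ≤ C₁ * (1 / C₁ * thI h ^ 0) := by gcongr
        _ = _ := by field_simp
    -- powers of the collar
    have hθp : thI h ^ 6 ≤ (thI h ^ 3) ^ (1 + c / 2) := by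
      have : (thI h ^ 3) ^ (1 + c / 2) = (thI h) ^ ((3:ℝ) * (1 + c / 2)) := by
        rw [← Real.rpow_natCast (thI h) 3, ← Real.rpow_mul hθ.le]; norm_num
      rw [this, ← Real.rpow_natCast (thI h) 6]
      exact Real.rpow_le_rpow_of_exponent_ge hθ hθ1 (by push_cast; linarith)
    refine ⟨hp, b0, b1, ?_, ?_, ?_, ?_, ?_, ?_, ?_, ?_⟩
    · rw [e1, Real.rpow_one]
      calc C₁ * (h * h ^ c) = (C₁ * h ^ c) * h := by ring
        _ ≤ _ := by gcongr
    · rw [Real.mul_rpow (by positivity) hp.le, Real.mul_rpow hc₀.le (by positivity)]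
      calc C₁ * h ^ (1 + c) = (C₁ * h ^ (c / 2)) * h ^ (1 + c / 2) := by
            rw [mul_assoc, ← e1]; congr 2; ring
        _ ≤ (C₁ * (c₀ ^ (1 + c / 2) / C₁ * thI h ^ 6)) * h ^ (1 + c / 2) := by gcongr
        _ = c₀ ^ (1 + c / 2) * thI h ^ 6 * h ^ (1 + c / 2) := by field_simp
        _ ≤ _ := by gcongr
    · have e3 : Real.exp (-11) * (c₀ * thI h ^ 3 * h ^ (1 + c)) =
          (Real.exp (-11) * c₀) * thI h ^ 3 * h ^ (1 + c) := by ring
      rw [e3, Real.mul_rpow (by positivity) (by positivity), Real.mul_rpow (by positivity)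
        (by positivity), ← Real.rpow_mul hp.le]
      have e4 : h ^ (1 + 16 / 10 * c) ≤ h ^ ((1 + c) * (1 + c / 2)) :=
        Real.rpow_le_rpow_of_exponent_ge hp b1 (by nlinarith)
      calc C₁ * h ^ (1 + 9 / 5 * c) = (C₁ * h ^ (1 / 5 * c)) * h ^ (1 + 16 / 10 * c) := by
            rw [mul_assoc, ← e1]; congr 2; ring
        _ ≤ (C₁ * ((Real.exp (-11) * c₀) ^ (1 + c / 2) / C₁ * thI h ^ 6)) *
            h ^ ((1 + c) * (1 + c / 2)) := by
            gcongr
        _ = ((Real.exp (-11) * c₀) ^ (1 + c / 2) * thI h ^ 6) * h ^ ((1 + c) * (1 + c / 2)) := by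
            field_simp
        _ ≤ _ := by gcongr
    · calc C₁ * h ^ (1 + c) = (C₁ * h ^ (c / 2)) * h ^ (1 + c / 2) := by
            rw [mul_assoc, ← e1]; congr 2; ring
        _ ≤ 1 * h ^ (1 + c / 2) := by gcongr
        _ = _ := one_mul _
    · calc C₁ * h ^ (1 + 9 / 5 * c) = (C₁ * h ^ (4 / 5 * c)) * h ^ (1 + c) := by
            rw [mul_assoc, ← e1]; congr 2; ring
        _ ≤ (C₁ * (Real.exp (-11) * c₀ / C₁ * thI h ^ 3)) * h ^ (1 + c) := by gcongr
        _ = _ := by field_simp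
    · calc h ^ 2 = h ^ (1 - c) * h ^ (1 + c) := by
            rw [← e1, ← Real.rpow_natCast]; congr 1; push_cast; ring
        _ ≤ _ := by gcongr
    · rw [Real.rpow_one, pow_zero, mul_one] at b8
      calc C₁ * h ≤ C₁ * (1 / 2 / C₁) := by gcongr
        _ = _ := by field_simp
    · calc C₁ * h ^ (1 + c) = (C₁ * h ^ (c / 2)) * h ^ (1 + c / 2) := by
            rw [mul_assoc, ← e1]; congr 2; ring
        _ ≤ 1 * h ^ (1:ℝ) := by
            gcongr ?_ * ?_
            exact Real.rpow_le_rpow_of_exponent_ge hp b1 (by linarith)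
        _ = _ := by rw [one_mul, Real.rpow_one]
  rw [eventually_nhdsWithin_iff, Metric.eventually_nhds_iff] at key
  obtain ⟨ε, hε, h⟩ := key
  refine ⟨min (ε / 2) 1, by positivity, min_le_right _ _, fun x hx hxε => h ?_ hx⟩
  rw [dist_zero_right, Real.norm_eq_abs, abs_of_pos hx]
  linarith [min_le_left (ε / 2) 1]


/-! ### consequences of smallness -/

section

variable {c C₁ c₀ h h' p : ℝ}

lemma Sm.th_pos (S : Sm c C₁ c₀ h) : 0 < thI h := thI_pos (by linarith [S.big])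

lemma Sm.th_le (S : Sm c C₁ c₀ h) : thI h ≤ 1 / 4000 := thI_le S.big

lemma Sm.th_mono (S : Sm c C₁ c₀ h) (h' : ℝ) (h0 : 0 < h') (hh : h' ≤ h) : thI h' ≤ thI h := by
  unfold thI
  have h1 : Real.log h⁻¹ ≤ Real.log h'⁻¹ :=
    Real.log_le_log (inv_pos.2 S.pos) (inv_anti₀ h0 hh)
  have h2 : 0 < Real.log h⁻¹ := by linarith [S.big]
  exact pow_le_pow_left₀ (inv_nonneg.2 (h2.le.trans h1)) (inv_anti₀ h2 h1) 7

/-- the adaptive collar at a point of height `p` is much larger than the collar of the windows -/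
lemma Sm.collar (S : Sm c C₁ c₀ h) (hp : h ^ 2 ≤ p) (hp1 : p ≤ 1 / 2) :
    100 * thI h ≤ ((Real.log p⁻¹)⁻¹) ^ 6 := by
  have hp0 : 0 < p := lt_of_lt_of_le (pow_pos S.pos 2) hp
  have hb := S.big
  have h1 : Real.log p⁻¹ ≤ 2 * Real.log h⁻¹ := by
    have : Real.log p⁻¹ ≤ Real.log (h ^ 2)⁻¹ :=
      Real.log_le_log (inv_pos.2 hp0) (inv_anti₀ (pow_pos S.pos 2) hp)
    rw [← inv_pow, Real.log_pow] at this
    exact_mod_cast this
  have h2 : 0 < Real.log p⁻¹ := Real.log_pos (by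
    rw [one_lt_inv₀ hp0]; linarith)
  have h3 : (2 * Real.log h⁻¹)⁻¹ ^ 6 ≤ ((Real.log p⁻¹)⁻¹) ^ 6 :=
    pow_le_pow_left₀ (by positivity) (inv_anti₀ h2 h1) 6
  refine le_trans ?_ h3
  unfold thI
  set L := Real.log h⁻¹ with hL
  have hL0 : 0 < L := by linarith
  rw [inv_pow, inv_pow, mul_pow, mul_inv, ← div_eq_mul_inv, ← div_eq_mul_inv,
    div_le_div_iff₀ (by positivity) (by positivity)]
  have : (100:ℝ) * 2 ^ 6 ≤ L := by linarith
  rw [inv_mul_eq_div, le_div_iff₀ (by norm_num)]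
  calc 100 * L ^ 6 * 2 ^ 6 = (100 * 2 ^ 6) * L ^ 6 := by ring
    _ ≤ L * L ^ 6 := by gcongr
    _ = L ^ 7 := by ring

/-- intermediate value lemma -/
lemma exists_mid {f : ℝ → ℝ} {a b A B : ℝ} (hab : a ≤ b) (hf : ContinuousOn f (Icc a b))
    (hA : f a ≤ A) (hB : B ≤ f b) (hBA : B ≤ A) : ∃ y ∈ Icc a b, B ≤ f y ∧ f y ≤ A := by
  rcases le_or_gt (f b) A with h | h
  · exact ⟨b, right_mem_Icc.2 hab, hB, h⟩
  · obtain ⟨y, hy, hyA⟩ := intermediate_value_Icc hab hf ⟨hA, h.le⟩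
    exact ⟨y, hy, by rw [hyA]; exact hBA, hyA.le⟩

end

/-! ### the sequences -/

section

variable {c C₀ C₁ c₀ ε : ℝ} {r h : ℕ → ℝ} {hh : ℕ → ℝ → ℝ}

lemma SeqIn.h_mono (I : SeqIn c ε r h) (hc : 0 < c) (hS : ∀ k, Sm c C₁ c₀ (h k)) (k : ℕ) :
    h (k + 1) ≤ h k := by
  refine (I.h_next k).trans ?_
  calc h k ^ (1 + c) ≤ h k ^ (1:ℝ) :=
        Real.rpow_le_rpow_of_exponent_ge (I.h_pos k) (hS k).le_one (by linarith)
    _ = h k := Real.rpow_one _

lemma SeqIn.th_mono (I : SeqIn c ε r h) (hc : 0 < c) (hS : ∀ k, Sm c C₁ c₀ (h k)) (k : ℕ) :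
    thI (h (k + 1)) ≤ thI (h k) :=
  (hS k).th_mono _ (I.h_pos _) (I.h_mono hc hS k)

/-- the collar above `r (k+1)` lies in window `k` -/
lemma SeqIn.le_TI (I : SeqIn c ε r h) (hS : ∀ k, Sm c C₁ c₀ (h k)) (k : ℕ) :
    r (k + 1) * (1 + thI (h k)) ≤ TI r h k := by
  have h1 := (hS k).th_pos
  have h2 := (hS k).th_le
  have h3 := I.r_pos k
  calc r (k + 1) * (1 + thI (h k)) ≤ (r k * (1 - 12 * thI (h k))) * (1 + thI (h k)) := by
        gcongr; exact I.r_le k
    _ ≤ TI r h k := by unfold TI; nlinarith [mul_pos h3 h1, mul_pos (mul_pos h3 h1) h1]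

lemma SeqIn.TI_pos (I : SeqIn c ε r h) (hS : ∀ k, Sm c C₁ c₀ (h k)) (k : ℕ) : 0 < TI r h k :=
  mul_pos (I.r_pos k) (by linarith [(hS k).th_le])

lemma SeqIn.TI_le (I : SeqIn c ε r h) (hS : ∀ k, Sm c C₁ c₀ (h k)) (k : ℕ) :
    TI r h k ≤ r k := by
  have h1 := (hS k).th_pos
  have h3 := I.r_pos k
  unfold TI
  nlinarith [mul_pos h3 h1]

lemma SeqIn.TI_anti (I : SeqIn c ε r h) (hS : ∀ k, Sm c C₁ c₀ (h k)) (k : ℕ) :
    TI r h (k + 1) < TI r h k := by
  have h1 := (hS k).th_pos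
  have h3 := I.r_pos (k + 1)
  calc TI r h (k + 1) ≤ r (k + 1) := I.TI_le hS _
    _ < r (k + 1) * (1 + thI (h k)) := by nlinarith [mul_pos h3 h1]
    _ ≤ _ := I.le_TI hS k

/-- a point of window `k` slightly above `r (k+1)`, if the window is not tiny -/
lemma SwDat.exists_y' (I : SwDat c C₀ c₀ ε r h hh) (hc₀ : 0 < c₀)
    (hS : ∀ k, Sm c (max C₀ c₀) c₀ (h k)) (k : ℕ)
    (hk : r (k + 1) < r k * (1 - 12 * thI (h k))) :
    ∃ y, TI r h (k + 1) ≤ y ∧ y ≤ r (k + 1) * (1 + thI (h k)) ∧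
      c₀ * thI (h k) ^ 3 * h k ^ (1 + c) ≤ hh k y ∧ hh k y ≤ max C₀ c₀ * h k ^ (1 + c) := by
  have h1 := I.le_TI hS k
  have h3 := I.r_pos (k + 1)
  have h4 : TI r h (k + 1) ≤ r (k + 1) * (1 + thI (h k)) :=
    (I.TI_le hS _).trans (by nlinarith [mul_pos h3 (hS k).th_pos])
  have hp : 0 < h k ^ (1 + c) := Real.rpow_pos_of_pos (I.h_pos k) _
  have ht := (hS k).th_pos
  have ht1 := (hS k).th_le
  have hC : 0 < max C₀ c₀ := lt_max_of_lt_right hc₀
  obtain ⟨y, hy, a, b⟩ := exists_mid (A := max C₀ c₀ * h k ^ (1 + c))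
    (B := c₀ * thI (h k) ^ 3 * h k ^ (1 + c)) h4
    ((I.cont k).mono (Icc_subset_Icc le_rfl h1))
    ((I.up k).trans (mul_le_mul_of_nonneg_right (le_max_left _ _) hp.le)) (I.low' k hk)
    (by
      have : thI (h k) ^ 3 ≤ 1 := pow_le_one₀ ht.le (by linarith)
      calc c₀ * thI (h k) ^ 3 * h k ^ (1 + c) ≤ c₀ * 1 * h k ^ (1 + c) := by gcongr
        _ = c₀ * h k ^ (1 + c) := by ring
        _ ≤ _ := by gcongr; exact le_max_right _ _)
  exact ⟨y, hy.1, hy.2, a, b⟩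

/-- a point `y ≤ R (1 + s)` is in the adaptive collar `δ` of every `t ≥ R (1 - 60 θ)` -/
lemma in_collar {R θ δ t y : ℝ} (hR : 0 < R) (hθ : 0 < θ) (hθ1 : θ ≤ 1 / 4000)
    (hδ : 100 * θ ≤ δ) (ht : R * (1 - 60 * θ) ≤ t)
    (hy : 30 * (y / R - 1) ≤ δ) : y ≤ t * (1 + δ) := by
  have h1 : 0 ≤ R * (1 - 60 * θ) := mul_nonneg hR.le (by linarith)
  have h2 : y ≤ R * (1 + δ / 30) := by
    have : y / R ≤ 1 + δ / 30 := by linarith
    rw [div_le_iff₀ hR] at this
    linarith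
  have h3 : 0 < δ := by linarith
  calc y ≤ R * (1 + δ / 30) := h2
    _ ≤ (R * (1 - 60 * θ)) * (1 + δ) := by
        have : 1 + δ / 30 ≤ (1 - 60 * θ) * (1 + δ) := by nlinarith
        calc R * (1 + δ / 30) ≤ R * ((1 - 60 * θ) * (1 + δ)) := by gcongr
          _ = _ := by ring
    _ ≤ t * (1 + δ) := by gcongr

/-- **the switches** -/
theorem switch_fields (hc : 0 < c) (hc₀ : 0 < c₀) {X : ABS.Chain}
    (I : SwDat c C₀ c₀ ε r h X.h) (hS : ∀ k, Sm c (max C₀ c₀) c₀ (h k))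
    (hfirst : r 1 < r 0 * (1 - 12 * thI (h 0))) (hT : X.T = TI r h) (hXc : X.c = c / 2)
    (hJ : ∀ k, |X.H (k + 1) (X.T (k + 1)) - X.H k (X.T (k + 1))| ≤
        X.T (k + 1) ^ 2 * (C₀ * h k ^ (1 + 9 / 5 * c)) ∧
      |X.a (k + 1) (X.T (k + 1)) - X.a k (X.T (k + 1))| ≤
        X.T (k + 1) ^ 2 * (C₀ * h k ^ (1 + 9 / 5 * c))) :
    ∃ e : ℕ → ℝ, (∀ k, 0 < e k) ∧ (∀ k, e (k + 1) ≤ e k ^ (1 + X.c)) ∧
      (∀ k t S, X.T (k + 1) ≤ t → X.Bdd t S → e (k + 1) ≤ S) ∧
      ∀ k, X.Jump k (X.h k (X.T (k + 1))) ∧ X.h k (X.T (k + 1)) ≤ e k ∨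
        ∃ l y, X.Near k l y ∧ X.Jump k (X.h l y) ∧ X.h l y ≤ e k ∧
          Real.exp 10 * X.h k (X.T (k + 1)) ≤ X.h l y ∧
          Real.exp 10 * X.h (k + 1) (X.T (k + 1)) ≤ X.h l y := by
  have hC : 0 < max C₀ c₀ := lt_max_of_lt_right hc₀
  choose y hy1 hy2 hy5 hy3 hy4 using I.low
  -- the heights of the switches
  let e : ℕ → ℝ := fun k => Nat.casesOn k (h 0) (fun j => X.h j (y j))
  have e0 : e 0 = h 0 := rfl
  have e1 : ∀ j, e (j + 1) = X.h j (y j) := fun _ => rfl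
  have hh0 := I.h_pos
  have hθ := fun k => (hS k).th_pos
  have hθ1 := fun k => (hS k).th_le
  have hTp : ∀ k, 0 < X.T k := fun k => by rw [hT]; exact I.TI_pos hS k
  have hpw : ∀ k, 0 < h k ^ (1 + c) := fun k => Real.rpow_pos_of_pos (hh0 k) _
  have hmax : ∀ k, C₀ * h k ^ (1 + c) ≤ max C₀ c₀ * h k ^ (1 + c) := fun k =>
    mul_le_mul_of_nonneg_right (le_max_left _ _) (hpw k).le
  set C₁ := max C₀ c₀ with hC₁
  -- lower bounds of `e`
  have ehigh : ∀ k, C₁ * h k ^ (1 + c) ≤ e k := by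
    intro k
    cases k with
    | zero => rw [e0]; exact (hS 0).s9
    | succ j => rw [e1]; exact ((hS (j + 1)).s2).trans (hy3 j)
  have epos : ∀ k, 0 < e k := fun k =>
    lt_of_lt_of_le (mul_pos hC (hpw k)) (ehigh k)
  -- heights of the points near the switch
  have hc₀' : ∀ k, 0 < c₀ * thI (h k) ^ 3 * h k ^ (1 + c) := fun k =>
    mul_pos (mul_pos hc₀ (pow_pos (hθ k) 3)) (hpw k)
  have hpow1 : ∀ k, h k ^ (1 + c) ≤ h k := fun k => by
    calc h k ^ (1 + c) ≤ h k ^ (1:ℝ) :=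
          Real.rpow_le_rpow_of_exponent_ge (hh0 k) (hS k).le_one (by linarith)
      _ = h k := Real.rpow_one _
  have hmono : ∀ k, c₀ * thI (h k) ^ 3 * h k ^ (1 + c) ≤ c₀ * thI (h k) ^ 3 * h k := fun k =>
    mul_le_mul_of_nonneg_left (hpow1 k) (mul_nonneg hc₀.le (pow_pos (hθ k) 3).le)
  have hsmall : ∀ k, C₁ * h k ^ (1 + c) ≤ 1 / 2 := fun k =>
    (mul_le_mul_of_nonneg_left (hpow1 k) hC.le).trans (hS k).s8
  have hwin : ∀ k, X.Win k (y k) := fun k => by
    refine ⟨by rw [hT]; exact hy1 k, ?_⟩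
    rw [hT]
    exact (hy2 k).trans (I.le_TI hS k)
  have hcoll : ∀ k, 100 * thI (h (k + 1)) ≤ ((X.L k (y k))⁻¹) ^ 6 := fun k =>
    (hS (k + 1)).collar (((hS (k + 1)).s7.trans (hmono _)).trans (hy3 k))
      ((hy4 k).trans ((hmax k).trans (hsmall k)))
  have hRT : ∀ k, r k * (1 - 60 * thI (h k)) ≤ X.T k := fun k => by
    have := I.r_pos k
    have := hθ k
    rw [hT]; unfold TI; gcongr; norm_num
  refine ⟨e, epos, ?_, ?_, ?_⟩
  · -- growth
    intro k
    rw [hXc]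
    have h1 : e (k + 1) ≤ C₁ * h k ^ (1 + c) := by
      rw [e1]
      exact (hy4 k).trans (hmax k)
    refine h1.trans ?_
    cases k with
    | zero => rw [e0]; exact (hS 0).s5
    | succ j =>
      refine (hS (j + 1)).s3.trans ?_
      exact Real.rpow_le_rpow (mul_pos (mul_pos hc₀ (pow_pos (hθ _) 3)) (hh0 _)).le
        (by rw [e1]; exact hy3 j) (by linarith)
  · -- e_le
    intro k t S ht hB
    rw [e1]
    exact hB k (y k) (hwin k) (in_collar (I.r_pos (k + 1)) (hθ (k + 1)) (hθ1 _) (hcoll k)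
      ((hRT _).trans ht) (hy5 k))
  · -- the switch
    intro k
    -- the point near the switch
    have hP : ∃ l x, X.Near k l x ∧ c₀ * thI (h k) ^ 3 * h k ^ (1 + c) ≤ X.h l x ∧
        X.h l x ≤ e k := by
      by_cases hk : r (k + 1) < r k * (1 - 12 * thI (h k))
      · obtain ⟨x, a1, a2, a3, a4⟩ := I.exists_y' hc₀ hS k hk
        refine ⟨k, x, ⟨⟨by rw [hT]; exact a1, by rw [hT]; exact a2.trans (I.le_TI hS k)⟩,
          by rw [hT]; exact a1, ?_⟩, a3, a4.trans (ehigh k)⟩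
        have b1 : 100 * thI (h k) ≤ ((X.L k x)⁻¹) ^ 6 :=
          (hS k).collar ((hS k).s7.trans a3) (a4.trans (hsmall k))
        refine in_collar (I.r_pos (k + 1)) (hθ k) (hθ1 k) b1 ?_ ?_
        · refine le_trans ?_ (hRT (k + 1))
          have := I.r_pos (k + 1)
          have := I.th_mono hc hS k
          gcongr
        · have h1 : x / r (k + 1) ≤ 1 + thI (h k) := by
            rw [div_le_iff₀ (I.r_pos (k + 1))]; linarith
          have := hθ k
          linarith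
      · have hr : r (k + 1) = r k * (1 - 12 * thI (h k)) := le_antisymm (I.r_le k) (not_lt.1 hk)
        cases k with
        | zero => exact absurd hfirst hk
        | succ j =>
          refine ⟨j, y j, ⟨hwin j, ?_, ?_⟩, (hmono _).trans (hy3 j), le_of_eq (e1 j).symm⟩
          · rw [hT]
            exact (I.TI_anti hS (j + 1)).le.trans (hy1 j)
          · refine in_collar (I.r_pos (j + 1)) (hθ (j + 1)) (hθ1 _) (hcoll j) ?_ (hy5 j)
            rw [hT]; unfold TI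
            rw [hr]
            have a1 := I.th_mono hc hS (j + 1)
            have a2 := hθ (j + 1)
            have a3 := hθ1 (j + 1)
            have a4 := hθ (j + 2)
            have a5 := I.r_pos (j + 1)
            have e9 : j + 1 + 1 = j + 2 := rfl
            rw [e9] at *
            rw [mul_assoc]
            refine mul_le_mul_of_nonneg_left ?_ a5.le
            nlinarith [mul_pos a2 a4]
    obtain ⟨l, x, hN, hp1, hp2⟩ := hP
    have hE : 0 < Real.exp (-11) := Real.exp_pos _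
    have hE1 : Real.exp (-11) ≤ 1 := Real.exp_le_one_iff.2 (by norm_num)
    have hJC : C₀ * h k ^ (1 + 9 / 5 * c) ≤ C₁ * h k ^ (1 + 9 / 5 * c) :=
      mul_le_mul_of_nonneg_right (le_max_left _ _) (Real.rpow_pos_of_pos (hh0 k) _).le
    -- jumps
    have hjump : ∀ g, Real.exp (-11) * (c₀ * thI (h k) ^ 3 * h k ^ (1 + c)) ≤ g → X.Jump k g := by
      intro g hg
      have h1 : C₀ * h k ^ (1 + 9 / 5 * c) ≤ g ^ (1 + X.c) := by
        rw [hXc]
        exact (hJC.trans (hS k).s4).trans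
          (Real.rpow_le_rpow (mul_pos hE (hc₀' k)).le hg (by linarith))
      have h2 : X.T (k + 1) ^ 2 * (C₀ * h k ^ (1 + 9 / 5 * c)) ≤
          X.T (k + 1) ^ 2 * g ^ (1 + X.c) :=
        mul_le_mul_of_nonneg_left h1 (sq_nonneg _)
      exact ⟨(hJ k).1.trans h2, (hJ k).2.trans h2⟩
    have hg1 : X.h k (X.T (k + 1)) ≤ e k := by
      have h1 := I.up k
      rw [hT]
      exact (h1.trans (hmax k)).trans (ehigh k)
    have hp0 : 0 < X.h l x := (hc₀' k).trans_le hp1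
    by_cases hreg : Real.exp (-11) * (c₀ * thI (h k) ^ 3 * h k ^ (1 + c)) ≤
        X.h k (X.T (k + 1))
    · exact Or.inl ⟨hjump _ hreg, hg1⟩
    · right
      have hlt := not_le.1 hreg
      have hJs : C₀ * h k ^ (1 + 9 / 5 * c) ≤
          Real.exp (-11) * (c₀ * thI (h k) ^ 3 * h k ^ (1 + c)) := hJC.trans (hS k).s6
      have h2 : Real.exp 10 * Real.exp (-11) ≤ 1 / 2 := by
        rw [← Real.exp_add]
        norm_num
        rw [Real.exp_neg, inv_le_comm₀ (Real.exp_pos _) (by norm_num)]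
        have := Real.add_one_le_exp (1:ℝ)
        linarith
      refine ⟨l, x, hN, hjump _ (le_trans ?_ hp1), hp2, ?_, ?_⟩
      · calc Real.exp (-11) * (c₀ * thI (h k) ^ 3 * h k ^ (1 + c)) ≤
              1 * (c₀ * thI (h k) ^ 3 * h k ^ (1 + c)) := by
                gcongr; exact (hc₀' k).le
          _ = _ := one_mul _
      · calc Real.exp 10 * X.h k (X.T (k + 1)) ≤
              Real.exp 10 * (Real.exp (-11) * (c₀ * thI (h k) ^ 3 * h k ^ (1 + c))) := by gcongr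
          _ = (Real.exp 10 * Real.exp (-11)) * (c₀ * thI (h k) ^ 3 * h k ^ (1 + c)) := by ring
          _ ≤ 1 * (c₀ * thI (h k) ^ 3 * h k ^ (1 + c)) := by
              gcongr
              · exact (hc₀' k).le
              · linarith
          _ ≤ _ := by rw [one_mul]; exact hp1
      · have h3 : X.h (k + 1) (X.T (k + 1)) - X.h k (X.T (k + 1)) ≤
            C₀ * h k ^ (1 + 9 / 5 * c) := by
          unfold ABS.Chain.h
          rw [← sub_div, div_le_iff₀ (by have := hTp (k + 1); positivity)]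
          calc _ ≤ |X.H (k + 1) (X.T (k + 1)) - X.H k (X.T (k + 1))| := le_abs_self _
            _ ≤ _ := (hJ k).1
            _ = _ := by ring
        have h4 : X.h (k + 1) (X.T (k + 1)) ≤
            2 * (Real.exp (-11) * (c₀ * thI (h k) ^ 3 * h k ^ (1 + c))) := by linarith
        calc Real.exp 10 * X.h (k + 1) (X.T (k + 1)) ≤
              Real.exp 10 * (2 * (Real.exp (-11) * (c₀ * thI (h k) ^ 3 * h k ^ (1 + c)))) := by
                gcongr
          _ = 2 * (Real.exp 10 * Real.exp (-11)) * (c₀ * thI (h k) ^ 3 * h k ^ (1 + c)) := by ring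
          _ ≤ 1 * (c₀ * thI (h k) ^ 3 * h k ^ (1 + c)) := by
              gcongr
              · exact (hc₀' k).le
              · linarith
          _ ≤ _ := by rw [one_mul]; exact hp1

/-- the collars decrease geometrically -/
lemma SeqIn.th_geom (I : SeqIn c ε r h) (hc : 0 < c) (hb : ∀ k, 0 < Real.log (h k)⁻¹) (k : ℕ) :
    thI (h k) ≤ ((1 + c)⁻¹ ^ 7) ^ k * thI (h 0) := by
  induction k with
  | zero => simp
  | succ k ih =>
    have h1 : (1 + c) * Real.log (h k)⁻¹ ≤ Real.log (h (k + 1))⁻¹ := by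
      have h2 : Real.log (h (k + 1)) ≤ (1 + c) * Real.log (h k) := by
        rw [← Real.log_rpow (I.h_pos k)]
        exact Real.log_le_log (I.h_pos _) (I.h_next k)
      rw [Real.log_inv, Real.log_inv]
      linarith
    have h3 : thI (h (k + 1)) ≤ (1 + c)⁻¹ ^ 7 * thI (h k) := by
      unfold thI
      rw [← mul_pow]
      have h0 : 0 < (1 + c) * Real.log (h k)⁻¹ := mul_pos (by linarith) (hb k)
      rw [← mul_inv]
      exact pow_le_pow_left₀ (inv_nonneg.2 (h0.le.trans h1)) (inv_anti₀ h0 h1) 7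
    calc thI (h (k + 1)) ≤ (1 + c)⁻¹ ^ 7 * thI (h k) := h3
      _ ≤ (1 + c)⁻¹ ^ 7 * (((1 + c)⁻¹ ^ 7) ^ k * thI (h 0)) := by gcongr
      _ = _ := by ring

/-- there is a window which is not tiny -/
theorem exists_first (hc : 0 < c) : ∃ ε : ℝ, 0 < ε ∧ ∀ (r h : ℕ → ℝ), SeqIn c ε r h →
    Tendsto r atTop (𝓝 0) → ∃ k, r (k + 1) < r k * (1 - 12 * thI (h k)) := by
  set q : ℝ := (1 + c)⁻¹ ^ 7 with hq
  have hqp : 0 < q := by positivity
  have hq0 : 0 ≤ q := hqp.le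
  have hq1 : q < 1 := pow_lt_one₀ (by positivity) (inv_lt_one_of_one_lt₀ (by linarith))
    (by norm_num)
  -- small collars
  have hev : ∀ᶠ x in 𝓝[>] (0:ℝ), 24 * thI x ≤ 1 - q := by
    have h1 : Tendsto (fun x : ℝ => 24 * thI x) (𝓝[>] 0) (𝓝 (24 * 0 ^ 7)) := by
      refine Tendsto.const_mul _ (Tendsto.pow ?_ 7)
      exact tendsto_inv_atTop_zero.comp tendsto_log_inv
    have h2 : (24 * 0 ^ 7 : ℝ) < 1 - q := by simpa using hq1
    filter_upwards [h1.eventually (gt_mem_nhds h2)] with x hx using hx.le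
  have hev2 : ∀ᶠ x in 𝓝[>] (0:ℝ), 0 < Real.log x⁻¹ :=
    tendsto_log_inv.eventually (eventually_gt_atTop 0)
  have hev3 := hev.and hev2
  rw [eventually_nhdsWithin_iff, Metric.eventually_nhds_iff] at hev3
  obtain ⟨ε, hε, hE⟩ := hev3
  refine ⟨ε / 2, by positivity, fun r h I hr => ?_⟩
  have hE' : ∀ k, 24 * thI (h k) ≤ 1 - q ∧ 0 < Real.log (h k)⁻¹ := fun k => by
    refine hE ?_ (I.h_pos k)
    rw [dist_zero_right, Real.norm_eq_abs, abs_of_pos (I.h_pos k)]
    linarith [I.h_le k]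
  by_contra hno
  push Not at hno
  have hth : ∀ k, 0 < thI (h k) := fun k => thI_pos (hE' k).2
  have hr0 := I.r_pos
  have hle : ∀ k, r k ≤ r 0 := by
    intro k
    induction k with
    | zero => exact le_rfl
    | succ k ih =>
      refine (I.r_le k).trans (le_trans ?_ ih)
      nlinarith [mul_pos (hr0 k) (hth k)]
  have hgeo : ∀ k, r 0 * (1 - 12 * thI (h 0) * ∑ i ∈ Finset.range k, q ^ i) ≤ r k := by
    intro k
    induction k with
    | zero => simp
    | succ k ih =>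
      have h1 := hno k
      have h2 := I.th_geom hc (fun k => (hE' k).2) k
      rw [Finset.sum_range_succ]
      have h3 : r k * thI (h k) ≤ r 0 * (q ^ k * thI (h 0)) := by
        have := hle k
        have := (hr0 k).le
        have := (hr0 0).le
        have := (hth k).le
        gcongr
      nlinarith
  have hsum : ∀ k, ∑ i ∈ Finset.range k, q ^ i ≤ (1 - q)⁻¹ := fun k => by
    rw [inv_eq_one_div, le_div_iff₀ (by linarith), geom_sum_mul_neg]
    linarith [pow_nonneg hq0 k]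
  have hhalf : ∀ k, r 0 / 2 ≤ r k := fun k => by
    refine le_trans ?_ (hgeo k)
    have h1 := hsum k
    have h2 := (hE' 0).1
    have h3 := hth 0
    have h4 : 0 < 1 - q := by linarith
    have h5 : 12 * thI (h 0) * ∑ i ∈ Finset.range k, q ^ i ≤ 1 / 2 := by
      calc 12 * thI (h 0) * ∑ i ∈ Finset.range k, q ^ i ≤ ((1 - q) / 2) * (1 - q)⁻¹ := by
            gcongr
            · exact Finset.sum_nonneg fun i _ => pow_nonneg hq0 i
            · linarith
        _ = 1 / 2 := by field_simp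
    have h6 := hr0 0
    nlinarith
  have := ge_of_tendsto' hr hhalf
  linarith [hr0 0]

lemma SeqIn.shift (I : SeqIn c ε r h) (k₀ : ℕ) :
    SeqIn c ε (fun k => r (k + k₀)) (fun k => h (k + k₀)) where
  r_pos k := I.r_pos _
  h_pos k := I.h_pos _
  h_le k := I.h_le _
  h_next k := by
    have := I.h_next (k + k₀)
    rwa [show k + k₀ + 1 = k + 1 + k₀ by ring] at this
  r_le k := by
    have := I.r_le (k + k₀)
    rwa [show k + k₀ + 1 = k + 1 + k₀ by ring] at this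

end

end

end Vale.Agent.P214.INST
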