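import Vale.Agent.P214.INST.Props
import Vale.Agent.P214.INST.Sw

/-!
# P214, block INST: [FAT], there is a window which is not tiny (helper700)
-/

open Set Filter Topology MeasureTheory Metric
open scoped RealInnerProductSpace ContDiff

namespace Vale.Agent.P214.INST

open WIN WSEQ FM

variable {m n Q : ℕ} {E : Type*} [NormedAddCommGroup E] [InnerProductSpace ℝ E]
  [FiniteDimensional ℝ E] [MeasurableSpace E] [BorelSpace E]
variable {T : Submodule ℝ E} {F : Frame m n T} {ν : Measure E} {P : E → E →L[ℝ] E} {Kp : Set E}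
  {δ : ℝ → ℝ} {X : Exps} {C C₅ ε : ℝ}

lemma thI_eq (h : ℝ) : thI h = th h := rfl

/-- the radii and heights of a windows sequence -/
lemma seqIn (S : WSeq m n Q T F ν P Kp δ X C C₅ ε) {ε' : ℝ} (hε : ε ≤ ε') :
    SeqIn X.c ε' S.r S.h where
  r_pos := S.r_pos
  h_pos := S.h_pos
  h_le k := (S.h_le k).trans hε
  h_next k := by rw [S.h_eq (k + 1)]; exact (S.nxt k).h_next
  r_le k := (S.nxt k).r_le

/-- **[FAT]** -/
theorem fatStmt (E : Type*) [NormedAddCommGroup E] [InnerProductSpace ℝ E] [FiniteDimensional ℝ E]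
    [MeasurableSpace E] [BorelSpace E] (m n Q : ℕ) : FatStmt E m n Q := by
  intro X C C₅
  by_cases hc : 0 < X.c
  · obtain ⟨ε₀, hε₀, h⟩ := exists_first hc
    exact ⟨ε₀, hε₀, fun T F ν P Kp δ ε τ S _ hε => h S.r S.h (seqIn S hε) S.r_lim⟩
  · exact ⟨1, one_pos, fun T F ν P Kp δ ε τ S hS _ => absurd hS.ok.c_pos hc⟩

end Vale.Agent.P214.INST
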