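import Vale.Agent.P214.INST.KerProps
import Vale.Agent.P214.INST.Asm
import Vale.Agent.P214.INST.Base
import Vale.Agent.P214.INST.Fat
import Vale.Agent.P214.WSEQ.AccSum
import Vale.Agent.P214.HSW.Sup

/-!
# P214, block INST, [B1]: proof of `KerStmt` (helper700)
-/

open Set Filter Topology MeasureTheory Metric
open scoped RealInnerProductSpace ContDiff

set_option linter.all false

namespace Vale.Agent.P214.INST

open WIN WSEQ FM

variable {m n Q : ℕ} {E : Type*} [NormedAddCommGroup E] [InnerProductSpace ℝ E]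
  [FiniteDimensional ℝ E] [MeasurableSpace E] [BorelSpace E]
variable {T : Submodule ℝ E} {F : Frame m n T} {ν : Measure E} {P : E → E →L[ℝ] E} {Kp : Set E}
  {δ : ℝ → ℝ} {X : Exps} {C C₅ ε : ℝ}

lemma bx_zero (T : Submodule ℝ E) (y : E) : ODE.bx T 0 y = T.starProjection y := by
  rw [ODE.bx_eq, map_zero, sub_zero]

lemma setOf_bx_zero (T : Submodule ℝ E) (s : ℝ) :
    {y : E | ‖ODE.bx T 0 y‖ < s} = Skel.cylSet T 0 s := by
  ext y
  show ‖ODE.bx T 0 y‖ < s ↔ T.starProjection y ∈ ball (0:E) s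
  rw [bx_zero, mem_ball_zero_iff]

/-- the basic numbers of a windows sequence -/
structure Num (S : WSeq m n Q T F ν P Kp δ X C C₅ ε) (j : ℕ) : Prop where
  hpos : 0 < S.h j
  h1 : S.h j ≤ 1 / 2
  rpos : 0 < S.r j
  rle : S.r j ≤ 3 / 16
  th_pos : 0 < th (S.h j)
  th_le : th (S.h j) ≤ 1 / 120
  quart : S.h j ^ (1 / 4 : ℝ) ≤ 1 / 16 * th (S.h j)

/-- smallness for `Num` -/
lemma exists_num : ∃ b : ℝ, 0 < b ∧ b ≤ 1 / 2 ∧
    ∀ h : ℝ, 0 < h → h ≤ b → h ^ (1 / 4 : ℝ) ≤ 1 / 16 * th h := by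
  have h1 := ev_small (δ := 1 / 4) (by norm_num) 1 (η := 1 / 16) (by norm_num)
  rw [eventually_nhdsWithin_iff, Metric.eventually_nhds_iff] at h1
  obtain ⟨ε, hε, h⟩ := h1
  refine ⟨min (ε / 2) (1 / 2), by positivity, min_le_right _ _, fun x hx hxε => ?_⟩
  have h2 := h (y := x) (by
    rw [dist_zero_right, Real.norm_eq_abs, abs_of_pos hx]
    linarith [min_le_left (ε / 2) (1 / 2)]) hx
  rw [pow_one] at h2
  exact h2

lemma num_of (S : WSeq m n Q T F ν P Kp δ X C C₅ ε) {b : ℝ} (hb1 : b ≤ 1 / 2)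
    (hb : ∀ h : ℝ, 0 < h → h ≤ b → h ^ (1 / 4 : ℝ) ≤ 1 / 16 * th h) (hε : ε ≤ b) (j : ℕ) :
    Num S j := by
  have h1 := S.h_pos j
  have h2 := (S.h_le j).trans hε
  refine ⟨h1, h2.trans hb1, S.r_pos j, ?_, ?_, S.th_le j, hb _ h1 h2⟩
  · have h3 := S.r_anti (hε.trans (hb1.trans (by norm_num))) (Nat.zero_le j)
    rwa [S.r_zero] at h3
  · have := Real.rpow_pos_of_pos h1 (1 / 4 : ℝ)
    linarith [hb _ h1 h2]

/-- displacements are small at all scales `t ≥ r_j h_j^{2 c₅}` -/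
lemma disp_small {h r t c₅ : ℝ} (h0 : 0 < h) (h1 : h ≤ 1) (hr : 0 < r) (hc : c₅ ≤ 1 / 20)
    (ht : r * h ^ (2 * c₅) ≤ t) : r * h ^ (2 / 5 : ℝ) ≤ t * h ^ (1 / 4 : ℝ) := by
  have e1 : h ^ (2 / 5 : ℝ) ≤ h ^ (2 * c₅ + 1 / 4) :=
    Real.rpow_le_rpow_of_exponent_ge h0 h1 (by linarith)
  have e2 : h ^ (2 * c₅ + 1 / 4) = h ^ (2 * c₅) * h ^ (1 / 4 : ℝ) := Real.rpow_add h0 _ _
  calc r * h ^ (2 / 5 : ℝ) ≤ r * (h ^ (2 * c₅) * h ^ (1 / 4 : ℝ)) := by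
        rw [← e2]; gcongr
    _ = (r * h ^ (2 * c₅)) * h ^ (1 / 4 : ℝ) := by ring
    _ ≤ _ := by gcongr

/-- the kernel below: `(1 - s)^3 ≥ d³/4` -/
lemma ker_low {k : ℝ → ℝ} (hk : ∀ s, 0 ≤ s → s ≤ 1 → (1 - s) ^ 3 ≤ k s) {t d x : ℝ} (ht : 0 < t)
    (hd : 0 < d) (hd1 : d ≤ 1 / 2) (hx0 : 0 ≤ x) (hx : x ≤ t * (1 + d / 4)) :
    d ^ 3 / 4 ≤ k (x ^ 2 / (t * (1 + d)) ^ 2) := by
  have h1 : 0 < (t * (1 + d)) ^ 2 := by positivity
  have h2 : x ^ 2 ≤ (t * (1 + d / 4)) ^ 2 := pow_le_pow_left₀ hx0 hx 2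
  have h3 : x ^ 2 / (t * (1 + d)) ^ 2 ≤ 1 - 2 / 3 * d := by
    rw [div_le_iff₀ h1]
    refine h2.trans ?_
    have e1 : (t * (1 + d / 4)) ^ 2 = t ^ 2 * (1 + d / 4) ^ 2 := by ring
    have e2 : (1 - 2 / 3 * d) * (t * (1 + d)) ^ 2 = t ^ 2 * ((1 - 2 / 3 * d) * (1 + d) ^ 2) := by
      ring
    rw [e1, e2]
    have e3 : (1 + d / 4) ^ 2 ≤ (1 - 2 / 3 * d) * (1 + d) ^ 2 := by
      nlinarith [mul_pos hd hd, mul_pos (mul_pos hd hd) hd]
    gcongr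
  have h4 := hk _ (div_nonneg (sq_nonneg x) h1.le) (h3.trans (by linarith))
  refine le_trans ?_ h4
  have h5 : 2 / 3 * d ≤ 1 - x ^ 2 / (t * (1 + d)) ^ 2 := by linarith
  calc d ^ 3 / 4 ≤ (2 / 3 * d) ^ 3 := by nlinarith [pow_pos hd 3]
    _ ≤ _ := pow_le_pow_left₀ (by positivity) h5 3

/-- the facts on one window which are used below -/
structure Wd (S : WSeq m n Q T F ν P Kp δ X C C₅ ε) (η : ℝ) (j : ℕ) : Prop where
  num : Num S j
  adm : Adm T (wr S j) η 1 (tube S j)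
  η_le : η ≤ 1 / 16
  sup : ∀ᵐ y ∂ν, T.starProjection y ∈ ball (0:E) (S.r j * (1 - 17 / 2 * th (S.h j))) →
      ‖FV.co T y - wr S j y‖ ≤ S.r j * S.h j ^ (2 / 5 : ℝ)
  slab : ∀ᵐ Y ∂(fmeas T (wr S j) (tube S j) ν), T.starProjection Y ∈ Gr S j →
      ‖FV.co T Y‖ ≤ 2 * (S.r j * S.h j ^ (2 / 5 : ℝ))
  int : ∀ s, s < 3 / 8 → IntegrableOn (fun y => ‖FV.co T y - wr S j y‖ ^ 2)
    (Skel.cylSet T 0 s) ν

variable {S : WSeq m n Q T F ν P Kp δ X C C₅ ε} {j : ℕ} {η t d B : ℝ} {k : ℝ → ℝ}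

namespace Wd

variable (W : Wd S η j)

include W

lemma slab' : ∀ᵐ y ∂ν, ‖T.starProjection (PsiInv T (wr S j) (tube S j) y)‖ <
    S.r j * (1 - 9 * th (S.h j)) →
      ‖FV.co T (PsiInv T (wr S j) (tube S j) y)‖ ≤ 2 * (S.r j * S.h j ^ (2 / 5 : ℝ)) := by
  filter_upwards [ae_of_ae_map W.adm.aem.aemeasurable W.slab] with y hy hlt
  exact hy (mem_ball_zero_iff.2 hlt)

lemma h_le_one : S.h j ≤ 1 := W.num.h1.trans (by norm_num)

lemma q_pos : 0 < S.h j ^ (1 / 4 : ℝ) := Real.rpow_pos_of_pos W.num.hpos _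

/-- (a) -/
lemma upper (hc : X.c₅ ≤ 1 / 20) (hk : Continuous k) (hk1 : ∀ s, 1 ≤ s → k s = 0)
    (hk2 : ∀ s, 0 ≤ s → k s ≤ B) (hk0 : ∀ s, 0 ≤ k s) (ht : S.r j * S.h j ^ (2 * X.c₅) ≤ t)
    (htr : t ≤ S.r j * (1 - 9 * th (S.h j))) :
    Hw m T ν k (tube S j) (wr S j) t ≤
      2 * B * 2 ^ (m + 2) * t ^ 2 * STR.hN m T (wr S j) ν (t * (1 + S.h j ^ (1 / 4 : ℝ))) := by
  have N := W.num
  have hr := N.rpos
  have hB : 0 ≤ B := (hk0 0).trans (hk2 0 le_rfl)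
  have hq := W.q_pos
  have hq1 : S.h j ^ (1 / 4 : ℝ) ≤ 1 := by linarith [N.quart, N.th_le]
  have ht0 : 0 < t := lt_of_lt_of_le (mul_pos hr (Real.rpow_pos_of_pos N.hpos _)) ht
  have htr1 : t ≤ S.r j := by nlinarith [N.th_pos]
  set t' := t * (1 + S.h j ^ (1 / 4 : ℝ)) with ht'
  have ht'0 : 0 < t' := by positivity
  have ht'2 : t' ≤ 2 * t := by rw [ht']; nlinarith
  have ht'8 : t' < 3 / 8 := by
    have := N.quart; have := N.th_le; have := N.rle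
    rw [ht']; nlinarith
  have hsub : ∀ᵐ y ∂ν, ‖ODE.bx T 0 (PsiInv T (wr S j) (tube S j) y)‖ < t →
      y ∈ Skel.cylSet T 0 t' := by
    filter_upwards [W.slab'] with y hy hlt
    rw [← setOf_bx_zero]
    have h1 := W.adm.bx_le' 0 y
    have h2 := hy (by rw [← bx_zero]; exact hlt.trans_le htr)
    have h3 := disp_small N.hpos W.h_le_one hr hc ht
    have h4 := W.adm.ref.eps_nonneg
    show ‖ODE.bx T 0 y‖ < t'
    calc ‖ODE.bx T 0 y‖ ≤ _ := h1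
      _ < t + 1 / 16 * (2 * (S.r j * S.h j ^ (2 / 5 : ℝ))) := by
          have : η * ‖FV.co T (PsiInv T (wr S j) (tube S j) y)‖ ≤
              1 / 16 * (2 * (S.r j * S.h j ^ (2 / 5 : ℝ))) := by
            have := W.η_le
            gcongr
          linarith
      _ ≤ t + 1 / 16 * (2 * (t * S.h j ^ (1 / 4 : ℝ))) := by gcongr
      _ ≤ t' := by rw [ht']; nlinarith [mul_pos ht0 hq]
  have h1 := W.adm.HF_le m hk hk1 hk2 hk0 ht0 (KMS.measurableSet_cylSet T 0 t')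
    (W.int t' ht'8) hsub
  refine h1.trans ?_
  have e1 : ∫ y in Skel.cylSet T 0 t', ‖FV.co T y - wr S j y‖ ^ 2 ∂ν =
      t' ^ (m + 2) * STR.hN m T (wr S j) ν t' := by
    unfold STR.hN WIN.hE KMS.rel
    field_simp
  rw [e1]
  have h0 : 0 ≤ STR.hN m T (wr S j) ν t' := by
    unfold STR.hN WIN.hE
    have : 0 ≤ ∫ y in Skel.cylSet T 0 t', ‖KMS.rel T (wr S j) y‖ ^ 2 ∂ν :=
      integral_nonneg fun _ => sq_nonneg _
    positivity
  calc 2 * B * (t ^ m)⁻¹ * (t' ^ (m + 2) * STR.hN m T (wr S j) ν t') ≤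
        2 * B * (t ^ m)⁻¹ * ((2 * t) ^ (m + 2) * STR.hN m T (wr S j) ν t') := by gcongr
    _ = _ := by rw [mul_pow, pow_add t]; field_simp

/-- the integrand of the kernel height is integrable at all scales `≤ r_j` -/
lemma integrable (hk : Continuous k) (hk1 : ∀ s, 1 ≤ s → k s = 0)
    (hk2 : ∀ s, 0 ≤ s → k s ≤ B) (hk0 : ∀ s, 0 ≤ k s) (ht0 : 0 < t) (htr : t ≤ S.r j) :
    Integrable (hIn T (wr S j) (tube S j) 0 k t) ν := by
  have N := W.num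
  have hr := N.rpos
  have h5 : S.r j + 2 * η * tube S j < 3 / 8 := by
    have h1 := W.η_le
    have h2 : 2 * η * tube S j ≤ 2 * (1 / 16) * (S.r j * (1 / 120)) := by
      have := W.adm.ref.eps_nonneg
      have := N.th_le
      have := N.th_pos
      unfold tube
      gcongr
    linarith [N.rle]
  refine W.adm.integrable_hIn hk hk1 hk2 hk0 ht0 (KMS.measurableSet_cylSet T 0
    (S.r j + 2 * η * tube S j)) (W.int _ h5) (Eventually.of_forall fun y hy => ?_)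
  rw [← setOf_bx_zero]
  have := W.adm.bx_le 0 y
  show ‖ODE.bx T 0 y‖ < _
  linarith

/-- (b) -/
lemma lower (hc : X.c₅ ≤ 1 / 20) (hk : Continuous k) (hk1 : ∀ s, 1 ≤ s → k s = 0)
    (hk2 : ∀ s, 0 ≤ s → k s ≤ B) (hk0 : ∀ s, 0 ≤ k s)
    (hk3 : ∀ s, 0 ≤ s → s ≤ 1 → (1 - s) ^ 3 ≤ k s) (ht : S.r j * S.h j ^ (2 * X.c₅) ≤ t)
    (hd : 4 * S.h j ^ (1 / 4 : ℝ) ≤ d) (hd1 : d ≤ 1 / 2)
    (htr : t * (1 + d) ≤ S.r j * (1 - 17 / 2 * th (S.h j))) :
    STR.hN m T (wr S j) ν t ≤ 16 * 2 ^ m * d⁻¹ ^ 3 * (t ^ 2)⁻¹ *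
      Hw m T ν k (tube S j) (wr S j) (t * (1 + d)) := by
  have N := W.num
  have hr := N.rpos
  have hq := W.q_pos
  have hd0 : 0 < d := by linarith
  have ht0 : 0 < t := lt_of_lt_of_le (mul_pos hr (Real.rpow_pos_of_pos N.hpos _)) ht
  have htd0 : 0 < t * (1 + d) := by positivity
  have htr1 : t * (1 + d) ≤ S.r j := by nlinarith [N.th_pos]
  have hlow : ∀ᵐ y ∂ν, y ∈ Skel.cylSet T 0 t →
      d ^ 3 / 4 ≤ k (aX T (wr S j) 0 (PsiInv T (wr S j) (tube S j) y) / (t * (1 + d)) ^ 2) := by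
    filter_upwards [W.sup] with y hy hyt
    have hyt' : ‖T.starProjection y‖ < t := by
      have h0 : T.starProjection y ∈ ball (0:E) t := hyt
      exact mem_ball_zero_iff.1 h0
    have h1 := W.adm.le_bx' 0 y
    have h2 := hy (by
      rw [mem_ball_zero_iff]
      refine hyt'.trans_le (le_trans ?_ htr)
      nlinarith)
    have h3 := disp_small N.hpos W.h_le_one hr hc ht
    have h4 := W.adm.ref.eps_nonneg
    have h5 := W.adm.co_le y
    unfold aX XX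
    refine ker_low hk3 ht0 hd0 hd1 (norm_nonneg _) ?_
    rw [bx_zero] at h1 ⊢
    rw [bx_zero] at h1
    calc _ ≤ _ := h1
      _ ≤ t + 1 / 16 * (256 / 255 * (t * S.h j ^ (1 / 4 : ℝ))) := by
          have : η * ‖FV.co T (PsiInv T (wr S j) (tube S j) y)‖ ≤
              1 / 16 * (256 / 255 * (t * S.h j ^ (1 / 4 : ℝ))) := by
            have := W.η_le
            calc _ ≤ 1 / 16 * (256 / 255 * ‖FV.co T y - wr S j y‖) := by gcongr
              _ ≤ _ := by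
                  gcongr
                  exact h2.trans h3
          linarith
      _ ≤ t * (1 + d / 4) := by nlinarith [mul_pos ht0 hq]
  have h1 := W.adm.HF_ge m (z := 0) hk0 htd0 (KMS.measurableSet_cylSet T 0 t)
    (W.integrable hk hk1 hk2 hk0 htd0 htr1) (by positivity : 0 ≤ d ^ 3 / 4) hlow
  have e1 : ∫ y in Skel.cylSet T 0 t, ‖FV.co T y - wr S j y‖ ^ 2 ∂ν =
      t ^ (m + 2) * STR.hN m T (wr S j) ν t := by
    unfold STR.hN WIN.hE KMS.rel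
    field_simp
  rw [e1] at h1
  have h0 : 0 ≤ STR.hN m T (wr S j) ν t := by
    unfold STR.hN WIN.hE
    have : 0 ≤ ∫ y in Skel.cylSet T 0 t, ‖KMS.rel T (wr S j) y‖ ^ 2 ∂ν :=
      integral_nonneg fun _ => sq_nonneg _
    positivity
  have h2' : t * (1 + d) ≤ 2 * t := by nlinarith
  have h2 : ((2 * t) ^ m)⁻¹ ≤ ((t * (1 + d)) ^ m)⁻¹ := by gcongr
  have h3 : d ^ 3 / 4 / 4 * ((2 * t) ^ m)⁻¹ * (t ^ (m + 2) * STR.hN m T (wr S j) ν t) ≤
      Hw m T ν k (tube S j) (wr S j) (t * (1 + d)) := by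
    refine le_trans ?_ h1
    gcongr
  have e2 : d ^ 3 / 4 / 4 * ((2 * t) ^ m)⁻¹ * (t ^ (m + 2) * STR.hN m T (wr S j) ν t) =
      d ^ 3 / (16 * 2 ^ m) * t ^ 2 * STR.hN m T (wr S j) ν t := by
    rw [mul_pow, pow_add]; field_simp; ring
  rw [e2] at h3
  calc STR.hN m T (wr S j) ν t =
        16 * 2 ^ m * d⁻¹ ^ 3 * (t ^ 2)⁻¹ * (d ^ 3 / (16 * 2 ^ m) * t ^ 2 *
          STR.hN m T (wr S j) ν t) := by field_simp
    _ ≤ _ := by gcongr

end Wd

/-- the facts `Wd` for all windows -/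
theorem ev_wd {η : ℝ} (hη : 0 < η) (hη0 : η ≤ eps0) (hR : RefsStmt E m n Q)
    (hC : CylStmt E m n Q) : Ev E m n Q fun _ _ _ _ _ _ X _ _ _ S => X.c₅ ≤ 1 / 20 ∧
      ∀ j, Wd S η j := by
  obtain ⟨b, hb0, hb1, hb⟩ := exists_num
  intro X C C₅
  obtain ⟨a, ha, h1⟩ := ((hR η hη hη0).and (hC η hη hη0)) X C C₅
  refine ⟨min a b, lt_min ha hb0, fun T F ν P Kp δ ε τ S hS hε => ?_⟩
  obtain ⟨h2, h3⟩ := h1 T F ν P Kp δ ε τ S hS (hε.trans (min_le_left _ _))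
  refine ⟨?_, fun j => ?_⟩
  · have e1 := hS.ok.c₅_le
    have e2 := hS.ok.c_le
    linarith
  · have N := num_of S hb1 hb (hε.trans (min_le_right _ _)) j
    have htube : 0 < tube S j := mul_pos N.rpos N.th_pos
    have htube1 : tube S j ≤ 1 / 16 := by
      have h4 := N.rle
      have h5 := N.th_le
      have h6 := N.th_pos
      have h7 := N.rpos
      unfold tube
      nlinarith
    have hI := hS.loc.int (3 / 8) (by norm_num) le_rfl
    have hu : ∀ a, ContDiff ℝ ∞ (S.u (j + 1) a) := (S.refe (j + 1)).smooth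
    refine ⟨N, (h2 j).1 _ htube htube1, hη0.trans eps0_le, (h3 j).1, (h3 j).2.1.slab, fun s hs => ?_⟩
    have := HSW.integrableOn_rel_sq hI.cyl (KMS.ref_lift (F := F) hu) 0 (s := s) (by
      rw [sub_zero, norm_zero, zero_add]; exact hs)
    exact this

/-- **[B1]** -/
theorem kerStmt {k k' K : ℝ → ℝ} {B : ℝ} (hk : Ker k k' K B) (hR : RefsStmt E m n Q)
    (hC : CylStmt E m n Q) : KerStmt E m n Q k := by
  have hB := hk.kb.one
  have h2m : (1:ℝ) ≤ 2 ^ m := one_le_pow₀ (by norm_num)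
  refine ⟨B * 2 ^ m * 16, by nlinarith, ?_⟩
  have hkc : Continuous k := hk.kb.kern.pk.continuous
  have hk1 := hk.kb.kern.pk.zero
  have hk2 := hk.kb.kB
  have hk0 := hk.kb.kern.nonneg
  refine (ev_wd eps0_pos le_rfl hR hC).mono fun T F ν P Kp δ X C C₅ ε τ S hS h j t ht => ?_
  obtain ⟨hc, hW⟩ := h
  have W := hW j
  refine ⟨fun htr => ?_, fun d hd hd1 htr => ?_⟩
  · have h0 : 0 ≤ STR.hN m T (wr S j) ν (t * (1 + S.h j ^ (1 / 4 : ℝ))) := by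
      have h1 := W.q_pos
      have h2 : 0 < t := lt_of_lt_of_le (mul_pos W.num.rpos
        (Real.rpow_pos_of_pos W.num.hpos _)) ht
      unfold STR.hN WIN.hE
      have : 0 ≤ ∫ y in Skel.cylSet T 0 (t * (1 + S.h j ^ (1 / 4 : ℝ))),
        ‖KMS.rel T (wr S j) y‖ ^ 2 ∂ν := integral_nonneg fun _ => sq_nonneg _
      positivity
    refine (W.upper hc hkc hk1 hk2 hk0 ht htr).trans ?_
    have h5 : 2 * B * 2 ^ (m + 2) ≤ B * 2 ^ m * 16 := by
      have : 0 ≤ B * 2 ^ m := by positivity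
      rw [pow_add]; linarith
    gcongr
  · refine (W.lower hc hkc hk1 hk2 hk0 hk.low ht hd hd1 htr).trans ?_
    have h2 : 0 < t := lt_of_lt_of_le (mul_pos W.num.rpos
      (Real.rpow_pos_of_pos W.num.hpos _)) ht
    have hq := W.q_pos
    have hd0 : 0 < d := by linarith
    have h0 : 0 ≤ Hw m T ν k (tube S j) (wr S j) (t * (1 + d)) := by
      have h3 := W.adm.HF_eq (ν := ν) m 0 k (t * (1 + d))
      unfold Hw
      rw [h3, zpow_neg, zpow_natCast]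
      have h4 : 0 ≤ ∫ y, hIn T (wr S j) (tube S j) 0 k (t * (1 + d)) y ∂ν :=
        integral_nonneg fun y =>
          (W.adm.hIn_le (z := 0) hk1 hk2 hk0 (by positivity : 0 < t * (1 + d)) y).1
      positivity
    have h5 : 16 * 2 ^ m ≤ B * 2 ^ m * 16 := by nlinarith
    gcongr

end Vale.Agent.P214.INST
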