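import Vale.Agent.P214.INST.Props
import Vale.Agent.P214.ODEW.Kern

/-!
# P214, block INST: the kernels `k(s) = (1-s)₊³`, `K(s) = (1-s)₊⁴/8`
-/

set_option linter.all false

namespace Vale.Agent.P214.INST

open ODEW

theorem ker3 : Ker k3 k3' K3 32 where
  kb := kb3
  anti := k3_antitoneOn
  low := fun s _ hs1 => by
    unfold k3
    rw [max_eq_left (by linarith)]
  up := fun s _ => by
    unfold k3
    have h : 0 ≤ (max (1 - s) 0) ^ 3 := by positivity
    linarith
  upK := fun s _ => by
    unfold K3
    have h : 0 ≤ (max (1 - s) 0) ^ 4 := by positivity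
    linarith

end Vale.Agent.P214.INST
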