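import Vale.Agent.P214.WSEQ.Props
import Vale.Agent.P214.ABS.Defs
import Vale.Agent.P214.FM.Real
import Vale.Agent.P214.LOCF.Props
import Vale.Agent.P214.ODEW.Abs

/-!
# P214, block INST: the chain of a good point, exact statements

Input: `Loc` and `WSeq` (block WINDOWS).  `chain` is the abstract chain of section ABS made of the
quantities `HF, jF, aF, bF` of section FM for the references `F.lift (u (k + k₀ + 1))`, centre `0`,
Fermi height (radius of the tube) `tube S j = θ_j r_j` in window `j` (helper856: so points outside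
of the window have no Fermi foot in it).  One proposition for every nontrivial field of
`ABS.Chain.Good`.
-/

open Set Filter Topology MeasureTheory Metric
open scoped RealInnerProductSpace ContDiff

namespace Vale.Agent.P214.INST

open WIN WSEQ FM

noncomputable section

/-- the properties of the kernels which are used (`k = (1-s)₊³`, `K = (1-s)₊⁴/8`) -/
structure Ker (k k' K : ℝ → ℝ) (B : ℝ) : Prop where
  kb : ODEW.KB k k' K B
  anti : AntitoneOn k (Ici 0)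
  low : ∀ s, 0 ≤ s → s ≤ 1 → (1 - s) ^ 3 ≤ k s
  up : ∀ s, 0 ≤ s → k s ≤ B * (max (1 - s) 0) ^ 3
  upK : ∀ s, 0 ≤ s → K s ≤ B * (max (1 - s) 0) ^ 4

variable {m n Q : ℕ} {E : Type*} [NormedAddCommGroup E] [InnerProductSpace ℝ E]
  [FiniteDimensional ℝ E] [MeasurableSpace E] [BorelSpace E]
variable {T : Submodule ℝ E} {F : Frame m n T} {ν : Measure E} {P : E → E →L[ℝ] E} {Kp : Set E}
  {δ : ℝ → ℝ} {X : Exps} {C C₅ ε : ℝ}

/-! ### the functions of one reference -/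

/-- height of the reference `w` at the scale `t` -/
def Hw (m : ℕ) (T : Submodule ℝ E) (ν : Measure E) (k : ℝ → ℝ) (h₁ : ℝ) (w : E → E) (t : ℝ) : ℝ :=
  HF m T w 0 k (fmeas T w h₁ ν) t

/-- outer integral -/
def jw (m : ℕ) (T : Submodule ℝ E) (ν : Measure E) (P : E → E →L[ℝ] E) (K : ℝ → ℝ) (h₁ : ℝ)
    (w : E → E) (t : ℝ) : ℝ :=
  jF m T w h₁ 0 K (fP T w h₁ P) (fmeas T w h₁ ν) t

/-- area excess -/
def aw (m Q : ℕ) (T : Submodule ℝ E) (ν : Measure E) (K : ℝ → ℝ) (h₁ : ℝ) (w : E → E)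
    (t : ℝ) : ℝ :=
  aF m Q T w 0 K (fmeas T w h₁ ν) t

/-- radial term -/
def bw (m : ℕ) (T : Submodule ℝ E) (ν : Measure E) (P : E → E →L[ℝ] E) (k : ℝ → ℝ) (h₁ : ℝ)
    (w : E → E) (t : ℝ) : ℝ :=
  bF m T w h₁ 0 k (fP T w h₁ P) (fmeas T w h₁ ν) t

/-! ### the chain -/

/-- the reference of window `j` of the sequence -/
def wr (S : WSeq m n Q T F ν P Kp δ X C C₅ ε) (j : ℕ) : E → E := F.lift (S.u (j + 1))

/-- the switch radii of the sequence -/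
def Tr (S : WSeq m n Q T F ν P Kp δ X C C₅ ε) (j : ℕ) : ℝ := S.r j * (1 - 10 * th (S.h j))

/-- the Fermi height (radius of the tube around the graph of the reference) of window `j` -/
def tube (S : WSeq m n Q T F ν P Kp δ X C C₅ ε) (j : ℕ) : ℝ := S.r j * th (S.h j)

/-- the open ball over which the Fermi coordinates of window `j` are used -/
def Gr (S : WSeq m n Q T F ν P Kp δ X C C₅ ε) (j : ℕ) : Set E :=
  ball (0:E) (S.r j * (1 - 9 * th (S.h j)))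

/-- the abstract chain, started at window `k₀` of the sequence -/
def chain (k K : ℝ → ℝ) (κ : ℝ) (e : ℕ → ℝ) (S : WSeq m n Q T F ν P Kp δ X C C₅ ε) (k₀ : ℕ) :
    ABS.Chain where
  T j := Tr S (k₀ + j)
  H j := Hw m T ν k (tube S (k₀ + j)) (wr S (k₀ + j))
  j i := jw m T ν P K (tube S (k₀ + i)) (wr S (k₀ + i))
  a j := aw m Q T ν K (tube S (k₀ + j)) (wr S (k₀ + j))
  b j := bw m T ν P k (tube S (k₀ + j)) (wr S (k₀ + j))
  H' j := deriv (Hw m T ν k (tube S (k₀ + j)) (wr S (k₀ + j)))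
  a' j := deriv (aw m Q T ν K (tube S (k₀ + j)) (wr S (k₀ + j)))
  κ := κ
  c := X.c / 2
  m := m
  e := e

/-- window `k₀` is not tiny -/
def Fat (S : WSeq m n Q T F ν P Kp δ X C C₅ ε) (k₀ : ℕ) : Prop :=
  S.r (k₀ + 1) < S.r k₀ * (1 - 12 * th (S.h k₀))

/-- the facts which are available at a good point -/
structure Ctx (τ : ℝ) (S : WSeq m n Q T F ν P Kp δ X C C₅ ε) : Prop where
  m_pos : 1 ≤ m
  Q_pos : 1 ≤ Q
  ok : X.OK m
  loc : Loc m Q T ν P Kp δ τ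
  C_one : 1 ≤ C
  C₅_nn : 0 ≤ C₅
  ε_pos : 0 < ε
  τ_pos : 0 < τ
  τ_le : τ ≤ ε
  /-- the point is not regular -/
  irr : ∀ ρ, 0 < ρ → ∀ w : E → E, ¬ ALL.OnGraph T ν ρ w

/-- For all small `ε`, at every good point: the common frame of all the statements.  `p` is the
statement about one sequence. -/
def Ev (E : Type*) [NormedAddCommGroup E] [InnerProductSpace ℝ E] [FiniteDimensional ℝ E]
    [MeasurableSpace E] [BorelSpace E] (m n Q : ℕ)
    (p : ∀ (T : Submodule ℝ E) (F : Frame m n T) (ν : Measure E) (P : E → E →L[ℝ] E) (Kp : Set E)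
      (δ : ℝ → ℝ) (X : Exps) (C C₅ ε : ℝ), WSeq m n Q T F ν P Kp δ X C C₅ ε → Prop) : Prop :=
  ∀ (X : Exps) (C C₅ : ℝ), ∃ ε₀ > 0, ∀ (T : Submodule ℝ E) (F : Frame m n T) (ν : Measure E)
    (P : E → E →L[ℝ] E) (Kp : Set E) (δ : ℝ → ℝ) (ε τ : ℝ)
    (S : WSeq m n Q T F ν P Kp δ X C C₅ ε), Ctx τ S → ε ≤ ε₀ → p T F ν P Kp δ X C C₅ ε S

/-! ### statements -/

/-- **[FAT]** (helper933): there is a window which is not tiny -/
def FatStmt (E : Type*) [NormedAddCommGroup E] [InnerProductSpace ℝ E] [FiniteDimensional ℝ E]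
    [MeasurableSpace E] [BorelSpace E] (m n Q : ℕ) : Prop :=
  Ev E m n Q fun _ _ _ _ _ _ _ _ _ _ S => ∃ k₀, Fat S k₀

/-- **[TAN]** (helper933): the differentials of the references at the centre are tiny.  Hence
`‖Dw(Y)‖ ≤ ‖bx Y‖` for `‖bx Y‖ ≥ t/4`, `t` in window `j`. -/
def TanStmt (E : Type*) [NormedAddCommGroup E] [InnerProductSpace ℝ E] [FiniteDimensional ℝ E]
    [MeasurableSpace E] [BorelSpace E] (m n Q : ℕ) : Prop :=
  Ev E m n Q fun _ _ _ _ _ _ X _ _ _ S => ∀ j,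
    ‖fderiv ℝ (wr S j) 0‖ ≤ S.h j ^ (1 / 2 - 2 * X.e) ∧ ‖fderiv ℝ (wr S j) 0‖ ≤ Tr S (j + 1) / 16

/-- **[REFS]** (helper566): all references are admissible with `κ = 1` (the radius `h₁ ≤ 1/16` of
the tube is free); exactness, values at the centre, curvature. -/
def RefsStmt (E : Type*) [NormedAddCommGroup E] [InnerProductSpace ℝ E] [FiniteDimensional ℝ E]
    [MeasurableSpace E] [BorelSpace E] (m n Q : ℕ) : Prop :=
  ∀ η : ℝ, 0 < η → η ≤ eps0 → Ev E m n Q fun T _ _ _ _ _ _ _ _ _ S => ∀ j,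
    (∀ h₁ : ℝ, 0 < h₁ → h₁ ≤ 1 / 16 → Adm T (wr S j) η 1 h₁) ∧ wr S j 0 = 0 ∧
    MinimalOver T (wr S j) (ball 0 (S.r j * (1 - 5 * th (S.h j)))) ∧
    (∀ t, Tr S (j + 1) ≤ t → ∀ Y, t / 4 ≤ ‖ODE.bx T 0 Y‖ →
      ‖fderiv ℝ (wr S j) Y‖ ≤ ‖ODE.bx T 0 Y‖)

/-- **[CYL]** (helper856): window `j` in Fermi coordinates: sup of the heights `h_j^{2/5} r_j`
(ambient, over `ball 0 (r_j (1 - 8 θ_j))` minus a collar), stationarity over `Gr S j` in a thin slab,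
cone property. -/
def CylStmt (E : Type*) [NormedAddCommGroup E] [InnerProductSpace ℝ E] [FiniteDimensional ℝ E]
    [MeasurableSpace E] [BorelSpace E] (m n Q : ℕ) : Prop :=
  ∀ η : ℝ, 0 < η → η ≤ eps0 → Ev E m n Q fun T _ ν P _ _ _ _ _ _ S => ∀ j,
    (∀ᵐ y ∂ν, T.starProjection y ∈ ball (0:E) (S.r j * (1 - 17 / 2 * th (S.h j))) →
      ‖FV.co T y - wr S j y‖ ≤ S.r j * S.h j ^ (2 / 5 : ℝ)) ∧
    CylF m T (wr S j) (tube S j) (Gr S j) (2 * (S.r j * S.h j ^ (2 / 5 : ℝ)))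
      (fmeas T (wr S j) (tube S j) ν) (fP T (wr S j) (tube S j) P) ∧
    (∀ᵐ Y ∂(fmeas T (wr S j) (tube S j) ν), T.starProjection Y ∈ Gr S j →
      ‖FV.co T Y‖ ≤ η * ‖ODE.bx T 0 Y‖)

/-- **[ODE]** (helper934, helper856, helper970) -/
def OdeStmt (E : Type*) [NormedAddCommGroup E] [InnerProductSpace ℝ E] [FiniteDimensional ℝ E]
    [MeasurableSpace E] [BorelSpace E] (m n Q : ℕ) (k K : ℝ → ℝ) (κ : ℝ) : Prop :=
  Ev E m n Q fun _ _ _ _ _ _ _ _ _ _ S => ∀ (k₀ : ℕ) (e : ℕ → ℝ), Fat S k₀ →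
    ∃ t₀ > 0, ∀ i t s, (chain k K κ e S k₀).Win i t → t ≤ t₀ → 0 < s → s ≤ t₀ →
      (chain k K κ e S k₀).Bdd t s →
      ABS.Ode κ (((Real.log s⁻¹)⁻¹) ^ 3 * s * t ^ 2) t ((chain k K κ e S k₀).H i t)
        ((chain k K κ e S k₀).j i t) ((chain k K κ e S k₀).a i t) ((chain k K κ e S k₀).b i t)
        ((chain k K κ e S k₀).H' i t) ((chain k K κ e S k₀).a' i t)

/-- **[DECAY]** (helper342) -/
def DecayStmt (E : Type*) [NormedAddCommGroup E] [InnerProductSpace ℝ E] [FiniteDimensional ℝ E]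
    [MeasurableSpace E] [BorelSpace E] (m n Q : ℕ) (k K : ℝ → ℝ) : Prop :=
  Ev E m n Q fun _ _ _ _ _ _ _ _ _ _ S => ∀ (k₀ : ℕ) (e : ℕ → ℝ) (κ : ℝ), Fat S k₀ →
    ∀ η > 0, ∃ t₀ > 0, ∀ i t s, (chain k K κ e S k₀).Win i t → t ≤ t₀ → 0 < s → s ≤ t₀ →
      (chain k K κ e S k₀).Bdd t s → ∀ l x, (chain k K κ e S k₀).Win l x → x ≤ 2 / 3 * t →
        (chain k K κ e S k₀).h l x ≤ η * s

/-- **[LIM]** (helper915) -/
def LimStmt (E : Type*) [NormedAddCommGroup E] [InnerProductSpace ℝ E] [FiniteDimensional ℝ E]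
    [MeasurableSpace E] [BorelSpace E] (m n Q : ℕ) (k K : ℝ → ℝ) : Prop :=
  Ev E m n Q fun _ _ _ _ _ _ _ _ _ _ S => ∀ (k₀ : ℕ) (e : ℕ → ℝ) (κ : ℝ), Fat S k₀ →
    ∀ η > 0, ∃ t₀ > 0, ∀ i t, (chain k K κ e S k₀).Win i t → t ≤ t₀ →
      (chain k K κ e S k₀).h i t ≤ η ∧ |(chain k K κ e S k₀).a i t| ≤ η * t ^ 2

/-- **[SIMPLE]** (helper933): the soft fields -/
def SoftStmt (E : Type*) [NormedAddCommGroup E] [InnerProductSpace ℝ E] [FiniteDimensional ℝ E]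
    [MeasurableSpace E] [BorelSpace E] (m n Q : ℕ) (k K : ℝ → ℝ) : Prop :=
  Ev E m n Q fun _ _ _ _ _ _ _ _ _ _ S => ∀ (k₀ : ℕ) (e : ℕ → ℝ) (κ : ℝ), Fat S k₀ →
    (∀ i, 0 < (chain k K κ e S k₀).T i) ∧ StrictAnti (chain k K κ e S k₀).T ∧
    Tendsto (chain k K κ e S k₀).T atTop (𝓝 0) ∧ (chain k K κ e S k₀).T 0 ≤ 1 ∧
    (∀ i t, (chain k K κ e S k₀).Win i t →
      HasDerivAt ((chain k K κ e S k₀).H i) ((chain k K κ e S k₀).H' i t) t ∧
      HasDerivAt ((chain k K κ e S k₀).a i) ((chain k K κ e S k₀).a' i t) t ∧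
      0 < (chain k K κ e S k₀).H i t ∧ (chain k K κ e S k₀).h i t ≤ Real.exp (-10)) ∧
    ∀ i x t, (chain k K κ e S k₀).Win i x → (chain k K κ e S k₀).Win i t → x ≤ t →
      x ^ m * (chain k K κ e S k₀).H i x ≤ t ^ m * (chain k K κ e S k₀).H i t

/-- **[SWITCH]** (helper617, helper700): the numbers `e` and the switches -/
def SwitchStmt (E : Type*) [NormedAddCommGroup E] [InnerProductSpace ℝ E] [FiniteDimensional ℝ E]
    [MeasurableSpace E] [BorelSpace E] (m n Q : ℕ) (k K : ℝ → ℝ) : Prop :=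
  Ev E m n Q fun _ _ _ _ _ _ X _ _ _ S => ∀ k₀ : ℕ, Fat S k₀ → ∃ e : ℕ → ℝ, ∀ κ : ℝ,
    (∀ i, (chain k K κ e S k₀).Jump i
        ((chain k K κ e S k₀).h i ((chain k K κ e S k₀).T (i + 1))) ∧
        (chain k K κ e S k₀).h i ((chain k K κ e S k₀).T (i + 1)) ≤ e i ∨
      ∃ l y, (chain k K κ e S k₀).Near i l y ∧
        (chain k K κ e S k₀).Jump i ((chain k K κ e S k₀).h l y) ∧
        (chain k K κ e S k₀).h l y ≤ e i ∧
        Real.exp 10 * (chain k K κ e S k₀).h i ((chain k K κ e S k₀).T (i + 1))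
          ≤ (chain k K κ e S k₀).h l y ∧
        Real.exp 10 * (chain k K κ e S k₀).h (i + 1) ((chain k K κ e S k₀).T (i + 1))
          ≤ (chain k K κ e S k₀).h l y) ∧
    (∀ i, 0 < e i) ∧ (∀ i, e (i + 1) ≤ e i ^ (1 + X.c / 2)) ∧
    ∀ i t s, (chain k K κ e S k₀).T (i + 1) ≤ t → (chain k K κ e S k₀).Bdd t s → e (i + 1) ≤ s

end

end Vale.Agent.P214.INST
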