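import Vale.Agent.P214.INST.Props
import Vale.Agent.P214.INST.Sw
import Vale.Agent.P214.HSW.SupW
import Vale.Agent.P214.S1.Basic
import Vale.Agent.P214.WSEQ.AccSum

/-!
# P214, block INST: the windows in Fermi coordinates (`CylStmt`)

* `exists_th_small` : powers of the height beat all powers of the collar;
* `sup_window` : sup of the heights over the reference of a window;
* `cylStmt` : `RefsStmt → CylStmt`.
-/

open Set Filter Topology MeasureTheory Metric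
open scoped RealInnerProductSpace ContDiff

set_option linter.all false

namespace Vale.Agent.P214.FM

variable {E : Type*} [NormedAddCommGroup E] [InnerProductSpace ℝ E] [FiniteDimensional ℝ E]
  [MeasurableSpace E] [BorelSpace E] {m : ℕ} {T : Submodule ℝ E} {w : E → E} {ε κ h₁ : ℝ}
  {G G' : Set E} {h h' : ℝ} {ν : Measure E} {P : E → E →L[ℝ] E}

/-- a wider slab -/
lemma CylF.mono_slab (hC : CylF m T w h₁ G h ν P) (hh : h ≤ h') (hlt : h' < h₁) :
    CylF m T w h₁ G h' ν P :=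
  ⟨hC.fin, hC.meas, hC.proj, hC.dimT, hC.isOpen,
    hC.slab.mono fun y hy hyG => (hy hyG).trans hh, hlt, hC.stat⟩

/-- **[B2g]** stationarity in Fermi coordinates over a ball, from the sup of the relative height over
a slightly larger ball -/
theorem cylF_of_sup {R R' : ℝ} (hC : FV.CylStat m T G h ν P) (H : Adm T w ε κ h₁)
    (hG : ball (0:E) R ⊆ G) (hR : R' + 2 * ε * h₁ ≤ R)
    (hs : ∀ᵐ y ∂ν, T.starProjection y ∈ ball (0:E) R → ‖FV.co T y - w y‖ ≤ h')
    (hh : 2 * h' < h₁) (hh0 : 0 ≤ h') :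
    CylF m T w h₁ (ball (0:E) R') (2 * h') (fmeas T w h₁ ν) (fP T w h₁ P) := by
  have hε1 : ε ≤ 1 / 16 := H.hε.trans eps0_le
  have hε0 := H.ref.eps_nonneg
  have h1 : h' / (1 - ε ^ 2) ≤ 2 * h' := by
    have h2 : ε ^ 2 ≤ 1 / 2 := by nlinarith
    rw [div_le_iff₀ (by linarith)]
    have h3 : h' * ε ^ 2 ≤ h' * (1 / 2) := by gcongr
    linarith
  refine (FV.CylStat.cylF (G' := ball (0:E) R') (hC.mono isOpen_ball hG) H isOpen_ball ?_ hs
    (h1.trans_lt hh)).mono_slab h1 hh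
  intro x hx y hy
  rw [mem_ball, dist_zero_right] at hx ⊢
  calc ‖y‖ = ‖x + (y - x)‖ := by congr 1; abel
    _ ≤ ‖x‖ + ‖y - x‖ := norm_add_le _ _
    _ < R' + 2 * ε * h₁ := by linarith
    _ ≤ R := hR

end Vale.Agent.P214.FM

namespace Vale.Agent.P214.INST

open WIN WSEQ FM

variable {m n Q : ℕ} {E : Type*} [NormedAddCommGroup E] [InnerProductSpace ℝ E]
  [FiniteDimensional ℝ E] [MeasurableSpace E] [BorelSpace E]
variable {T : Submodule ℝ E} {F : Frame m n T} {ν : Measure E} {P : E → E →L[ℝ] E} {Kp : Set E}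
  {δ : ℝ → ℝ} {X : Exps} {C C₅ ε : ℝ}

/-- powers of the height beat all powers of the collar -/
lemma exists_th_small {a : ℝ} (ha : 0 < a) (N : ℕ) {η : ℝ} (hη : 0 < η) :
    ∃ ε₀ : ℝ, 0 < ε₀ ∧ ε₀ < 1 ∧ ∀ h, 0 < h → h ≤ ε₀ → 0 < th h ∧ h ^ a ≤ η * th h ^ N := by
  have h1 := ev_small ha N hη
  have h2 := tendsto_log_inv.eventually (eventually_gt_atTop 0)
  have h3 := h1.and h2
  rw [eventually_nhdsWithin_iff, Metric.eventually_nhds_iff] at h3
  obtain ⟨r, hr, h4⟩ := h3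
  refine ⟨min (r / 2) (1 / 2), by positivity, (min_le_right _ _).trans_lt (by norm_num), ?_⟩
  intro h hh hhe
  have h5 : dist h 0 < r := by
    rw [dist_zero_right, Real.norm_eq_abs, abs_of_pos hh]
    have := hhe.trans (min_le_left _ _)
    linarith
  obtain ⟨h6, h7⟩ := h4 h5 hh
  refine ⟨?_, h6⟩
  unfold th
  positivity

/-- **[B0]** sup of the heights over the reference of a window -/
theorem sup_window : Ev E m n Q fun T _ ν P _ _ _ _ _ _ S => ∀ j,
    ∀ᵐ y ∂ν, T.starProjection y ∈ ball (0:E) (S.r j * (1 - 17 / 2 * th (S.h j))) →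
      ‖FV.co T y - wr S j y‖ ≤ S.r j * S.h j ^ (2 / 5 : ℝ) := by
  intro X C C₅
  obtain ⟨ε₁, C₁, hε₁, hC₁, hsup⟩ := HSW.supStmt E m n
  set D : ℝ := C₁ * 2 ^ m * max C 0 + 1 with hD
  have hD0 : 0 < D := by positivity
  obtain ⟨ε₂, hε₂, hε₂1, hth⟩ := exists_th_small (a := 1 / 10) (by norm_num) m (η := 1 / D)
    (by positivity)
  refine ⟨min ε₁ ε₂, by positivity, ?_⟩
  intro T F ν P Kp δ ε τ S hctx hε j
  have hj := S.h_pos j
  have hjε : S.h j ≤ ε₂ := (S.h_le j).trans (hε.trans (min_le_right _ _))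
  obtain ⟨hθ, hsm⟩ := hth _ hj hjε
  have hθ1 := S.th_le j
  have hr := S.r_pos j
  have hr1 : S.r j ≤ 3 / 16 := by
    rw [← S.r_zero]
    exact S.r_anti ((hε.trans (min_le_right _ _)).trans hε₂1.le) (Nat.zero_le j)
  set θ := th (S.h j) with hθd
  set R := S.r j * (1 - 8 * θ) with hR
  have hR0 : 0 < R := by
    have : 0 < 1 - 8 * θ := by linarith
    positivity
  have hRr : R ≤ S.r j := mul_le_of_le_one_right hr.le (by linarith)
  have hh1 : S.h j ≤ 1 := hjε.trans hε₂1.le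
  -- the reference
  have hre : Refe ε₁ R (S.u (j + 1)) :=
    ((S.nxt j).refe.mono' (hε.trans (min_le_left _ _))).mono_r (by
      rw [hR]; gcongr; linarith)
  have hI := hctx.loc.int R hR0 (by linarith)
  have hs : 0 < S.r j * θ / 2 := by positivity
  have hlt : S.r j * θ / 2 < R := by
    rw [hR]
    nlinarith
  have key := hsup T F (S.u (j + 1)) Q R (S.r j * θ / 2) (τ * R) τ ν P hre (hRr.trans hr1) hs hlt hI
  -- the height integral
  have htop := (S.nxt j).top R ?_ le_rfl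
  swap
  · rw [hR]
    have h1 : S.h j ^ X.c₅ ≤ 1 - 12 * θ := by
      have h2 := (S.nxt j).r_ge.trans (S.nxt j).r_le
      exact le_of_mul_le_mul_left h2 hr
    have h3 : S.r j * S.h j ^ X.c₅ ≤ S.r j * (1 - 12 * θ) := by gcongr
    refine h3.trans ?_
    gcongr
    linarith
  have hC0 : C ≤ max C 0 := le_max_left _ _
  have he : X.e ≤ 1 / 1000 := by
    have := hctx.ok.e_le
    have := hctx.ok.c_le
    linarith
  have hEe : hE T (F.lift (S.u (j + 1))) ν R ≤ S.r j ^ (m + 2) * (max C 0 * S.h j ^ (1 - X.e)) := by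
    have h1 : (R ^ (m + 2))⁻¹ * hE T (F.lift (S.u (j + 1))) ν R ≤ max C 0 * S.h j ^ (1 - X.e) := by
      refine htop.trans ?_
      gcongr
    rw [inv_mul_le_iff₀ (by positivity)] at h1
    refine h1.trans ?_
    gcongr
  filter_upwards [Measure.support_mem_ae (μ := ν)] with y hy hyb
  rw [mem_ball, dist_zero_right] at hyb
  have h1 := key y hy (by rw [hR]; nlinarith)
  have h2 : ‖FV.co T y - wr S j y‖ ^ 2 ≤ (S.r j * S.h j ^ (2 / 5 : ℝ)) ^ 2 := by
    have h3 : ‖FV.co T y - wr S j y‖ = ‖KMS.rel T (F.lift (S.u (j + 1))) y‖ := rfl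
    rw [h3]
    refine h1.trans ?_
    have e1 : (S.r j * θ / 2)⁻¹ ^ m = 2 ^ m * (θ⁻¹) ^ m * (S.r j)⁻¹ ^ m := by
      rw [← mul_pow, ← mul_pow]
      congr 1
      field_simp
    have e2 : (S.h j ^ (2 / 5 : ℝ)) ^ 2 = S.h j ^ (4 / 5 : ℝ) := by
      rw [← Real.rpow_natCast, ← Real.rpow_mul hj.le]
      norm_num
    have e3 : S.h j ^ (1 - X.e) ≤ S.h j ^ (1 / 10 : ℝ) * S.h j ^ (4 / 5 : ℝ) := by
      rw [← Real.rpow_add hj]
      exact Real.rpow_le_rpow_of_exponent_ge hj hh1 (by linarith)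
    have hp := Real.rpow_nonneg hj.le (4 / 5 : ℝ)
    calc C₁ * (S.r j * θ / 2)⁻¹ ^ m * hE T (F.lift (S.u (j + 1))) ν R
        ≤ C₁ * (2 ^ m * (θ⁻¹) ^ m * (S.r j)⁻¹ ^ m) *
          (S.r j ^ (m + 2) * (max C 0 * (S.h j ^ (1 / 10 : ℝ) * S.h j ^ (4 / 5 : ℝ)))) := by
          rw [e1]
          refine mul_le_mul_of_nonneg_left (hEe.trans ?_) (by positivity)
          gcongr
      _ = (C₁ * 2 ^ m * max C 0) * ((θ⁻¹) ^ m * S.h j ^ (1 / 10 : ℝ)) *
          (S.r j ^ 2 * S.h j ^ (4 / 5 : ℝ)) := by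
          have : (S.r j)⁻¹ ^ m * S.r j ^ (m + 2) = S.r j ^ 2 := by
            rw [pow_add, ← mul_assoc, ← mul_pow, inv_mul_cancel₀ hr.ne', one_pow, one_mul]
          calc _ = (C₁ * 2 ^ m * max C 0) * ((θ⁻¹) ^ m * S.h j ^ (1 / 10 : ℝ)) *
              (((S.r j)⁻¹ ^ m * S.r j ^ (m + 2)) * S.h j ^ (4 / 5 : ℝ)) := by ring
            _ = _ := by rw [this]
      _ ≤ D * (1 / D) * (S.r j ^ 2 * S.h j ^ (4 / 5 : ℝ)) := by
          have h4 : (θ⁻¹) ^ m * S.h j ^ (1 / 10 : ℝ) ≤ 1 / D := by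
            calc (θ⁻¹) ^ m * S.h j ^ (1 / 10 : ℝ) ≤ (θ⁻¹) ^ m * (1 / D * θ ^ m) := by gcongr
              _ = 1 / D * ((θ⁻¹) ^ m * θ ^ m) := by ring
              _ = 1 / D := by rw [← mul_pow, inv_mul_cancel₀ hθ.ne', one_pow, mul_one]
          have h5 : C₁ * 2 ^ m * max C 0 ≤ D := by rw [hD]; linarith
          have h6 : 0 ≤ (θ⁻¹) ^ m * S.h j ^ (1 / 10 : ℝ) := by positivity
          gcongr
      _ = (S.r j * S.h j ^ (2 / 5 : ℝ)) ^ 2 := by
          rw [mul_one_div_cancel hD0.ne', one_mul, mul_pow, e2]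
  exact abs_le_of_sq_le_sq' h2 (by positivity) |>.2

/-- dyadic radii -/
lemma exists_dyadic' {R x : ℝ} (hR : 0 < R) (hx : 0 < x) (hxR : x < R) :
    ∃ i : ℕ, x < R * (1 / 2) ^ i ∧ R * (1 / 2) ^ i ≤ 2 * x := by
  have h1 : Tendsto (fun i : ℕ => R * (1 / 2 : ℝ) ^ i) atTop (𝓝 (R * 0)) :=
    (tendsto_pow_atTop_nhds_zero_of_lt_one (by norm_num) (by norm_num)).const_mul R
  rw [mul_zero] at h1
  have h2 : ∃ i : ℕ, R * (1 / 2 : ℝ) ^ i ≤ x := by
    obtain ⟨i, hi⟩ := (h1.eventually_lt_const hx).exists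
    exact ⟨i, hi.le⟩
  classical
  set i := Nat.find h2 with hi
  have hi0 : i ≠ 0 := by
    intro h0
    have := Nat.find_spec h2
    rw [← hi, h0, pow_zero, mul_one] at this
    linarith
  obtain ⟨j, hj⟩ := Nat.exists_eq_succ_of_ne_zero hi0
  refine ⟨j, ?_, ?_⟩
  · have := Nat.find_min h2 (m := j) (by rw [← hi, hj]; exact Nat.lt_succ_self j)
    exact not_le.1 this
  · have := Nat.find_spec h2
    rw [← hi, hj, pow_succ] at this
    linarith

/-- **the cone property** (699): a.e. point over `ball 0 (3/8)` lies in the cone of slope `2 τ`. -/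
theorem cone' {τ : ℝ} (hτ : 0 < τ) (hL : Loc m Q T ν P Kp δ τ) :
    ∀ᵐ y ∂ν, ‖T.starProjection y‖ < 3 / 8 → ‖FV.co T y‖ ≤ 2 * τ * ‖T.starProjection y‖ := by
  have h1 : ∀ i : ℕ, ∀ᵐ y ∂ν, ‖T.starProjection y‖ < 3 / 8 * (1 / 2) ^ i →
      ‖FV.co T y‖ ≤ τ * (3 / 8 * (1 / 2) ^ i) := by
    intro i
    have h2 : (0:ℝ) < 3 / 8 * (1 / 2) ^ i := by positivity
    have h3 : (3:ℝ) / 8 * (1 / 2) ^ i ≤ 3 / 8 := by
      have : (1 / 2 : ℝ) ^ i ≤ 1 := pow_le_one₀ (by norm_num) (by norm_num)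
      nlinarith
    filter_upwards [(hL.int _ h2 h3).cyl.slab] with y hy hlt
    rw [FV.co_apply]
    exact hy (by rw [mem_ball, dist_zero_right]; exact hlt)
  filter_upwards [ae_all_iff.2 h1] with y hy hlt
  rcases (norm_nonneg (T.starProjection y)).eq_or_lt with h0 | h0
  · -- the fibre over the centre
    rw [← h0, mul_zero]
    have h2 : Tendsto (fun i : ℕ => τ * (3 / 8 * (1 / 2 : ℝ) ^ i)) atTop (𝓝 (τ * (3 / 8 * 0))) :=
      ((tendsto_pow_atTop_nhds_zero_of_lt_one (by norm_num) (by norm_num)).const_mul _).const_mul _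
    rw [mul_zero, mul_zero] at h2
    refine ge_of_tendsto' h2 fun i => hy i ?_
    rw [← h0]; positivity
  · obtain ⟨i, hi, hi'⟩ := exists_dyadic' (by norm_num : (0:ℝ) < 3 / 8) h0 hlt
    refine (hy i hi).trans ?_
    calc τ * (3 / 8 * (1 / 2) ^ i) ≤ τ * (2 * ‖T.starProjection y‖) := by gcongr
      _ = _ := by ring

/-- **the cone property in Fermi coordinates** (699), any tube -/
theorem cone_fermi' {τ η κ h₁ : ℝ} {w : E → E} (hτ : 0 < τ) (hτη : τ ≤ η) (hη : η ≤ 1 / 64)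
    (hL : Loc m Q T ν P Kp δ τ) (H : Adm T w η κ h₁) (hh₁ : h₁ ≤ 1 / 16) (hw0 : w 0 = 0) :
    ∀ᵐ Y ∂(fmeas T w h₁ ν), ‖ODE.bx T 0 Y‖ < 1 / 4 → ‖FV.co T Y‖ ≤ 4 * η * ‖ODE.bx T 0 Y‖ := by
  have hη0 : 0 < η := hτ.trans_le hτη
  filter_upwards [H.ae_fmeas (cone' hτ hL)] with Y hY hlt
  have hbx : ODE.bx T 0 Y = T.starProjection Y := by
    rw [ODE.bx_eq, map_zero, sub_zero]
  rw [hbx] at hlt ⊢
  have h1' := H.ref.norm_star_Psi_sub_le H.hpos Y
  have h2 : ‖T.starProjection (Psi T w h₁ Y)‖ < 3 / 8 := by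
    have h3 : ‖T.starProjection (Psi T w h₁ Y)‖ ≤ ‖T.starProjection Y‖ +
        ‖T.starProjection (Psi T w h₁ Y) - T.starProjection Y‖ := by
      calc _ = ‖T.starProjection Y + (T.starProjection (Psi T w h₁ Y) - T.starProjection Y)‖ := by
            congr 1; abel
        _ ≤ _ := norm_add_le _ _
    have h4 : 2 * η * h₁ ≤ 1 / 16 := by
      have := H.hpos
      nlinarith
    linarith
  have h3 := hY h2
  rw [H.ref.co_Psi] at h3
  have h4 := H.ref.norm_star_Psi_sub_le' h₁ Y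
  have h5 : ‖T.starProjection (Psi T w h₁ Y)‖ ≤ ‖T.starProjection Y‖ + η * ‖FV.co T Y‖ := by
    calc _ = ‖T.starProjection Y + (T.starProjection (Psi T w h₁ Y) - T.starProjection Y)‖ := by
          congr 1; abel
      _ ≤ _ := (norm_add_le _ _).trans (by gcongr)
  have h6 : ‖w Y‖ ≤ η * ‖T.starProjection Y‖ := by
    have := H.ref.norm_w_sub_le 0 Y
    rw [hw0, sub_zero, hbx] at this
    exact this
  have h7 : ‖FV.co T Y‖ ≤ ‖FV.co T Y + w Y‖ + ‖w Y‖ := by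
    calc ‖FV.co T Y‖ = ‖(FV.co T Y + w Y) - w Y‖ := by congr 1; abel
      _ ≤ _ := norm_sub_le _ _
  have h8 : ‖FV.co T Y‖ ≤ 2 * τ * (‖T.starProjection Y‖ + η * ‖FV.co T Y‖) +
      η * ‖T.starProjection Y‖ := by
    have : 2 * τ * ‖T.starProjection (Psi T w h₁ Y)‖ ≤
        2 * τ * (‖T.starProjection Y‖ + η * ‖FV.co T Y‖) := by gcongr
    linarith
  have h9 : 2 * τ * (‖T.starProjection Y‖ + η * ‖FV.co T Y‖) ≤
      2 * η * (‖T.starProjection Y‖ + η * ‖FV.co T Y‖) := by gcongr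
  have h10 : 0 ≤ ‖T.starProjection Y‖ := norm_nonneg _
  have h11 : 0 ≤ ‖FV.co T Y‖ := norm_nonneg _
  have h12 : 2 * η * (η * ‖FV.co T Y‖) ≤ 1 / 4 * ‖FV.co T Y‖ := by
    have : 2 * η * η ≤ 1 / 4 := by nlinarith
    nlinarith
  nlinarith

/-- **[CYL]** -/
theorem cylStmt (hR : RefsStmt E m n Q) : CylStmt E m n Q := by
  intro η hη hη0 X C C₅
  have hη4 : η / 4 ≤ eps0 := by linarith
  obtain ⟨ε₁, hε₁, hs⟩ := sup_window (E := E) (m := m) (n := n) (Q := Q) X C C₅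
  obtain ⟨ε₂, hε₂, href⟩ := hR (η / 4) (by positivity) hη4 X C C₅
  obtain ⟨ε₃, hε₃, hε₃1, hth⟩ := exists_th_small (a := 2 / 5) (by norm_num) 1 (η := 1 / 4)
    (by positivity)
  refine ⟨min (min ε₁ ε₂) (min ε₃ (η / 4)), by positivity, ?_⟩
  intro T F ν P Kp δ ε τ S hctx hε j
  have hε1 : ε ≤ ε₁ := hε.trans ((min_le_left _ _).trans (min_le_left _ _))
  have hε2 : ε ≤ ε₂ := hε.trans ((min_le_left _ _).trans (min_le_right _ _))
  have hε3 : ε ≤ ε₃ := hε.trans ((min_le_right _ _).trans (min_le_left _ _))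
  have hε4 : ε ≤ η / 4 := hε.trans ((min_le_right _ _).trans (min_le_right _ _))
  have hsj := hs T F ν P Kp δ ε τ S hctx hε1 j
  obtain ⟨hadm, hw0, -, -⟩ := href T F ν P Kp δ ε τ S hctx hε2 j
  have hj := S.h_pos j
  obtain ⟨hθ, hsm⟩ := hth _ hj ((S.h_le j).trans hε3)
  rw [pow_one] at hsm
  have hθ1 := S.th_le j
  have hr := S.r_pos j
  have hr1 : S.r j ≤ 3 / 16 := by
    rw [← S.r_zero]
    exact S.r_anti (hε3.trans hε₃1.le) (Nat.zero_le j)
  have ht0 : 0 < tube S j := by unfold tube; positivity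
  have ht1 : tube S j ≤ 1 / 16 := by
    unfold tube
    nlinarith
  have H := hadm (tube S j) ht0 ht1
  refine ⟨hsj, ?_, ?_⟩
  · have hI := (hctx.loc.int (3 / 8) (by norm_num) le_rfl).cyl
    refine cylF_of_sup hI H (ball_subset_ball ?_) ?_ hsj ?_ (by positivity)
    · nlinarith
    · have h1 : η ≤ 1 / 16 := hη0.trans eps0_le
      have h2 : 2 * (η / 4) * tube S j ≤ 1 / 2 * tube S j := by gcongr; linarith
      unfold tube at h2 ⊢
      linarith
    · unfold tube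
      calc 2 * (S.r j * S.h j ^ (2 / 5 : ℝ)) ≤ 2 * (S.r j * (1 / 4 * th (S.h j))) := by gcongr
        _ = 1 / 2 * (S.r j * th (S.h j)) := by ring
        _ < S.r j * th (S.h j) := by
            have : 0 < S.r j * th (S.h j) := by positivity
            linarith
  · have h1 : η ≤ 1 / 16 := hη0.trans eps0_le
    filter_upwards [cone_fermi' hctx.τ_pos (hctx.τ_le.trans hε4) (by linarith) hctx.loc H ht1 hw0]
      with Y hY hYG
    have h2 : ‖ODE.bx T 0 Y‖ < 1 / 4 := by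
      rw [ODE.bx_eq, map_zero, sub_zero]
      unfold Gr at hYG
      rw [mem_ball, dist_zero_right] at hYG
      nlinarith
    refine (hY h2).trans (le_of_eq ?_)
    ring

end Vale.Agent.P214.INST
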