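import Vale.Agent.P214.FM.Real

/-!
# P214, block INST: independence of the height of the tube ([TUBE])

The functions `HF`, `aF` of section FM depend on the Fermi height `h₁` only through the points of the
measure outside the tube.  `tube_HF`, `tube_aF`: the change between two tubes `h₁ ≤ h₁'` at the
scale `t`, when all points over `|p y - p z| < ρ` lie in the smaller tube (`ρ ≥ t + 2 ε h₁`) and all
points over `|p y - p z| < ρ'` are at height `≤ A ≤ t/2` (`ρ' ≥ t + 2 ε h₁'`).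
-/

open Set Filter Topology MeasureTheory Metric
open scoped RealInnerProductSpace ContDiff

set_option linter.all false

namespace Vale.Agent.P214.FM

open FV ODE

variable {E : Type*} [NormedAddCommGroup E] [InnerProductSpace ℝ E] [FiniteDimensional ℝ E]
  [MeasurableSpace E] [BorelSpace E]
variable {T : Submodule ℝ E} {w : E → E} {ε κ h₁ h₁' : ℝ}

/-- the Fermi height against the relative height -/
lemma Adm.norm_co_PsiInv_le (H : Adm T w ε κ h₁) (y : E) :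
    ‖co T (PsiInv T w h₁ y)‖ ≤ 2 * ‖co T y - w y‖ := by
  have h1 := H.ref.norm_height_le h₁ (PsiInv T w h₁ y)
  rw [H.Psi_PsiInv] at h1
  have h2 : ‖co T (PsiInv T w h₁ y)‖ ≤ ‖co T y - w y‖ +
      ‖co T (PsiInv T w h₁ y) - (co T y - w y)‖ := by
    calc _ = ‖(co T y - w y) + (co T (PsiInv T w h₁ y) - (co T y - w y))‖ := by congr 1; abel
      _ ≤ _ := norm_add_le _ _
  have h3 : ε ≤ 1 / 16 := H.hε.trans eps0_le
  have h4 := H.ref.eps_nonneg
  have h5 : ε ^ 2 ≤ 1 / 2 := by nlinarith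
  have h6 := norm_nonneg (co T (PsiInv T w h₁ y))
  nlinarith

/-- the foot point against the base point -/
lemma Adm.norm_bx_PsiInv_ge (H : Adm T w ε κ h₁) (z y : E) :
    ‖T.starProjection y - T.starProjection z‖ ≤
      ‖bx T z (PsiInv T w h₁ y)‖ + ε * ‖co T (PsiInv T w h₁ y)‖ := by
  have h1 := H.ref.norm_star_Psi_sub_le' h₁ (PsiInv T w h₁ y)
  rw [H.Psi_PsiInv] at h1
  calc _ = ‖bx T z (PsiInv T w h₁ y) +
        (T.starProjection y - T.starProjection (PsiInv T w h₁ y))‖ := by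
        rw [bx_eq]; congr 1; abel
    _ ≤ _ := (norm_add_le _ _).trans (by gcongr)

lemma Adm.norm_bx_PsiInv_ge' (H : Adm T w ε κ h₁) (z y : E) :
    ‖T.starProjection y - T.starProjection z‖ ≤
      ‖bx T z (PsiInv T w h₁ y)‖ + 2 * ε * h₁ := by
  have h1 := H.ref.norm_star_Psi_sub_le H.hpos (PsiInv T w h₁ y)
  rw [H.Psi_PsiInv] at h1
  calc _ = ‖bx T z (PsiInv T w h₁ y) +
        (T.starProjection y - T.starProjection (PsiInv T w h₁ y))‖ := by
        rw [bx_eq]; congr 1; abel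
    _ ≤ _ := (norm_add_le _ _).trans (by gcongr)

/-- inside both tubes the foot points agree -/
lemma Adm.PsiInv_congr (H : Adm T w ε κ h₁) (H' : Adm T w ε κ h₁') {y : E}
    (h1 : ‖co T (PsiInv T w h₁ y)‖ ≤ h₁) (h2 : ‖co T (PsiInv T w h₁ y)‖ ≤ h₁') :
    PsiInv T w h₁' y = PsiInv T w h₁ y := by
  have e1 := H.Psi_PsiInv y
  have e2 : Psi T w h₁' (PsiInv T w h₁ y) = Psi T w h₁ (PsiInv T w h₁ y) := by
    unfold Psi
    rw [ret_eq H.hpos h1, ret_eq H'.hpos h2]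
  conv_lhs => rw [← e1, ← e2, H'.PsiInv_Psi]

/-- change of variables -/
lemma Adm.integral_fmeas_tube (H : Adm T w ε κ h₁) (ν : Measure E) (g : E → ℝ) :
    ∫ Y, g Y ∂(fmeas T w h₁ ν) = ∫ y, g (PsiInv T w h₁ y) ∂ν := by
  rw [← H.integral_fmeas ν (fun y => g (PsiInv T w h₁ y))]
  simp only [H.PsiInv_Psi]

lemma Adm.integrable_fmeas' (H : Adm T w ε κ h₁) {ν : Measure E} {g : E → ℝ}
    (hg : Integrable g (fmeas T w h₁ ν)) : Integrable (fun y => g (PsiInv T w h₁ y)) ν := by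
  unfold fmeas at hg
  exact hg.comp_measurable H.aem

/-- **the tube lemma** for a function `g` of the foot point which vanishes for `‖bx‖ ≥ t` -/
theorem tube_integral (H : Adm T w ε κ h₁) (H' : Adm T w ε κ h₁') (hle : h₁ ≤ h₁') {ν : Measure E}
    [IsFiniteMeasure ν] {z : E} {t ρ ρ' A M : ℝ} (ht : 0 < t) (hA0 : 0 ≤ A) (hA : 2 * A ≤ t)
    (hρ : t + 2 * ε * h₁ ≤ ρ) (hρ' : t + 2 * ε * h₁' ≤ ρ')
    (hin : ∀ᵐ y ∂ν, ‖T.starProjection y - T.starProjection z‖ < ρ → ‖co T y - w y‖ ≤ h₁ / 2)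
    (hout : ∀ᵐ y ∂ν, ‖T.starProjection y - T.starProjection z‖ < ρ' → ‖co T y - w y‖ ≤ A)
    {g : E → ℝ} (hi : Integrable g (fmeas T w h₁ ν)) (hi' : Integrable g (fmeas T w h₁' ν))
    (g0 : ∀ Y, t ≤ ‖bx T z Y‖ → g Y = 0) (hM0 : 0 ≤ M)
    (g1 : ∀ Y, ‖bx T z Y‖ < t → t - 2 * ε * A ≤ ‖bx T z Y‖ → ‖co T Y‖ ≤ 2 * A → |g Y| ≤ M) :
    |∫ Y, g Y ∂(fmeas T w h₁' ν) - ∫ Y, g Y ∂(fmeas T w h₁ ν)| ≤
      M * ν.real {y | ‖T.starProjection y - T.starProjection z‖ < 2 * t} := by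
  have hε1 : ε ≤ 1 / 16 := H.hε.trans eps0_le
  have hε0 := H.ref.eps_nonneg
  have hD : MeasurableSet {y : E | ‖T.starProjection y - T.starProjection z‖ < 2 * t} :=
    (isOpen_lt ((T.starProjection.continuous.sub continuous_const).norm)
      continuous_const).measurableSet
  rw [H.integral_fmeas_tube, H'.integral_fmeas_tube, ← integral_sub (H'.integrable_fmeas' hi')
    (H.integrable_fmeas' hi)]
  have h1 : ∫ y, ({y : E | ‖T.starProjection y - T.starProjection z‖ < 2 * t}.indicator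
      (fun _ => M)) y ∂ν = M * ν.real {y | ‖T.starProjection y - T.starProjection z‖ < 2 * t} := by
    rw [integral_indicator hD, setIntegral_const, smul_eq_mul, mul_comm]
  rw [← h1, ← Real.norm_eq_abs]
  refine norm_integral_le_of_norm_le ((integrable_const M).indicator hD) ?_
  filter_upwards [hin, hout] with y hy1 hy2
  rw [Real.norm_eq_abs]
  have hind : 0 ≤ ({y : E | ‖T.starProjection y - T.starProjection z‖ < 2 * t}.indicator
      (fun _ => M)) y := indicator_nonneg (fun _ _ => hM0) _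
  rcases lt_or_ge ‖T.starProjection y - T.starProjection z‖ ρ with hc | hc
  · -- both feet agree
    have h2 := hy1 hc
    have h3 : ‖co T (PsiInv T w h₁ y)‖ ≤ h₁ := (H.norm_co_PsiInv_le y).trans (by linarith)
    rw [H.PsiInv_congr H' h3 (h3.trans hle), sub_self, abs_zero]
    exact hind
  · -- the small tube does not see `y`
    have h2 := H.norm_bx_PsiInv_ge' z y
    rw [g0 (PsiInv T w h₁ y) (by linarith), sub_zero]
    rcases lt_or_ge ‖bx T z (PsiInv T w h₁' y)‖ t with hb | hb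
    swap
    · rw [g0 _ hb, abs_zero]; exact hind
    have h3 := H'.norm_bx_PsiInv_ge' z y
    have h4 := hy2 (by linarith)
    have h5 : ‖co T (PsiInv T w h₁' y)‖ ≤ 2 * A := (H'.norm_co_PsiInv_le y).trans (by linarith)
    have h6 := H'.norm_bx_PsiInv_ge z y
    have h7 : ε * ‖co T (PsiInv T w h₁' y)‖ ≤ ε * (2 * A) := by gcongr
    have h8 : 0 ≤ 2 * ε * h₁ := by have := H.hpos; positivity
    have h9 : y ∈ {y : E | ‖T.starProjection y - T.starProjection z‖ < 2 * t} := by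
      show ‖T.starProjection y - T.starProjection z‖ < 2 * t
      nlinarith
    rw [indicator_of_mem h9]
    exact g1 _ hb (by linarith) h5

variable {m Q : ℕ} {G G' : Set E} {h h' : ℝ} {ν : Measure E} {P P' : E → E →L[ℝ] E} {z : E}
  {k k' K : ℝ → ℝ} {t ρ ρ' A B : ℝ}

/-- the kernel near the boundary -/
lemma kern_near {ψ : ℝ → ℝ} {q : ℕ} (hB : 0 ≤ B) (hψ : ∀ s, 0 ≤ s → ψ s ≤ B * (max (1 - s) 0) ^ q)
    (ht : 0 < t) (hε : ε ≤ 1 / 16) (hε0 : 0 ≤ ε) (hA0 : 0 ≤ A) {b : ℝ} (hb : b < t)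
    (hb1 : t - 2 * ε * A ≤ b) (hb0 : 0 ≤ b) : ψ (b ^ 2 / t ^ 2) ≤ B * (A / (4 * t)) ^ q := by
  refine (hψ _ (by positivity)).trans ?_
  have h1 : max (1 - b ^ 2 / t ^ 2) 0 ≤ A / (4 * t) := by
    refine max_le ?_ (by positivity)
    rw [sub_le_iff_le_add, div_add_div _ _ (by positivity) (by positivity),
      le_div_iff₀ (by positivity)]
    have h2 : t - A / 8 ≤ b := by nlinarith
    have h3 : t ^ 2 ≤ A * t / 4 + b ^ 2 := by nlinarith
    nlinarith [mul_le_mul_of_nonneg_left h3 (show (0:ℝ) ≤ 4 * t by positivity)]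
  gcongr

/-- **[TUBE] for the height** -/
theorem tube_HF (H : Adm T w ε κ h₁) (H' : Adm T w ε κ h₁') (hle : h₁ ≤ h₁')
    (hC : CylF m T w h₁ G h (fmeas T w h₁ ν) P) (hC' : CylF m T w h₁' G' h' (fmeas T w h₁' ν) P')
    [IsFiniteMeasure ν] (hG : BallIn T G z t) (hG' : BallIn T G' z t) (hk : Kern k k' K)
    (hB : 0 ≤ B) (hkB : ∀ s, 0 ≤ s → k s ≤ B * (max (1 - s) 0) ^ 3)
    (ht : 0 < t) (hA0 : 0 ≤ A) (hA : 2 * A ≤ t) (hρ : t + 2 * ε * h₁ ≤ ρ)
    (hρ' : t + 2 * ε * h₁' ≤ ρ')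
    (hin : ∀ᵐ y ∂ν, ‖T.starProjection y - T.starProjection z‖ < ρ → ‖co T y - w y‖ ≤ h₁ / 2)
    (hout : ∀ᵐ y ∂ν, ‖T.starProjection y - T.starProjection z‖ < ρ' → ‖co T y - w y‖ ≤ A) :
    |HF m T w z k (fmeas T w h₁' ν) t - HF m T w z k (fmeas T w h₁ ν) t| ≤
      B * (ν.real {y | ‖T.starProjection y - T.starProjection z‖ < 2 * t} / t ^ m) * t ^ 2 *
        (A / t) ^ 5 := by
  have hε1 : ε ≤ 1 / 16 := H.hε.trans eps0_le
  have hε0 := H.ref.eps_nonneg
  have hi := hC.intg H (hC.gd_HF H ht.le hG) hk.pk.continuous hk.pk.zero ht le_rfl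
  have hi' := hC'.intg H' (hC'.gd_HF H' ht.le hG') hk.pk.continuous hk.pk.zero ht le_rfl
  have key := tube_integral H H' hle ht hA0 hA hρ hρ' hin hout hi hi'
    (M := B * (A / (4 * t)) ^ 3 * (9 / 8 * (2 * A)) ^ 2) ?_ (by positivity) ?_
  · have e : ∀ μ : Measure E, HF m T w z k μ t = t ^ (-(m : ℤ)) *
        ∫ Y, k (aX T w z Y / t ^ 2) * (vp T w z Y * ‖om T w Y‖ ^ 2) ∂μ := fun μ => rfl
    rw [e, e, ← mul_sub, abs_mul, abs_of_nonneg (by positivity)]
    refine (mul_le_mul_of_nonneg_left key (by positivity)).trans ?_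
    have h1 : t ^ (-(m : ℤ)) = (t ^ m)⁻¹ := by rw [zpow_neg, zpow_natCast]
    have h2 : B * (A / (4 * t)) ^ 3 * (9 / 8 * (2 * A)) ^ 2 ≤ B * (t ^ 2 * (A / t) ^ 5) := by
      have h3 : B * (A / (4 * t)) ^ 3 * (9 / 8 * (2 * A)) ^ 2 =
          (81 / 1024) * (B * (t ^ 2 * (A / t) ^ 5)) := by
        field_simp
        ring
      rw [h3]
      have : 0 ≤ B * (t ^ 2 * (A / t) ^ 5) := by positivity
      linarith
    rw [h1]
    set N := ν.real {y | ‖T.starProjection y - T.starProjection z‖ < 2 * t} with hN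
    have hN0 : 0 ≤ N := measureReal_nonneg
    calc (t ^ m)⁻¹ * (B * (A / (4 * t)) ^ 3 * (9 / 8 * (2 * A)) ^ 2 * N)
        ≤ (t ^ m)⁻¹ * (B * (t ^ 2 * (A / t) ^ 5) * N) := by gcongr
      _ = _ := by ring
  · intro Y hY
    have h1 : 1 ≤ aX T w z Y / t ^ 2 := by
      rw [le_div_iff₀ (by positivity), one_mul]
      unfold aX XX
      gcongr
    show k (aX T w z Y / t ^ 2) * (vp T w z Y * ‖om T w Y‖ ^ 2) = 0
    rw [hk.pk.zero _ h1, zero_mul]
  · intro Y hY1 hY2 hY3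
    show |k (aX T w z Y / t ^ 2) * (vp T w z Y * ‖om T w Y‖ ^ 2)| ≤ _
    have h1 := H.ref.half_le_vp H.eps_le z Y
    have h2 := hk.nonneg (aX T w z Y / t ^ 2)
    have h3 : k (aX T w z Y / t ^ 2) ≤ B * (A / (4 * t)) ^ 3 :=
      kern_near hB hkB ht hε1 hε0 hA0 hY1 hY2 (norm_nonneg _)
    have h4 : ‖om T w Y‖ ≤ 9 / 8 * (2 * A) := by
      rw [H.ref.om_eq]
      exact (H.ref.norm_D0_apply_le hε1 _ _).trans (by gcongr)
    have h5 : vp T w z Y ≤ 1 := Ref.vp_le_one z Y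
    rw [abs_of_nonneg (by positivity)]
    calc k (aX T w z Y / t ^ 2) * (vp T w z Y * ‖om T w Y‖ ^ 2)
        ≤ B * (A / (4 * t)) ^ 3 * (1 * (9 / 8 * (2 * A)) ^ 2) := by gcongr
      _ = _ := by ring

/-- **[TUBE] for the area excess** -/
theorem tube_aF (H : Adm T w ε κ h₁) (H' : Adm T w ε κ h₁') (hle : h₁ ≤ h₁')
    [IsFiniteMeasure ν] (hk : Kern k k' K)
    (hB : 0 ≤ B) (hKB : ∀ s, 0 ≤ s → K s ≤ B * (max (1 - s) 0) ^ 4)
    (ht : 0 < t) (hA0 : 0 ≤ A) (hA : 2 * A ≤ t) (hρ : t + 2 * ε * h₁ ≤ ρ)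
    (hρ' : t + 2 * ε * h₁' ≤ ρ')
    (hin : ∀ᵐ y ∂ν, ‖T.starProjection y - T.starProjection z‖ < ρ → ‖co T y - w y‖ ≤ h₁ / 2)
    (hout : ∀ᵐ y ∂ν, ‖T.starProjection y - T.starProjection z‖ < ρ' → ‖co T y - w y‖ ≤ A) :
    |aF m Q T w z K (fmeas T w h₁' ν) t - aF m Q T w z K (fmeas T w h₁ ν) t| ≤
      B * (ν.real {y | ‖T.starProjection y - T.starProjection z‖ < 2 * t} / t ^ m) * t ^ 2 *
        (A / t) ^ 4 := by
  have hε1 : ε ≤ 1 / 16 := H.hε.trans eps0_le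
  have hε0 := H.ref.eps_nonneg
  have hfin : ∀ s : ℝ, IsFiniteMeasure (fmeas T w s ν) := fun s => by
    unfold fmeas; exact Measure.isFiniteMeasure_map ν _
  have hint : ∀ s : ℝ, Integrable (fun Y => K (aX T w z Y / t ^ 2) * 1) (fmeas T w s ν) := by
    intro s
    haveI := hfin s
    have g : Gd (aX T w z) (fmeas T w s ν) t (fun _ : E => (1:ℝ)) := Gd.const 1
    exact g.integrable hk.pK.continuous hk.pK.zero (H.ref.continuous_aX z).aestronglyMeasurable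
      (fun _ => aX_nonneg _) ht le_rfl
  have key := tube_integral H H' hle ht hA0 hA hρ hρ' hin hout (hint h₁) (hint h₁')
    (M := B * (A / (4 * t)) ^ 4) ?_ (by positivity) ?_
  · have e : ∀ μ : Measure E, aF m Q T w z K μ t = 2 * t ^ 2 * (t ^ (-(m : ℤ)) *
        ∫ Y, K (aX T w z Y / t ^ 2) * 1 ∂μ - Q * MSf m T w z K t) := fun μ => rfl
    rw [e, e]
    have e2 : ∀ a b c : ℝ, 2 * t ^ 2 * (t ^ (-(m : ℤ)) * a - c) - 2 * t ^ 2 *
        (t ^ (-(m : ℤ)) * b - c) = 2 * t ^ 2 * t ^ (-(m : ℤ)) * (a - b) := by intros; ring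
    rw [e2, abs_mul, abs_of_nonneg (by positivity)]
    refine (mul_le_mul_of_nonneg_left key (by positivity)).trans ?_
    have h1 : t ^ (-(m : ℤ)) = (t ^ m)⁻¹ := by rw [zpow_neg, zpow_natCast]
    have h2 : 2 * (B * (A / (4 * t)) ^ 4) ≤ B * (A / t) ^ 4 := by
      have h3 : 2 * (B * (A / (4 * t)) ^ 4) = (1 / 128) * (B * (A / t) ^ 4) := by
        field_simp
        ring
      rw [h3]
      have : 0 ≤ B * (A / t) ^ 4 := by positivity
      linarith
    rw [h1]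
    set N := ν.real {y | ‖T.starProjection y - T.starProjection z‖ < 2 * t} with hN
    have hN0 : 0 ≤ N := measureReal_nonneg
    calc 2 * t ^ 2 * (t ^ m)⁻¹ * (B * (A / (4 * t)) ^ 4 * N)
        = t ^ 2 * (t ^ m)⁻¹ * N * (2 * (B * (A / (4 * t)) ^ 4)) := by ring
      _ ≤ t ^ 2 * (t ^ m)⁻¹ * N * (B * (A / t) ^ 4) := by gcongr
      _ = _ := by ring
  · intro Y hY
    have h1 : 1 ≤ aX T w z Y / t ^ 2 := by
      rw [le_div_iff₀ (by positivity), one_mul]
      unfold aX XX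
      gcongr
    show K (aX T w z Y / t ^ 2) * 1 = 0
    rw [hk.pK.zero _ h1, zero_mul]
  · intro Y hY1 hY2 hY3
    show |K (aX T w z Y / t ^ 2) * 1| ≤ _
    have h2 := hk.K_nonneg (aX T w z Y / t ^ 2)
    have h3 : K (aX T w z Y / t ^ 2) ≤ B * (A / (4 * t)) ^ 4 :=
      kern_near hB hKB ht hε1 hε0 hA0 hY1 hY2 (norm_nonneg _)
    rw [abs_of_nonneg (by positivity), mul_one]
    exact h3

end Vale.Agent.P214.FM
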