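import Vale.Agent.P214.INST.TanA
import Vale.Agent.P214.ALL.Frame

/-!
# P214, block INST: the differentials of the references at the centre are tiny
-/

open Set Filter Topology MeasureTheory Metric
open scoped RealInnerProductSpace ContDiff

set_option linter.all false

namespace Vale.Agent.P214.INST

open WIN WSEQ FM

variable {m n Q : ℕ} {E : Type*} [NormedAddCommGroup E] [InnerProductSpace ℝ E]
  [FiniteDimensional ℝ E] [MeasurableSpace E] [BorelSpace E]
variable {T : Submodule ℝ E} {F : Frame m n T} {ν : Measure E} {P : E → E →L[ℝ] E} {Kp : Set E}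
  {δ : ℝ → ℝ} {X : Exps} {C C₅ ε : ℝ}

/-- small numbers -/
lemma exists_pow_small (K : ℝ) {a : ℝ} (ha : 0 < a) :
    ∃ ε₀ : ℝ, 0 < ε₀ ∧ ε₀ < 1 ∧ ∀ h : ℝ, 0 < h → h ≤ ε₀ → K * h ^ a ≤ 1 := by
  set L : ℝ := max K 2 with hL
  have hL2 : 2 ≤ L := le_max_right _ _
  have hL0 : 0 < L := by linarith
  refine ⟨L⁻¹ ^ a⁻¹, by positivity, ?_, fun h h0 hh => ?_⟩
  · apply Real.rpow_lt_one (by positivity) (inv_lt_one_of_one_lt₀ (by linarith)) (by positivity)
  · have h1 : h ^ a ≤ L⁻¹ := by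
      calc h ^ a ≤ (L⁻¹ ^ a⁻¹) ^ a := Real.rpow_le_rpow h0.le hh ha.le
        _ = L⁻¹ := by
          rw [← Real.rpow_mul (by positivity), inv_mul_cancel₀ ha.ne', Real.rpow_one]
    have h2 : 0 ≤ h ^ a := Real.rpow_nonneg h0.le _
    calc K * h ^ a ≤ L * h ^ a := by gcongr; exact le_max_left _ _
      _ ≤ L * L⁻¹ := by gcongr
      _ = 1 := mul_inv_cancel₀ hL0.ne'

/-- the differential at the centre -/
noncomputable def dA (S : WSeq m n Q T F ν P Kp δ X C C₅ ε) (j : ℕ) : E →L[ℝ] E :=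
  fderiv ℝ (F.lift (S.u j)) 0

lemma refe_small (S : WSeq m n Q T F ν P Kp δ X C C₅ ε) (j : ℕ) :
    ∀ a, ContDiff ℝ ∞ (S.u j a) := (S.refe j).smooth

lemma lift_sub' (F : Frame m n T) (u v : Fin n → REF.E m → ℝ) :
    F.lift (fun a x => u a x - v a x) = fun y => F.lift u y - F.lift v y := by
  funext y
  rw [F.lift_sub]
  rfl

lemma norm_dA_sub (S : WSeq m n Q T F ν P Kp δ X C C₅ ε) (j : ℕ) :
    ‖dA S (j + 1) - dA S j‖ ≤ n * S.h j ^ (1 / 2 - X.e) := by
  have h0 : ∀ i : ℕ, ContDiff ℝ ∞ (F.lift (S.u i)) := fun i =>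
    COORD.contDiff_lift F (S.refe i).smooth
  have h1 : dA S (j + 1) - dA S j
      = fderiv ℝ (F.lift (fun a x => S.u (j + 1) a x - S.u j a x)) 0 := by
    unfold dA
    rw [lift_sub']
    exact (fderiv_sub ((h0 (j + 1)).differentiable (by simp) 0)
      ((h0 j).differentiable (by simp) 0)).symm
  rw [h1, ← norm_iteratedFDeriv_one]
  have hsm : ∀ a, ContDiff ℝ (1 : ℕ) (fun x => S.u (j + 1) a x - S.u j a x) := fun a =>
    (((S.refe (j + 1)).smooth a).sub ((S.refe j).smooth a)).of_le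
      (WithTop.coe_le_coe.2 le_top)
  refine (COORD.norm_iteratedFDeriv_lift F hsm 0).trans ?_
  have hr := S.r_pos j
  calc _ ≤ ∑ _a : Fin n, S.h j ^ (1 / 2 - X.e) := by
        refine Finset.sum_le_sum fun a _ => ?_
        have h2 := (S.nxt j).size a 1 (by unfold WIN.sW; omega) (F.xc 0)
        rw [pow_one, mul_inv_cancel₀ hr.ne', one_mul] at h2
        exact h2
    _ = _ := by simp

lemma u_at_zero (S : WSeq m n Q T F ν P Kp δ X C C₅ ε) (j : ℕ) (a : Fin n) : S.u j a 0 = 0 := by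
  cases j with
  | zero => rw [S.u_zero]; rfl
  | succ j => exact (S.nxt j).zero a

lemma lift_at_zero (S : WSeq m n Q T F ν P Kp δ X C C₅ ε) (j : ℕ) : F.lift (S.u j) 0 = 0 := by
  unfold Frame.lift
  refine Finset.sum_eq_zero fun a _ => ?_
  rw [F.xc_zero, u_at_zero S j a, zero_smul]

lemma dA_base (S : WSeq m n Q T F ν P Kp δ X C C₅ ε) (j : ℕ) (y : E) :
    dA S j y = dA S j (T.starProjection y) := by
  have hr := COORD.kms_ref_lift F (S.refe j).smooth
  have h1 : F.lift (S.u j) = F.lift (S.u j) ∘ T.starProjection := funext fun y => hr.base y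
  have hd : Differentiable ℝ (F.lift (S.u j)) := hr.smooth.differentiable (by simp)
  have h2 : dA S j = (fderiv ℝ (F.lift (S.u j)) (T.starProjection 0)).comp
      (T.starProjection : E →L[ℝ] E) := by
    unfold dA
    conv_lhs => rw [h1]
    rw [fderiv_comp _ (hd _) (T.starProjection : E →L[ℝ] E).differentiableAt]
    rw [ContinuousLinearMap.fderiv]
  rw [h2]
  simp only [ContinuousLinearMap.comp_apply]
  congr 1
  exact (Submodule.starProjection_eq_self_iff.2 (Submodule.starProjection_apply_mem T y)).symm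

/-- second order Taylor estimate at the centre -/
lemma taylor_lift (S : WSeq m n Q T F ν P Kp δ X C C₅ ε) (hε : (n:ℝ) * ε ≤ 1) (j : ℕ) (y : E) :
    ‖F.lift (S.u j) y - dA S j (T.starProjection y)‖ ≤ ‖T.starProjection y‖ ^ 2 := by
  have hr := COORD.kms_ref_lift F (S.refe j).smooth
  have hd : Differentiable ℝ (F.lift (S.u j)) := hr.smooth.differentiable (by simp)
  have hd1 : Differentiable ℝ (fderiv ℝ (F.lift (S.u j))) :=
    (hr.smooth.fderiv_right (m := 1) (WithTop.coe_le_coe.2 le_top)).differentiable (by simp)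
  have hb : ∀ x, ‖fderiv ℝ (fderiv ℝ (F.lift (S.u j))) x‖ ≤ 1 := fun x =>
    (HSW.lift_bounds F (S.refe j) hε x).2.2
  have h1 : ∀ x, ‖fderiv ℝ (F.lift (S.u j)) x - dA S j‖ ≤ ‖x‖ := by
    intro x
    have := convex_univ.norm_image_sub_le_of_norm_fderiv_le (𝕜 := ℝ)
      (f := fderiv ℝ (F.lift (S.u j))) (fun z _ => hd1 z) (fun z _ => hb z) (mem_univ (0:E))
      (mem_univ x)
    rw [one_mul, sub_zero] at this
    exact this
  set z := T.starProjection y with hz
  have h2 := (convex_closedBall (0:E) ‖z‖).norm_image_sub_le_of_norm_fderiv_le' (𝕜 := ℝ)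
    (f := F.lift (S.u j)) (φ := dA S j) (C := ‖z‖) (fun x _ => hd x)
    (fun x hx => (h1 x).trans (by simpa using hx)) (x := 0) (y := z)
    (by simp) (by simp)
  rw [lift_at_zero, sub_zero, sub_zero] at h2
  rw [hr.base y, sq]
  exact h2

lemma lift_bounded (S : WSeq m n Q T F ν P Kp δ X C C₅ ε) (hε : (n:ℝ) * ε ≤ 1) (j : ℕ) (y : E) :
    ‖F.lift (S.u j) y‖ ≤ 1 := (HSW.lift_bounds F (S.refe j) hε y).1

lemma r_le_one (S : WSeq m n Q T F ν P Kp δ X C C₅ ε) (hε : ε ≤ 1) (j : ℕ) : S.r j ≤ 3 / 16 := by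
  rw [← S.r_zero]
  induction j with
  | zero => exact le_rfl
  | succ j ih =>
    refine ((S.nxt j).r_le.trans ?_).trans ih
    have h1 : 0 ≤ th (S.h j) := by
      unfold th
      have : 0 ≤ Real.log (S.h j)⁻¹ :=
        Real.log_nonneg ((one_le_inv₀ (S.h_pos j)).2 ((S.h_le j).trans hε))
      positivity
    have h2 := S.r_pos j
    nlinarith

lemma h_le_r (S : WSeq m n Q T F ν P Kp δ X C C₅ ε) (hε : ε ≤ 1) (j : ℕ) : S.h j ≤ S.r j := by
  refine (S.h_pow j).trans ?_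
  have h1 := S.r_pos j
  have h2 := r_le_one S hε j
  exact pow_le_of_le_one h1.le (by linarith) (by unfold WIN.sW; omega)

/-- the differentials at the centre tend to zero -/
theorem dA_lim {τ : ℝ} (S : WSeq m n Q T F ν P Kp δ X C C₅ ε) (hS : Ctx τ S)
    (hε : (n:ℝ) * ε ≤ 1) (hε1 : ε ≤ 1) : Tendsto (fun j => ‖dA S j‖) atTop (𝓝 0) := by
  obtain ⟨δ₀, C₀, hδ₀, hC₀, H⟩ := lin_small E m Q hS.m_pos hS.Q_pos
  have hsq : Tendsto (fun j => ‖dA S j‖ ^ 2) atTop (𝓝 0) := by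
    rw [Metric.tendsto_atTop]
    intro η hη
    set η' : ℝ := min δ₀ (min 1 (η / (4 * C₀))) with hη'
    have hη'0 : 0 < η' := by positivity
    have hη'1 : η' ≤ δ₀ := min_le_left _ _
    have hη'2 : η' ≤ 1 := (min_le_right _ _).trans (min_le_left _ _)
    have hη'3 : η' ≤ η / (4 * C₀) := (min_le_right _ _).trans (min_le_right _ _)
    obtain ⟨r₀, hr₀, hlim⟩ := hS.loc.lim η' hη'0
    have hev := (S.r_lim.eventually (gt_mem_nhds (show (0:ℝ) < min r₀ η' by positivity)))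
    obtain ⟨J, hJ⟩ := eventually_atTop.1 hev
    refine ⟨J, fun j hj => ?_⟩
    have hrj := hJ j hj
    have hr := S.r_pos j
    have hr1 : S.r j ≤ r₀ := hrj.le.trans (min_le_left _ _)
    have hr2 : S.r j ≤ η' := hrj.le.trans (min_le_right _ _)
    obtain ⟨hI, hex⟩ := hlim (S.r j) hr hr1
    have h1 := H T (S.r j) (η' * S.r j) (S.r j) ν P (F.lift (S.u j)) (dA S j) 1
      (TCH.IntCyl.weaken hI hη'1) (hex.trans (by gcongr))
      (COORD.kms_ref_lift F (S.refe j).smooth) (lift_bounded S hε j) (dA_base S j)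
      (by positivity) hr.le (fun y hy => by
        refine (taylor_lift S hε j y).trans ?_
        rw [sq]; gcongr)
    have h2 : STR.hN m T (F.lift (S.u j)) ν (S.r j) = S.h j := (S.h_eq j).symm
    rw [h2, mul_div_cancel_right₀ _ hr.ne'] at h1
    have h3 := h_le_r S hε1 j
    have h4 : S.h j + η' ^ 2 + S.r j ^ 2 ≤ 3 * η' := by nlinarith
    rw [Real.dist_eq, sub_zero, abs_of_nonneg (by positivity)]
    calc ‖dA S j‖ ^ 2 ≤ C₀ * (3 * η') := h1.trans (by gcongr)
      _ ≤ C₀ * (3 * (η / (4 * C₀))) := by gcongr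
      _ = 3 / 4 * η := by field_simp
      _ < η := by linarith
  have h5 := hsq.sqrt
  simp only [Real.sqrt_zero, Real.sqrt_sq (norm_nonneg _)] at h5
  exact h5

/-- a sequence with limit zero and geometrically decreasing increments -/
lemma le_of_telescope {W : Type*} [SeminormedAddCommGroup W] {A : ℕ → W} {g : ℕ → ℝ} (k : ℕ)
    (hA : ∀ i, k ≤ i → ‖A (i + 1) - A i‖ ≤ g i) (hg : ∀ i, g (i + 1) ≤ g i / 2)
    (hg0 : ∀ i, 0 ≤ g i) (hlim : Tendsto (fun j => ‖A j‖) atTop (𝓝 0)) : ‖A k‖ ≤ 2 * g k := by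
  have htel : ∀ i, ‖A k - A (k + i)‖ ≤ 2 * g k - 2 * g (k + i) := by
    intro i
    induction i with
    | zero => simp
    | succ i ih =>
      have h1 := hA (k + i) (by omega)
      have h2 := hg (k + i)
      have h3 : A k - A (k + (i + 1)) = (A k - A (k + i)) - (A (k + i + 1) - A (k + i)) := by
        rw [← add_assoc]; abel
      rw [h3]
      refine (norm_sub_le _ _).trans ?_
      rw [← add_assoc]
      linarith
  have hlim' : Tendsto (fun i => 2 * g k + ‖A (k + i)‖) atTop (𝓝 (2 * g k + 0)) := by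
    refine tendsto_const_nhds.add ?_
    have h1 : Tendsto (fun i => k + i) atTop atTop := by
      simpa [add_comm] using tendsto_add_atTop_nat k
    exact hlim.comp h1
  rw [add_zero] at hlim'
  refine ge_of_tendsto' hlim' fun i => ?_
  have h3 := htel i
  have h4 := hg0 (k + i)
  have h5 : ‖A k‖ ≤ ‖A k - A (k + i)‖ + ‖A (k + i)‖ := by
    have := norm_add_le (A k - A (k + i)) (A (k + i))
    rwa [sub_add_cancel] at this
  linarith

/-- powers of the heights decrease geometrically -/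
lemma h_pow_half (S : WSeq m n Q T F ν P Kp δ X C C₅ ε) {b ε₁ : ℝ} (hb : 0 ≤ b)
    (H1 : ∀ h : ℝ, 0 < h → h ≤ ε₁ → 2 * h ^ (X.c * b) ≤ 1) (hε : ε ≤ ε₁) (j : ℕ) :
    S.h (j + 1) ^ b ≤ S.h j ^ b / 2 := by
  have h0 := S.h_pos j
  have hs : S.h (j + 1) ≤ S.h j ^ (1 + X.c) := by
    rw [S.h_eq (j + 1)]; exact (S.nxt j).h_next
  calc S.h (j + 1) ^ b ≤ (S.h j ^ (1 + X.c)) ^ b := Real.rpow_le_rpow (S.h_pos _).le hs hb
    _ = S.h j ^ b * S.h j ^ (X.c * b) := by
        rw [← Real.rpow_mul h0.le, ← Real.rpow_add h0]; congr 1; ring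
    _ ≤ S.h j ^ b * (1 / 2) := by
        gcongr
        have := H1 (S.h j) h0 ((S.h_le j).trans hε)
        linarith
    _ = _ := by ring

/-- **[TAN]**, strong form -/
theorem tan_strong (E : Type*) [NormedAddCommGroup E] [InnerProductSpace ℝ E]
    [FiniteDimensional ℝ E] [MeasurableSpace E] [BorelSpace E] (m n Q : ℕ) :
    Ev E m n Q fun _ _ _ _ _ _ X _ _ _ S => ∀ j,
      ‖dA S j‖ ≤ 2 * n * S.h j ^ (1 / 2 - X.e) := by
  intro X C C₅
  by_cases hX : X.OK m
  swap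
  · exact ⟨1, one_pos, fun T F ν P Kp δ ε τ S hS _ => (hX hS.ok).elim⟩
  have he : X.e ≤ 1 / 10000 := by
    have h1 := hX.e_le
    have h2 := hX.c_le
    linarith
  have hc0 := hX.c_pos
  obtain ⟨ε₁, hε₁, hε₁', H1⟩ := exists_pow_small 2 (a := X.c * (1 / 2 - X.e))
    (mul_pos hc0 (by linarith))
  refine ⟨min ε₁ (1 / (n + 1)), by positivity, fun T F ν P Kp δ ε τ S hS hε k => ?_⟩
  have hεε₁ : ε ≤ ε₁ := hε.trans (min_le_left _ _)
  have hε1 : ε ≤ 1 := hεε₁.trans hε₁'.le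
  have hnε : (n:ℝ) * ε ≤ 1 := by
    have h1 : ε ≤ 1 / (n + 1) := hε.trans (min_le_right _ _)
    have h2 : (0:ℝ) < n + 1 := by positivity
    calc (n:ℝ) * ε ≤ n * (1 / (n + 1)) := by gcongr
      _ ≤ 1 := by rw [mul_one_div, div_le_one h2]; linarith
  have h1 := le_of_telescope (A := dA S) (g := fun j => n * S.h j ^ (1 / 2 - X.e)) k
    (fun i _ => norm_dA_sub S i)
    (fun i => by
      have := h_pow_half S (b := 1 / 2 - X.e) (by linarith) H1 hεε₁ i
      have hn : (0:ℝ) ≤ n := by positivity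
      show (n:ℝ) * S.h (i + 1) ^ (1 / 2 - X.e) ≤ n * S.h i ^ (1 / 2 - X.e) / 2
      nlinarith)
    (fun i => by
      have := (S.h_pos i).le
      positivity)
    (dA_lim S hS hnε hε1)
  calc ‖dA S k‖ ≤ 2 * (n * S.h k ^ (1 / 2 - X.e)) := h1
    _ = _ := by ring

/-- **[TAN]**, sharp form (helper617): from the accuracy `acc` at the centre -/
theorem tan_sharp (E : Type*) [NormedAddCommGroup E] [InnerProductSpace ℝ E]
    [FiniteDimensional ℝ E] [MeasurableSpace E] [BorelSpace E] (m n Q : ℕ) :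
    Ev E m n Q fun _ _ _ _ _ _ X _ _ _ S => ∀ j,
      ‖fderiv ℝ (wr S j) 0‖ ≤ 2 * n * S.h j ^ (1 / 2 + 2 * X.c) := by
  intro X C C₅
  by_cases hX : X.OK m
  swap
  · exact ⟨1, one_pos, fun T F ν P Kp δ ε τ S hS _ => (hX hS.ok).elim⟩
  have hc0 := hX.c_pos
  obtain ⟨ε₁, hε₁, hε₁', H1⟩ := exists_pow_small 2 (a := X.c * (1 / 2 + 2 * X.c))
    (mul_pos hc0 (by linarith))
  refine ⟨min ε₁ (1 / (n + 1)), by positivity, fun T F ν P Kp δ ε τ S hS hε k => ?_⟩
  have hεε₁ : ε ≤ ε₁ := hε.trans (min_le_left _ _)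
  have hε1 : ε ≤ 1 := hεε₁.trans hε₁'.le
  have hnε : (n:ℝ) * ε ≤ 1 := by
    have h1 : ε ≤ 1 / (n + 1) := hε.trans (min_le_right _ _)
    have h2 : (0:ℝ) < n + 1 := by positivity
    calc (n:ℝ) * ε ≤ n * (1 / (n + 1)) := by gcongr
      _ ≤ 1 := by rw [mul_one_div, div_le_one h2]; linarith
  have hinc : ∀ i, ‖dA S (i + 1 + 1) - dA S (i + 1)‖ ≤ n * S.h i ^ (1 / 2 + 2 * X.c) := by
    intro i
    have h0 : ∀ i : ℕ, ContDiff ℝ ∞ (F.lift (S.u i)) := fun i =>
      COORD.contDiff_lift F (S.refe i).smooth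
    have h1 : dA S (i + 1 + 1) - dA S (i + 1)
        = fderiv ℝ (F.lift (fun a x => S.u (i + 1 + 1) a x - S.u (i + 1) a x)) 0 := by
      unfold dA
      rw [lift_sub']
      exact (fderiv_sub ((h0 (i + 1 + 1)).differentiable (by simp) 0)
        ((h0 (i + 1)).differentiable (by simp) 0)).symm
    rw [h1, ← norm_iteratedFDeriv_one]
    have hsm : ∀ a, ContDiff ℝ (1 : ℕ) (fun x => S.u (i + 1 + 1) a x - S.u (i + 1) a x) :=
      fun a => (((S.refe (i + 1 + 1)).smooth a).sub ((S.refe (i + 1)).smooth a)).of_le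
        (WithTop.coe_le_coe.2 le_top)
    refine (COORD.norm_iteratedFDeriv_lift F hsm 0).trans ?_
    have hr := S.r_pos (i + 1)
    calc _ ≤ ∑ _a : Fin n, S.h i ^ (1 / 2 + 2 * X.c) := by
          refine Finset.sum_le_sum fun a _ => ?_
          have h2 := S.acc i a 1 (by norm_num) (F.xc 0) (by
            rw [F.xc_zero, norm_zero]
            have := S.th_le (i + 1)
            exact mul_pos hr (by linarith))
          rw [pow_one, mul_inv_cancel₀ hr.ne', one_mul] at h2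
          exact h2
      _ = _ := by simp
  have hlim := dA_lim S hS hnε hε1
  have h1 := le_of_telescope (A := fun j => dA S (j + 1))
    (g := fun j => n * S.h j ^ (1 / 2 + 2 * X.c)) k (fun i _ => hinc i)
    (fun i => by
      have := h_pow_half S (b := 1 / 2 + 2 * X.c) (by linarith) H1 hεε₁ i
      have hn : (0:ℝ) ≤ n := by positivity
      show (n:ℝ) * S.h (i + 1) ^ (1 / 2 + 2 * X.c) ≤ n * S.h i ^ (1 / 2 + 2 * X.c) / 2
      nlinarith)
    (fun i => by
      have := (S.h_pos i).le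
      positivity)
    (hlim.comp (tendsto_add_atTop_nat 1))
  calc ‖fderiv ℝ (wr S k) 0‖ = ‖dA S (k + 1)‖ := rfl
    _ ≤ 2 * (n * S.h k ^ (1 / 2 + 2 * X.c)) := h1
    _ = _ := by ring

theorem tanStmt (E : Type*) [NormedAddCommGroup E] [InnerProductSpace ℝ E]
    [FiniteDimensional ℝ E] [MeasurableSpace E] [BorelSpace E] (m n Q : ℕ) :
    TanStmt E m n Q := by
  intro X C C₅
  by_cases hX : X.OK m
  swap
  · exact ⟨1, one_pos, fun T F ν P Kp δ ε τ S hS _ => (hX hS.ok).elim⟩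
  obtain ⟨ε₀, hε₀, H⟩ := tan_strong E m n Q X C C₅
  obtain ⟨ε₁, hε₁, hε₁', H1⟩ := exists_pow_small (2 * n) hX.e_pos
  obtain ⟨ε₂, hε₂, hε₂', H2⟩ := exists_pow_small (64 * n) (a := 1 / 8) (by norm_num)
  have he : X.e ≤ 1 / 10000 := by
    have h1 := hX.e_le
    have h2 := hX.c_le
    linarith
  have he0 := hX.e_pos
  have hc0 := hX.c_pos
  refine ⟨min ε₀ (min ε₁ ε₂), by positivity, fun T F ν P Kp δ ε τ S hS hε j => ?_⟩
  have hb := H T F ν P Kp δ ε τ S hS (hε.trans (min_le_left _ _)) (j + 1)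
  have hε1 : ε ≤ ε₁ := hε.trans ((min_le_right _ _).trans (min_le_left _ _))
  have hε2 : ε ≤ ε₂ := hε.trans ((min_le_right _ _).trans (min_le_right _ _))
  have hε3 : ε ≤ 1 := hε1.trans hε₁'.le
  have hb' : ‖fderiv ℝ (wr S j) 0‖ ≤ 2 * n * S.h (j + 1) ^ (1 / 2 - X.e) := hb
  have hh0 := S.h_pos j
  have hh1 := S.h_pos (j + 1)
  have hhs : S.h (j + 1) ≤ S.h j := by
    have hs : S.h (j + 1) ≤ S.h j ^ (1 + X.c) := by
      rw [S.h_eq (j + 1)]; exact (S.nxt j).h_next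
    refine hs.trans ?_
    calc S.h j ^ (1 + X.c) ≤ S.h j ^ (1:ℝ) :=
          Real.rpow_le_rpow_of_exponent_ge hh0 ((S.h_le j).trans hε3) (by linarith)
      _ = S.h j := Real.rpow_one _
  constructor
  · refine hb'.trans ?_
    calc 2 * n * S.h (j + 1) ^ (1 / 2 - X.e) ≤ 2 * n * S.h j ^ (1 / 2 - X.e) := by
          gcongr; linarith
      _ = (2 * n * S.h j ^ X.e) * S.h j ^ (1 / 2 - 2 * X.e) := by
          rw [mul_assoc, mul_assoc, ← Real.rpow_add hh0]; ring_nf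
      _ ≤ 1 * S.h j ^ (1 / 2 - 2 * X.e) := by
          gcongr
          exact H1 (S.h j) hh0 ((S.h_le j).trans hε1)
      _ = _ := one_mul _
  · have hr := S.r_pos (j + 1)
    have hr1 := r_le_one S hε3 (j + 1)
    have hT : S.r (j + 1) / 2 ≤ Tr S (j + 1) := by
      unfold Tr
      have := S.th_le (j + 1)
      nlinarith
    have h1 : S.h (j + 1) ^ (1 / 2 - X.e) ≤ S.h (j + 1) ^ (1 / 8 : ℝ) * S.r (j + 1) := by
      have h2 : S.h (j + 1) ^ (1 / 2 - X.e)
          = S.h (j + 1) ^ (1 / 8 : ℝ) * S.h (j + 1) ^ (3 / 8 - X.e) := by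
        rw [← Real.rpow_add hh1]; congr 1; ring
      rw [h2]
      gcongr
      have h3 : S.h (j + 1) ≤ S.r (j + 1) ^ (8 * sW m) := S.h_pow (j + 1)
      have h4 : S.h (j + 1) ≤ S.r (j + 1) ^ 4 :=
        h3.trans (pow_le_pow_of_le_one hr.le (by linarith) (by unfold WIN.sW; omega))
      calc S.h (j + 1) ^ (3 / 8 - X.e) ≤ S.h (j + 1) ^ (1 / 4 : ℝ) :=
            Real.rpow_le_rpow_of_exponent_ge hh1 ((S.h_le _).trans hε3) (by linarith)
        _ ≤ (S.r (j + 1) ^ 4) ^ (1 / 4 : ℝ) := Real.rpow_le_rpow hh1.le h4 (by norm_num)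
        _ = S.r (j + 1) := by
          rw [← Real.rpow_natCast, ← Real.rpow_mul hr.le]; norm_num
    calc ‖fderiv ℝ (wr S j) 0‖ ≤ 2 * n * S.h (j + 1) ^ (1 / 2 - X.e) := hb'
      _ ≤ 2 * n * (S.h (j + 1) ^ (1 / 8 : ℝ) * S.r (j + 1)) := by gcongr
      _ = (64 * n * S.h (j + 1) ^ (1 / 8 : ℝ)) * (S.r (j + 1) / 32) := by ring
      _ ≤ 1 * (S.r (j + 1) / 32) := by
          gcongr
          exact H2 _ hh1 ((S.h_le _).trans hε2)
      _ ≤ Tr S (j + 1) / 16 := by linarith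

end Vale.Agent.P214.INST
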