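import Vale.Agent.P214.INST.Cyl
import Vale.Agent.P214.INST.Tube
import Vale.Agent.P214.INST.Tan

/-!
# P214, block INST: change of the tube at the switches

`ev_tube` : for the reference of window `j+1`, the kernel height and the area excess at the switch
radius `Tr S (j+1)` with the tubes of the windows `j+1` and `j` differ by `≤ T² h_j^{3/2}`.
-/

open Set Filter Topology MeasureTheory Metric
open scoped RealInnerProductSpace ContDiff

set_option linter.all false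

namespace Vale.Agent.P214.INST

open WIN WSEQ FM

variable {m n Q : ℕ} {E : Type*} [NormedAddCommGroup E] [InnerProductSpace ℝ E]
  [FiniteDimensional ℝ E] [MeasurableSpace E] [BorelSpace E]

/-- smallness of one height for the tube lemma -/
structure TubeNum (n : ℕ) (D h : ℝ) : Prop where
  pos : 0 < h
  le : h ≤ 1 / 2
  th_pos : 0 < th h
  s1 : h ^ (2 / 5 : ℝ) ≤ 1 / 8 * th h
  s2 : (n : ℝ) * h ^ (1 / 20 : ℝ) ≤ 1
  s3 : D * h ^ (6 / 100 : ℝ) ≤ 1
  s4 : h ^ (39 / 100 : ℝ) ≤ 1 / 8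

lemma exists_tubeNum (n : ℕ) {D : ℝ} (hD : 0 ≤ D) :
    ∃ ε₀ : ℝ, 0 < ε₀ ∧ ε₀ ≤ 1 / 2 ∧ ∀ h, 0 < h → h ≤ ε₀ → TubeNum n D h := by
  obtain ⟨a, ha, ha1, h1⟩ := exists_th_small (a := 2 / 5) (by norm_num) 1 (η := 1 / 8)
    (by norm_num)
  obtain ⟨b, hb, hb1, h2⟩ := exists_th_small (a := 1 / 20) (by norm_num) 0
    (η := 1 / ((n : ℝ) + 1)) (by positivity)
  obtain ⟨c, hc, hc1, h3⟩ := exists_th_small (a := 6 / 100) (by norm_num) 0 (η := 1 / (D + 1))
    (by positivity)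
  obtain ⟨d, hd, hd1, h4⟩ := exists_th_small (a := 39 / 100) (by norm_num) 0 (η := 1 / 8)
    (by norm_num)
  refine ⟨min (min (min a b) (min c d)) (1 / 2), by positivity, min_le_right _ _, ?_⟩
  intro h hh hle
  have e0 : h ≤ 1 / 2 := hle.trans (min_le_right _ _)
  have e1 : h ≤ min (min a b) (min c d) := hle.trans (min_le_left _ _)
  have ea : h ≤ a := e1.trans ((min_le_left _ _).trans (min_le_left _ _))
  have eb : h ≤ b := e1.trans ((min_le_left _ _).trans (min_le_right _ _))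
  have ec : h ≤ c := e1.trans ((min_le_right _ _).trans (min_le_left _ _))
  have ed : h ≤ d := e1.trans ((min_le_right _ _).trans (min_le_right _ _))
  have f1 := h1 h hh ea
  have f2 := (h2 h hh eb).2
  have f3 := (h3 h hh ec).2
  have f4 := (h4 h hh ed).2
  rw [pow_one] at f1
  rw [pow_zero, mul_one] at f2 f3 f4
  refine ⟨hh, e0, f1.1, f1.2, ?_, ?_, f4⟩
  · have hn : (0:ℝ) ≤ n := Nat.cast_nonneg n
    calc (n : ℝ) * h ^ (1 / 20 : ℝ) ≤ n * (1 / ((n : ℝ) + 1)) := by gcongr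
      _ ≤ 1 := by rw [mul_one_div, div_le_one (by positivity)]; linarith
  · calc D * h ^ (6 / 100 : ℝ) ≤ D * (1 / (D + 1)) := by gcongr
      _ ≤ 1 := by rw [mul_one_div, div_le_one (by positivity)]; linarith

lemma th_mono' {h h' : ℝ} (h0 : 0 < h') (hle : h' ≤ h) (h1 : h < 1) : th h' ≤ th h := by
  unfold th
  have e1 : 0 < Real.log h⁻¹ := Real.log_pos (by
    rw [one_lt_inv₀ (h0.trans_le hle)]; exact h1)
  have e2 : Real.log h⁻¹ ≤ Real.log h'⁻¹ := by
    apply Real.log_le_log (inv_pos.2 (h0.trans_le hle))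
    gcongr
  exact pow_le_pow_left₀ (inv_nonneg.2 (e1.le.trans e2)) (inv_anti₀ e1 e2) 7

/-- the final power count -/
lemma TubeNum.fin {B M M' t A h : ℝ} {n : ℕ} (N : TubeNum n (256 * (B * M)) h) (hB : 0 ≤ B)
    (hM' : M' ≤ M) (ht : 0 < t) (hA0 : 0 ≤ A) (hA2 : 2 * A ≤ t)
    (hAt : A ≤ t * (4 * h ^ (39 / 100 : ℝ))) :
    (A / t) ^ 5 ≤ (A / t) ^ 4 ∧ B * M' * t ^ 2 * (A / t) ^ 4 ≤ t ^ 2 * h ^ (3 / 2 : ℝ) := by
  have hu0 : 0 ≤ A / t := by positivity
  have hu1 : A / t ≤ 1 := by rw [div_le_one ht]; linarith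
  have hu4 : (A / t) ^ 4 ≤ 256 * (h ^ (6 / 100 : ℝ) * h ^ (3 / 2 : ℝ)) := by
    have e1 : A / t ≤ 4 * h ^ (39 / 100 : ℝ) := by
      rw [div_le_iff₀ ht]; linarith
    calc (A / t) ^ 4 ≤ (4 * h ^ (39 / 100 : ℝ)) ^ 4 := pow_le_pow_left₀ hu0 e1 4
      _ = 256 * (h ^ (39 / 100 : ℝ)) ^ 4 := by ring
      _ = _ := by
          rw [← Real.rpow_natCast, ← Real.rpow_mul N.pos.le, ← Real.rpow_add N.pos]
          norm_num
  refine ⟨pow_le_pow_of_le_one hu0 hu1 (by norm_num), ?_⟩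
  have hp := Real.rpow_nonneg N.pos.le (3 / 2 : ℝ)
  have hq : 0 ≤ (A / t) ^ 4 := by positivity
  rcases le_or_gt M' 0 with hneg | hpos
  · have : B * M' * t ^ 2 * (A / t) ^ 4 ≤ 0 := by
      have h1 : B * M' ≤ 0 := mul_nonpos_of_nonneg_of_nonpos hB hneg
      have h2 : B * M' * t ^ 2 ≤ 0 := mul_nonpos_of_nonpos_of_nonneg h1 (by positivity)
      exact mul_nonpos_of_nonpos_of_nonneg h2 hq
    exact this.trans (by positivity)
  have hM0 : 0 ≤ M := hpos.le.trans hM'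
  calc _ ≤ B * M * t ^ 2 * (256 * (h ^ (6 / 100 : ℝ) * h ^ (3 / 2 : ℝ))) := by
        gcongr
    _ = (256 * (B * M) * h ^ (6 / 100 : ℝ)) * (t ^ 2 * h ^ (3 / 2 : ℝ)) := by ring
    _ ≤ 1 * (t ^ 2 * h ^ (3 / 2 : ℝ)) := by gcongr; exact N.s3
    _ = _ := one_mul _

section

variable {T : Submodule ℝ E} {F : Frame m n T} {ν : Measure E} {P : E → E →L[ℝ] E} {Kp : Set E}
  {δ : ℝ → ℝ} {X : Exps} {C C₅ ε τ : ℝ}

/-- mass of small cylinders -/
lemma mass_small (S : WSeq m n Q T F ν P Kp δ X C C₅ ε) (hctx : Ctx τ S) (hτ1 : τ ≤ 1) {t : ℝ}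
    (ht : 0 < t) (h2t : 2 * t ≤ 3 / 8) :
    ν.real {y : E | ‖T.starProjection y - T.starProjection (0:E)‖ < 2 * t} / t ^ m ≤
      (|Q * Skel.om m| + 1) * 2 ^ m := by
  have hI2 := (hctx.loc.int (2 * t) (by positivity) h2t).mass
  have e1 : {y : E | ‖T.starProjection y - T.starProjection (0:E)‖ < 2 * t} =
      Skel.cylSet T 0 (2 * t) := by
    ext y
    simp [Skel.cylSet, map_zero, sub_zero]
  rw [e1, div_le_iff₀ (by positivity)]
  have e2 := (abs_le.1 hI2).2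
  have e3 : (0:ℝ) ≤ (2 * t) ^ m := by positivity
  have e4 : ↑Q * Skel.om m * (2 * t) ^ m ≤ |↑Q * Skel.om m| * (2 * t) ^ m := by
    gcongr; exact le_abs_self _
  have e5 : τ * (2 * t) ^ m ≤ 1 * (2 * t) ^ m := by gcongr
  calc ν.real (Skel.cylSet T 0 (2 * t)) ≤ |↑Q * Skel.om m| * (2 * t) ^ m + 1 * (2 * t) ^ m := by
        linarith
    _ = _ := by rw [mul_pow]; ring

/-- the references of two consecutive windows are uniformly close -/
lemma norm_wr_sub (S : WSeq m n Q T F ν P Kp δ X C C₅ ε) (j : ℕ) (y : E) :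
    ‖wr S (j + 1) y - wr S j y‖ ≤ n * (S.r (j + 1) * S.h (j + 1) ^ (1 / 2 - X.e)) := by
  have h1 : wr S (j + 1) y - wr S j y =
      F.lift (fun a x => S.u (j + 1 + 1) a x - S.u (j + 1) a x) y := by
    rw [lift_sub']
    rfl
  have hsm : ∀ a, ContDiff ℝ (0 : ℕ) (fun x => S.u (j + 1 + 1) a x - S.u (j + 1) a x) := fun a =>
    (((S.refe (j + 1 + 1)).smooth a).sub ((S.refe (j + 1)).smooth a)).of_le
      (WithTop.coe_le_coe.2 le_top)
  have h2 := COORD.norm_iteratedFDeriv_lift F hsm y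
  rw [norm_iteratedFDeriv_zero] at h2
  rw [h1]
  refine h2.trans ?_
  calc _ ≤ ∑ _a : Fin n, S.r (j + 1) * S.h (j + 1) ^ (1 / 2 - X.e) := by
        refine Finset.sum_le_sum fun a _ => ?_
        have h3 := (S.nxt (j + 1)).size a 0 (Nat.zero_le _) (F.xc y)
        rw [pow_zero, mul_one] at h3
        exact h3
    _ = _ := by simp

/-- the sup of the relative heights over the next reference -/
lemma sup_next (S : WSeq m n Q T F ν P Kp δ X C C₅ ε) (hctx : Ctx τ S) {D : ℝ} (j : ℕ)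
    (N : TubeNum n D (S.h j)) (hs : ∀ᵐ y ∂ν,
      T.starProjection y ∈ ball (0:E) (S.r j * (1 - 17 / 2 * th (S.h j))) →
      ‖FV.co T y - wr S j y‖ ≤ S.r j * S.h j ^ (2 / 5 : ℝ)) :
    ∀ᵐ y ∂ν, T.starProjection y ∈ ball (0:E) (S.r j * (1 - 17 / 2 * th (S.h j))) →
      ‖FV.co T y - wr S (j + 1) y‖ ≤ 2 * (S.r j * S.h j ^ (2 / 5 : ℝ)) := by
  have hr := S.r_pos j
  have hr' := S.r_pos (j + 1)
  have hh' := S.h_pos (j + 1)
  have hc := hctx.ok.c_pos
  have he : X.e ≤ 1 / 20 := by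
    have := hctx.ok.e_le
    have := hctx.ok.c_le
    linarith
  have hle : S.h (j + 1) ≤ S.h j := by
    refine (S.h_succ j).trans ?_
    calc S.h j ^ (1 + X.c) ≤ S.h j ^ (1 : ℝ) :=
          Real.rpow_le_rpow_of_exponent_ge N.pos (N.le.trans (by norm_num)) (by linarith)
      _ = _ := Real.rpow_one _
  have hrr : S.r (j + 1) ≤ S.r j :=
    (S.nxt j).r_le.trans (mul_le_of_le_one_right hr.le (by linarith [N.th_pos]))
  have h1 : (n : ℝ) * (S.r (j + 1) * S.h (j + 1) ^ (1 / 2 - X.e)) ≤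
      S.r j * S.h j ^ (2 / 5 : ℝ) := by
    have e1 : S.h (j + 1) ^ (1 / 2 - X.e) ≤ S.h j ^ (1 / 2 - X.e) :=
      Real.rpow_le_rpow hh'.le hle (by linarith)
    have e2 : S.h j ^ (1 / 2 - X.e) ≤ S.h j ^ (1 / 20 + 2 / 5 : ℝ) :=
      Real.rpow_le_rpow_of_exponent_ge N.pos (N.le.trans (by norm_num)) (by linarith)
    rw [Real.rpow_add N.pos] at e2
    have hn : (0:ℝ) ≤ n := Nat.cast_nonneg n
    have hp := Real.rpow_nonneg N.pos.le (2 / 5 : ℝ)
    calc (n : ℝ) * (S.r (j + 1) * S.h (j + 1) ^ (1 / 2 - X.e))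
        ≤ n * (S.r j * (S.h j ^ (1 / 20 : ℝ) * S.h j ^ (2 / 5 : ℝ))) := by
          gcongr
          exact e1.trans e2
      _ = (n * S.h j ^ (1 / 20 : ℝ)) * (S.r j * S.h j ^ (2 / 5 : ℝ)) := by ring
      _ ≤ 1 * (S.r j * S.h j ^ (2 / 5 : ℝ)) := by gcongr; exact N.s2
      _ = _ := one_mul _
  filter_upwards [hs] with y hy hyb
  have h2 := hy hyb
  have h3 := (norm_wr_sub S j y).trans h1
  calc ‖FV.co T y - wr S (j + 1) y‖ = ‖(FV.co T y - wr S j y) - (wr S (j + 1) y - wr S j y)‖ := by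
        congr 1; abel
    _ ≤ _ := (norm_sub_le _ _).trans (by linarith)

end

/-- **the change of the tube at the switches** -/
theorem ev_tube {k k' K : ℝ → ℝ} {B : ℝ} (hk : ODE.Kern k k' K) (hB : 0 ≤ B)
    (hkB : ∀ s, 0 ≤ s → k s ≤ B * (max (1 - s) 0) ^ 3)
    (hKB : ∀ s, 0 ≤ s → K s ≤ B * (max (1 - s) 0) ^ 4)
    (hR : RefsStmt E m n Q) (hC : CylStmt E m n Q) :
    Ev E m n Q fun T _ ν P _ _ _ _ _ _ S => ∀ j,
      CylF m T (wr S (j + 1)) (tube S j) (ball (0:E) (S.r j * (1 - 23 / 2 * th (S.h j))))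
        (4 * (S.r j * S.h j ^ (2 / 5 : ℝ))) (fmeas T (wr S (j + 1)) (tube S j) ν)
        (fP T (wr S (j + 1)) (tube S j) P) ∧
      |Hw m T ν k (tube S (j + 1)) (wr S (j + 1)) (Tr S (j + 1)) -
          Hw m T ν k (tube S j) (wr S (j + 1)) (Tr S (j + 1))| ≤
        Tr S (j + 1) ^ 2 * S.h j ^ (3 / 2 : ℝ) ∧
      |aw m Q T ν K (tube S (j + 1)) (wr S (j + 1)) (Tr S (j + 1)) -
          aw m Q T ν K (tube S j) (wr S (j + 1)) (Tr S (j + 1))| ≤
        Tr S (j + 1) ^ 2 * S.h j ^ (3 / 2 : ℝ) := by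
  intro X C C₅
  have hη := eps0_pos
  obtain ⟨ε₁, hε₁, href⟩ := hR eps0 hη le_rfl X C C₅
  obtain ⟨ε₂, hε₂, hcyl⟩ := hC eps0 hη le_rfl X C C₅
  set M : ℝ := (|Q * Skel.om m| + 1) * 2 ^ m with hM
  have hM0 : 0 < M := by positivity
  obtain ⟨ε₃, hε₃, hε₃1, hnum⟩ := exists_tubeNum n (D := 256 * (B * M)) (by positivity)
  refine ⟨min (min ε₁ ε₂) ε₃, by positivity, ?_⟩
  intro T F ν P Kp δ ε τ S hctx hε j
  have hε1 : ε ≤ ε₁ := hε.trans ((min_le_left _ _).trans (min_le_left _ _))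
  have hε2 : ε ≤ ε₂ := hε.trans ((min_le_left _ _).trans (min_le_right _ _))
  have hε3 : ε ≤ ε₃ := hε.trans (min_le_right _ _)
  have N := hnum _ (S.h_pos j) ((S.h_le j).trans hε3)
  have N' := hnum _ (S.h_pos (j + 1)) ((S.h_le (j + 1)).trans hε3)
  have hI := hctx.loc.int (3 / 8) (by norm_num) le_rfl
  haveI : IsFiniteMeasure ν := hI.cyl.fin
  obtain ⟨hs0, -, -⟩ := hcyl T F ν P Kp δ ε τ S hctx hε2 j
  obtain ⟨hs1, hcf1, -⟩ := hcyl T F ν P Kp δ ε τ S hctx hε2 (j + 1)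
  obtain ⟨hadm, -, -, -⟩ := href T F ν P Kp δ ε τ S hctx hε1 (j + 1)
  have hsup := sup_next S hctx j N hs0
  have hr := S.r_pos j
  have hr' := S.r_pos (j + 1)
  have hr1 : S.r j ≤ 3 / 16 := by
    rw [← S.r_zero]
    exact S.r_anti (hε3.trans (hε₃1.trans (by norm_num))) (Nat.zero_le j)
  have hθ := N.th_pos
  have hθ' := N'.th_pos
  have hθ1 := S.th_le j
  have hθ1' := S.th_le (j + 1)
  have hrr : S.r (j + 1) ≤ S.r j * (1 - 12 * th (S.h j)) := (S.nxt j).r_le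
  have hrr' : S.r (j + 1) ≤ S.r j := hrr.trans (mul_le_of_le_one_right hr.le (by linarith))
  have hc := hctx.ok.c_pos
  have hle : S.h (j + 1) ≤ S.h j := by
    refine (S.h_succ j).trans ?_
    calc S.h j ^ (1 + X.c) ≤ S.h j ^ (1 : ℝ) :=
          Real.rpow_le_rpow_of_exponent_ge N.pos (N.le.trans (by norm_num)) (by linarith)
      _ = _ := Real.rpow_one _
  have hthle : th (S.h (j + 1)) ≤ th (S.h j) := th_mono' N'.pos hle (N.le.trans_lt (by norm_num))
  have htube : tube S (j + 1) ≤ tube S j := by unfold tube; gcongr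
  have ht0 : 0 < tube S j := by unfold tube; positivity
  have ht0' : 0 < tube S (j + 1) := by unfold tube; positivity
  have ht1 : tube S j ≤ 1 / 16 := by unfold tube; nlinarith
  have H' := hadm (tube S j) ht0 ht1
  have H := hadm (tube S (j + 1)) ht0' (htube.trans ht1)
  have hη1 : eps0 ≤ 1 / 16 := eps0_le
  -- the scale
  set t := Tr S (j + 1) with htd
  have htd' : t = S.r (j + 1) * (1 - 10 * th (S.h (j + 1))) := rfl
  have htle : t ≤ S.r (j + 1) := by
    rw [htd']; exact mul_le_of_le_one_right hr'.le (by linarith)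
  have htge : 11 / 12 * S.r (j + 1) ≤ t := by
    rw [htd']; nlinarith
  have ht : 0 < t := lt_of_lt_of_le (by positivity) htge
  -- the sup
  set A := 2 * (S.r j * S.h j ^ (2 / 5 : ℝ)) with hA
  have hp25 := Real.rpow_pos_of_pos N.pos (2 / 5 : ℝ)
  have hA0 : 0 < A := by positivity
  have hc5 : X.c₅ ≤ 1 / 100 := by
    have := hctx.ok.c₅_le
    have := hctx.ok.c_le
    linarith
  have hAt : A ≤ t * (4 * S.h j ^ (39 / 100 : ℝ)) := by
    have e1 : S.h j ^ (2 / 5 : ℝ) ≤ S.h j ^ (X.c₅ + 39 / 100 : ℝ) :=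
      Real.rpow_le_rpow_of_exponent_ge N.pos (N.le.trans (by norm_num)) (by linarith)
    rw [Real.rpow_add N.pos] at e1
    have e2 := (S.nxt j).r_ge
    have e3 := Real.rpow_nonneg N.pos.le (39 / 100 : ℝ)
    calc A ≤ 2 * (S.r j * (S.h j ^ X.c₅ * S.h j ^ (39 / 100 : ℝ))) := by rw [hA]; gcongr
      _ = 2 * ((S.r j * S.h j ^ X.c₅) * S.h j ^ (39 / 100 : ℝ)) := by ring
      _ ≤ 2 * (S.r (j + 1) * S.h j ^ (39 / 100 : ℝ)) := by gcongr
      _ ≤ 2 * ((2 * t) * S.h j ^ (39 / 100 : ℝ)) := by gcongr; linarith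
      _ = _ := by ring
  have hA2 : 2 * A ≤ t := by
    have e1 : t * (4 * S.h j ^ (39 / 100 : ℝ)) ≤ t * (4 * (1 / 8)) := by gcongr; exact N.s4
    linarith
  -- the two stationary measures in Fermi coordinates
  have hG : ODE.BallIn T (Gr S (j + 1)) 0 t := by
    intro x hx hx2
    rw [map_zero, sub_zero] at hx2
    unfold Gr
    rw [mem_ball, dist_zero_right]
    refine hx2.trans_lt ?_
    rw [htd']
    gcongr
    linarith
  have hcf : CylF m T (wr S (j + 1)) (tube S j) (ball (0:E) (S.r j * (1 - 23 / 2 * th (S.h j))))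
      (2 * A) (fmeas T (wr S (j + 1)) (tube S j) ν) (fP T (wr S (j + 1)) (tube S j) P) := by
    refine cylF_of_sup (R := S.r j * (1 - 11 * th (S.h j))) hI.cyl H' (ball_subset_ball ?_) ?_ ?_ ?_
      hA0.le
    · nlinarith
    · have h2 : 2 * eps0 * tube S j ≤ 1 / 2 * tube S j := by gcongr; linarith
      unfold tube at h2 ⊢
      linarith
    · filter_upwards [hsup] with y hy hyb
      exact hy (ball_subset_ball (by nlinarith) hyb)
    · unfold tube
      rw [hA]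
      have e1 : S.r j * S.h j ^ (2 / 5 : ℝ) ≤ S.r j * (1 / 8 * th (S.h j)) := by
        gcongr; exact N.s1
      have e2 : 0 < S.r j * th (S.h j) := by positivity
      linarith
  have hG' : ODE.BallIn T (ball (0:E) (S.r j * (1 - 23 / 2 * th (S.h j)))) 0 t := by
    intro x hx hx2
    rw [map_zero, sub_zero] at hx2
    rw [mem_ball, dist_zero_right]
    refine hx2.trans_lt ((htle.trans hrr).trans_lt ?_)
    gcongr
    linarith
  -- hypotheses of the tube lemma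
  have hρ : t + 2 * eps0 * tube S (j + 1) ≤
      S.r (j + 1) * (1 - 17 / 2 * th (S.h (j + 1))) := by
    have h2 : 2 * eps0 * tube S (j + 1) ≤ 1 / 2 * tube S (j + 1) := by gcongr; linarith
    rw [htd']
    have h3 : 0 < S.r (j + 1) * th (S.h (j + 1)) := by positivity
    unfold tube at h2 ⊢
    linarith
  have hρ' : t + 2 * eps0 * tube S j ≤ S.r j * (1 - 17 / 2 * th (S.h j)) := by
    have h2 : 2 * eps0 * tube S j ≤ 1 / 2 * tube S j := by gcongr; linarith
    have h3 : 0 < S.r j * th (S.h j) := by positivity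
    unfold tube at h2 ⊢
    linarith
  have hin : ∀ᵐ y ∂ν, ‖T.starProjection y - T.starProjection (0:E)‖ <
      S.r (j + 1) * (1 - 17 / 2 * th (S.h (j + 1))) →
      ‖FV.co T y - wr S (j + 1) y‖ ≤ tube S (j + 1) / 2 := by
    filter_upwards [hs1] with y hy hyb
    rw [map_zero, sub_zero] at hyb
    refine (hy (by rw [mem_ball, dist_zero_right]; exact hyb)).trans ?_
    unfold tube
    calc S.r (j + 1) * S.h (j + 1) ^ (2 / 5 : ℝ) ≤
          S.r (j + 1) * (1 / 8 * th (S.h (j + 1))) := by gcongr; exact N'.s1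
      _ ≤ _ := by
          have : 0 < S.r (j + 1) * th (S.h (j + 1)) := by positivity
          linarith
  have hout : ∀ᵐ y ∂ν, ‖T.starProjection y - T.starProjection (0:E)‖ <
      S.r j * (1 - 17 / 2 * th (S.h j)) → ‖FV.co T y - wr S (j + 1) y‖ ≤ A := by
    filter_upwards [hsup] with y hy hyb
    rw [map_zero, sub_zero] at hyb
    exact hy (by rw [mem_ball, dist_zero_right]; exact hyb)
  have hmass := mass_small S hctx (hctx.τ_le.trans (hε3.trans (hε₃1.trans (by norm_num)))) ht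
    (by linarith)
  obtain ⟨hu5, hfin⟩ := N.fin hB hmass ht hA0.le hA2 hAt
  refine ⟨hcf.mono_slab (le_of_eq ?_) ?_, ?_, ?_⟩
  · rw [hA]; ring
  · have := hcf.lt
    rw [hA] at this
    linarith
  · have key := tube_HF H H' htube hcf1 hcf hG hG' hk hB hkB ht hA0.le hA2 hρ hρ' hin hout
    unfold Hw
    rw [abs_sub_comm]
    refine key.trans (le_trans ?_ hfin)
    have e0 : 0 ≤ B * (ν.real {y : E | ‖T.starProjection y - T.starProjection (0:E)‖ < 2 * t}
      / t ^ m) * t ^ 2 := by positivity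
    exact mul_le_mul_of_nonneg_left hu5 e0
  · have key := tube_aF (m := m) (Q := Q) H H' htube hk hB hKB ht hA0.le hA2 hρ hρ' hin hout
    unfold aw
    rw [abs_sub_comm]
    exact key.trans hfin

end Vale.Agent.P214.INST
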