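import Vale.Agent.P214.INST.Props

/-!
# P214, block INST: the choice of the collar and of the height for the field `ode` (statement)

`DichStmt` is proved by helper970 (`INST/Dich.lean`), used in `INST/OdeWin.lean` (helper934).
-/

open Set Filter Topology MeasureTheory Metric
open scoped RealInnerProductSpace ContDiff

set_option linter.all false

namespace Vale.Agent.P214.INST

open WIN WSEQ FM

/-- **[DICH]** (helper970): for all small scales `t` of window `j = k₀ + i` and all bounds `s` of the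
active heights there are a collar `d ≥ (log 1/S')^{-9}` and a bound `S'` of the height of the same
reference in this collar, such that the rate error of `S'` is below the rate error of `s`. -/
def DichStmt (E : Type*) [NormedAddCommGroup E] [InnerProductSpace ℝ E] [FiniteDimensional ℝ E]
    [MeasurableSpace E] [BorelSpace E] (m n Q : ℕ) (k K : ℝ → ℝ) : Prop :=
  ∀ S₀ : ℝ, 0 < S₀ → Ev E m n Q fun T _ ν _ _ _ _ _ _ _ S => ∀ (k₀ : ℕ) (e : ℕ → ℝ) (κ : ℝ),
    Fat S k₀ → ∃ t₀ > 0, ∀ i t s, (chain k K κ e S k₀).Win i t → t ≤ t₀ → 0 < s → s ≤ t₀ →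
      (chain k K κ e S k₀).Bdd t s → ∃ d S' : ℝ, 0 < d ∧ d ≤ 1 / 2 ∧ 0 < S' ∧ S' ≤ S₀ ∧
        ((Real.log S'⁻¹)⁻¹) ^ 9 ≤ d ∧
        (1 + 2 * d) * t < S.r (k₀ + i) * (1 - 9 * th (S.h (k₀ + i))) ∧
        Hw m T ν k (tube S (k₀ + i)) (wr S (k₀ + i)) ((1 + 2 * d) * t) ≤ S' * t ^ 2 ∧
        S' ^ (1 / 4 : ℝ) * t ≤ tube S (k₀ + i) ∧
        ((Real.log S'⁻¹)⁻¹) ^ 28 * S' ≤ ((Real.log s⁻¹)⁻¹) ^ 3 * s

end Vale.Agent.P214.INST
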