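import Vale.Agent.P214.INST.Props

/-!
# P214, block INST: [B1] comparison of the kernel heights with the heights over cylinders
-/

open Set Filter Topology MeasureTheory Metric
open scoped RealInnerProductSpace ContDiff

namespace Vale.Agent.P214.INST

open WIN WSEQ FM

noncomputable section

/-- **[B1]** kernel height of window `j` against the height over cylinders, both directions -/
def KerStmt (E : Type*) [NormedAddCommGroup E] [InnerProductSpace ℝ E] [FiniteDimensional ℝ E]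
    [MeasurableSpace E] [BorelSpace E] (m n Q : ℕ) (k : ℝ → ℝ) : Prop :=
  ∃ Ck : ℝ, 1 ≤ Ck ∧ Ev E m n Q fun T _ ν _ _ _ X _ _ _ S => ∀ j t,
    S.r j * S.h j ^ (2 * X.c₅) ≤ t →
    (t ≤ S.r j * (1 - 9 * th (S.h j)) →
      Hw m T ν k (tube S j) (wr S j) t
        ≤ Ck * t ^ 2 * STR.hN m T (wr S j) ν (t * (1 + S.h j ^ (1 / 4 : ℝ)))) ∧
    (∀ d, 4 * S.h j ^ (1 / 4 : ℝ) ≤ d → d ≤ 1 / 2 →
      t * (1 + d) ≤ S.r j * (1 - 17 / 2 * th (S.h j)) →
      STR.hN m T (wr S j) ν t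
        ≤ Ck * d⁻¹ ^ 3 * (t ^ 2)⁻¹ * Hw m T ν k (tube S j) (wr S j) (t * (1 + d)))

end

end Vale.Agent.P214.INST
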