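import Vale.Agent.P214.INST.DichAbs
import Vale.Agent.P214.INST.DichProps
import Vale.Agent.P214.INST.KerProps
import Vale.Agent.P214.WSEQ.AccSum

/-!
# P214, block INST: the dichotomy for the field `ode` (helper970)
-/

open Set Filter Topology MeasureTheory Metric
open scoped RealInnerProductSpace ContDiff

set_option linter.all false

namespace Vale.Agent.P214.INST

open WIN WSEQ FM STR

noncomputable section

variable {m n Q : ℕ} {E : Type*} [NormedAddCommGroup E] [InnerProductSpace ℝ E]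
  [FiniteDimensional ℝ E] [MeasurableSpace E] [BorelSpace E]

/-- lower bounds of the kernel heights slightly above the radii (consequence of `SwDat`) -/
def LowStmt (E : Type*) [NormedAddCommGroup E] [InnerProductSpace ℝ E] [FiniteDimensional ℝ E]
    [MeasurableSpace E] [BorelSpace E] (m n Q : ℕ) (k K : ℝ → ℝ) : Prop :=
  ∃ c₀ : ℝ, 0 < c₀ ∧ Ev E m n Q fun _ _ _ _ _ _ X _ _ _ S => ∀ (k₀ : ℕ) (e : ℕ → ℝ) (κ : ℝ),
    Fat S k₀ → ∀ i,
      (S.r (k₀ + (i + 1)) < S.r (k₀ + i) * (1 - 12 * th (S.h (k₀ + i))) →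
        c₀ * th (S.h (k₀ + i)) ^ 3 * S.h (k₀ + i) ^ (1 + X.c)
          ≤ (chain k K κ e S k₀).h i (S.r (k₀ + (i + 1)) * (1 + th (S.h (k₀ + i))))) ∧
      ∃ y, (chain k K κ e S k₀).Win i y ∧
        c₀ * th (S.h (k₀ + (i + 1))) ^ 3 * S.h (k₀ + (i + 1)) ≤ (chain k K κ e S k₀).h i y ∧
        y ≤ S.r (k₀ + (i + 1)) * (1 + (((chain k K κ e S k₀).L i y)⁻¹) ^ 6 / 30)

/-- smallness of one height -/
structure DcH (X : Exps) (A h : ℝ) : Prop where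
  lt_one : h < 1
  th_pos : 0 < th h
  th_le : th h ≤ 1 / 4000
  p4 : h ^ (1 / 4 : ℝ) ≤ th h / 4
  p8 : 16 * h ^ (1 / 4 : ℝ) ≤ h ^ (1 / 8 : ℝ)
  pc : 4 * h ^ (2 * X.c₅) ≤ h ^ X.c₅
  pc' : h ^ X.c₅ ≤ 1 / 2
  pA : A * h ^ (1 - X.e) ≤ h ^ (3 / 4 : ℝ)

lemma pow_small_ev {a b : ℝ} (A : ℝ) (hab : b < a) :
    ∀ᶠ h in 𝓝[>] (0:ℝ), A * h ^ a ≤ h ^ b := by
  have h1 := (tendsto_rpow_div (a - b) (by linarith) 0).eventually
    (gt_mem_nhds (show (0:ℝ) < 1 / (|A| + 1) by positivity))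
  filter_upwards [h1, self_mem_nhdsWithin] with h b1 hpos
  have hp : (0:ℝ) < h := hpos
  rw [pow_zero, mul_one] at b1
  have e1 : h ^ a = h ^ (a - b) * h ^ b := by rw [← Real.rpow_add hp]; congr 1; ring
  have h2 : A * h ^ (a - b) ≤ 1 := by
    calc A * h ^ (a - b) ≤ (|A| + 1) * h ^ (a - b) := by
          gcongr; linarith [le_abs_self A]
      _ ≤ (|A| + 1) * (1 / (|A| + 1)) := by gcongr
      _ = 1 := by field_simp
  calc A * h ^ a = (A * h ^ (a - b)) * h ^ b := by rw [e1]; ring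
    _ ≤ 1 * h ^ b := by gcongr
    _ = _ := one_mul _

lemma exists_DcH {X : Exps} (hX : X.OK m) (A : ℝ) :
    ∃ ε : ℝ, 0 < ε ∧ ∀ h, 0 < h → h ≤ ε → DcH X A h := by
  apply ev_to_ex
  have hc5 := hX.c₅_pos
  have he : X.e < 1 / 4 := by
    have := hX.e_le
    have := hX.c_le
    linarith
  have a0 := tendsto_log_inv.eventually (eventually_ge_atTop 4000)
  have a1 : ∀ᶠ h in 𝓝[>] (0:ℝ), h ∈ Ioo (0:ℝ) 1 := Ioo_mem_nhdsGT (show (0:ℝ) < 1 by norm_num)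
  have a2 := ev_small (δ := 1 / 4) (by norm_num) 1 (η := 1 / 4) (by norm_num)
  have a3 := pow_small_ev 16 (show (1 / 8 : ℝ) < 1 / 4 by norm_num)
  have a4 := pow_small_ev 4 (show X.c₅ < 2 * X.c₅ by linarith)
  have a5 := pow_small_ev 2 (show (0:ℝ) < X.c₅ from hc5)
  have a6 := pow_small_ev A (show (3 / 4 : ℝ) < 1 - X.e by linarith)
  filter_upwards [a0, a1, a2, a3, a4, a5, a6] with h b0 b1 b2 b3 b4 b5 b6
  have hth : 0 < th h := by
    unfold th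
    positivity
  refine ⟨b1.2, hth, ?_, ?_, b3, b4, ?_, b6⟩
  · unfold th
    have h1 : (Real.log h⁻¹)⁻¹ ≤ 1 / 4000 := by
      rw [inv_eq_one_div]; exact one_div_le_one_div_of_le (by norm_num) b0
    have h0 : 0 ≤ (Real.log h⁻¹)⁻¹ := by positivity
    calc (Real.log h⁻¹)⁻¹ ^ 7 ≤ (1 / 4000 : ℝ) ^ 7 := pow_le_pow_left₀ h0 h1 7
      _ ≤ 1 / 4000 := by norm_num
  · rw [pow_one] at b2
    calc h ^ (1 / 4 : ℝ) ≤ 1 / 4 * thI h := b2
      _ = th h / 4 := by rw [show thI h = th h from rfl]; ring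
  · rw [Real.rpow_zero] at b5
    linarith

lemma dprime {q d : ℝ} (hq : 0 < q) (hqd : q ≤ d / 16) (hd1 : d ≤ 1 / 2) :
    d / 2 ≤ (1 + d) / (1 + q) - 1 ∧ (1 + d) / (1 + q) - 1 ≤ 1 / 2 := by
  constructor
  · rw [le_sub_iff_add_le, le_div_iff₀ (by linarith)]
    nlinarith
  · rw [sub_le_iff_le_add, div_le_iff₀ (by linarith)]
    nlinarith

lemma cmp_alg {x q d d' y W N1 N0 Ck B R P4 P2 Hx : ℝ} (hx : 0 < x) (hq : 0 < q)
    (hd0 : 0 < d) (hd1 : d ≤ 1 / 2) (hxy : x ≤ y) (hy2 : y ≤ x * (1 + d))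
    (hd'2 : d / 2 ≤ d') (hW : 0 < W) (hCk : 1 ≤ Ck) (hB : 0 ≤ B)
    (hR0 : 0 < R) (hR : R ≤ 2 * x) (h1 : Hx ≤ Ck * x ^ 2 * N1)
    (h2 : N1 ≤ 2 * N0 + 8 * B * (R / y) ^ 2 * P4) (h3 : N0 ≤ Ck * d'⁻¹ ^ 3 * (y ^ 2)⁻¹ * W)
    (hP4 : 0 < P4) (h46 : P4 ≤ P2) :
    Hx / x ^ 2 ≤ Ck * (64 * Ck + 32 * B) * ((d⁻¹) ^ 3 * (W / (x * (1 + d)) ^ 2) + P2) := by
  have hy0 : 0 < y := hx.trans_le hxy
  have hxd0 : 0 < x * (1 + d) := by positivity
  have h4 : N0 ≤ 32 * Ck * ((d⁻¹) ^ 3 * (W / (x * (1 + d)) ^ 2)) := by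
    refine h3.trans ?_
    have h5 : d'⁻¹ ≤ 2 * d⁻¹ := by
      calc d'⁻¹ ≤ (d / 2)⁻¹ := inv_anti₀ (by positivity) hd'2
        _ = 2 * d⁻¹ := by field_simp
    have h5' : 0 < d'⁻¹ := inv_pos.2 (by linarith)
    have h6 : d'⁻¹ ^ 3 ≤ 8 * d⁻¹ ^ 3 := by
      calc d'⁻¹ ^ 3 ≤ (2 * d⁻¹) ^ 3 := pow_le_pow_left₀ h5'.le h5 3
        _ = _ := by ring
    have h7 : (y ^ 2)⁻¹ ≤ 4 * ((x * (1 + d)) ^ 2)⁻¹ := by
      have h8 : (x * (1 + d)) ^ 2 ≤ 4 * y ^ 2 := by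
        calc (x * (1 + d)) ^ 2 ≤ (2 * y) ^ 2 := by
              refine pow_le_pow_left₀ hxd0.le ?_ 2
              nlinarith
          _ = 4 * y ^ 2 := by ring
      rw [← div_eq_mul_inv, inv_eq_one_div, div_le_div_iff₀ (by positivity) (by positivity)]
      linarith
    have h9 : 0 < (y ^ 2)⁻¹ := by positivity
    calc Ck * d'⁻¹ ^ 3 * (y ^ 2)⁻¹ * W ≤
          Ck * (8 * d⁻¹ ^ 3) * (4 * ((x * (1 + d)) ^ 2)⁻¹) * W := by
            refine mul_le_mul_of_nonneg_right ?_ hW.le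
            refine mul_le_mul (mul_le_mul_of_nonneg_left h6 (by linarith)) h7 h9.le (by positivity)
      _ = _ := by rw [div_eq_mul_inv]; ring
  have h5 : (R / y) ^ 2 ≤ 4 := by
    calc (R / y) ^ 2 ≤ 2 ^ 2 := by
          refine pow_le_pow_left₀ (by positivity) ?_ 2
          rw [div_le_iff₀ hy0]
          linarith
      _ = 4 := by norm_num
  obtain ⟨V, hV⟩ : ∃ V, V = (d⁻¹) ^ 3 * (W / (x * (1 + d)) ^ 2) := ⟨_, rfl⟩
  rw [← hV] at h4 ⊢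
  have hV0 : 0 ≤ V := by rw [hV]; positivity
  have e2 : 8 * B * (R / y) ^ 2 * P4 ≤ 32 * B * P2 := by
    calc 8 * B * (R / y) ^ 2 * P4 ≤ 8 * B * 4 * P2 :=
          mul_le_mul (mul_le_mul_of_nonneg_left h5 (by positivity)) h46 hP4.le (by positivity)
      _ = _ := by ring
  have e3 : 0 ≤ 32 * B * V := by positivity
  have e4 : 0 ≤ 64 * Ck * P2 := by
    have : 0 < P2 := hP4.trans_le h46
    positivity
  have h7 : N1 ≤ (64 * Ck + 32 * B) * (V + P2) := by nlinarith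
  rw [div_le_iff₀ (by positivity)]
  calc Hx ≤ Ck * x ^ 2 * N1 := h1
    _ ≤ Ck * x ^ 2 * ((64 * Ck + 32 * B) * (V + P2)) :=
        mul_le_mul_of_nonneg_left h7 (by positivity)
    _ = _ := by ring

section

variable {T : Submodule ℝ E} {F : Frame m n T} {ν : Measure E} {P : E → E →L[ℝ] E} {Kp : Set E}
  {δ : ℝ → ℝ} {X : Exps} {C C₅ ε τ A : ℝ}
variable (S : WSeq m n Q T F ν P Kp δ X C C₅ ε) (hsm : ∀ j, DcH X A (S.h j))

include hsm

/-- lower end of the windows -/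
lemma dlow_range (j : ℕ) {y : ℝ} (hy : Tr S (j + 1) ≤ y) :
    0 < y ∧ S.r j * S.h j ^ X.c₅ ≤ 2 * y ∧ S.r j * S.h j ^ (2 * X.c₅) ≤ y ∧
      S.r (j + 1) ≤ 2 * y ∧ S.r (j + 1) * S.h (j + 1) ^ (2 * X.c₅) ≤ y := by
  have h1 := (hsm (j + 1)).th_le
  have h2 := S.r_pos (j + 1)
  have h3 := (S.nxt j).r_ge
  have h4 := (hsm j).pc
  have h4' := (hsm (j + 1)).pc
  have h4'' := (hsm (j + 1)).pc'
  have h5 := S.r_pos j
  have h6 : 0 < S.h j ^ (2 * X.c₅) := Real.rpow_pos_of_pos (S.h_pos j) _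
  have h6' : 0 < S.h (j + 1) ^ (2 * X.c₅) := Real.rpow_pos_of_pos (S.h_pos (j + 1)) _
  have h7 : 11 / 12 * S.r (j + 1) ≤ Tr S (j + 1) := by
    unfold Tr
    nlinarith
  have h8 : 0 < y := by nlinarith
  refine ⟨h8, ?_, ?_, by linarith, ?_⟩
  · linarith
  · have : S.r j * (4 * S.h j ^ (2 * X.c₅)) ≤ S.r j * S.h j ^ X.c₅ := by gcongr
    linarith
  · have : S.r (j + 1) * S.h (j + 1) ^ (2 * X.c₅) ≤ S.r (j + 1) * (1 / 8) := by
      gcongr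
      linarith
    linarith

omit hsm in
lemma drel_cont (j : ℕ) : Continuous (KMS.rel T (wr S j)) :=
  (KMS.ref_lift (F := F) (S.refe (j + 1)).smooth).contDiff_rel.continuous

lemma dr_le_one (j : ℕ) : S.r j ≤ 3 / 16 := by
  induction j with
  | zero => rw [S.r_zero]
  | succ j ih =>
    have h1 := (S.nxt j).r_le
    have h2 := (hsm j).th_pos
    have h3 := S.r_pos j
    nlinarith

/-- the height of window `j` is at most `h_j^{3/4}` -/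
lemma dtop {Ck : ℝ} {k : ℝ → ℝ} (hA : Ck * 4 ^ (m + 2) * C ≤ A) (hCk : 1 ≤ Ck) (hC : 1 ≤ C)
    {H δ' : ℝ} (hI : Skel.IntCyl m Q T 0 (3 / 8) H δ' ν P)
    (hK : ∀ j t, S.r j * S.h j ^ (2 * X.c₅) ≤ t →
    (t ≤ S.r j * (1 - 9 * th (S.h j)) →
      Hw m T ν k (tube S j) (wr S j) t
        ≤ Ck * t ^ 2 * STR.hN m T (wr S j) ν (t * (1 + S.h j ^ (1 / 4 : ℝ)))))
    (j : ℕ) {x : ℝ} (hx : Tr S (j + 1) ≤ x) (hx2 : x ≤ S.r j * (1 - 9 * th (S.h j))) :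
    Hw m T ν k (tube S j) (wr S j) x / x ^ 2 ≤ S.h j ^ (3 / 4 : ℝ) := by
  obtain ⟨x0, x1, x2, x3, x4⟩ := dlow_range S hsm j hx
  have hh := S.h_pos j
  have hq : 0 < S.h j ^ (1 / 4 : ℝ) := Real.rpow_pos_of_pos hh _
  have hθ := (hsm j).th_pos
  have hθ1 := (hsm j).th_le
  have hq1 := (hsm j).p4
  have hr := S.r_pos j
  have hr1 := dr_le_one S hsm j
  set y := x * (1 + S.h j ^ (1 / 4 : ℝ)) with hy
  have hxy : x ≤ y := by rw [hy]; nlinarith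
  have hy8 : y ≤ S.r j * (1 - 8 * th (S.h j)) := by
    calc y ≤ (S.r j * (1 - 9 * th (S.h j))) * (1 + S.h j ^ (1 / 4 : ℝ)) := by rw [hy]; gcongr
      _ = S.r j * ((1 - 9 * th (S.h j)) * (1 + S.h j ^ (1 / 4 : ℝ))) := by ring
      _ ≤ _ := by
        gcongr
        nlinarith
  have htop : STR.hN m T (wr S j) ν y ≤ 4 ^ (m + 2) * (C * S.h j ^ (1 - X.e)) := by
    have h4 : (1:ℝ) ≤ 4 ^ (m + 2) := one_le_pow₀ (by norm_num)
    have hp : 0 < S.h j ^ (1 - X.e) := Real.rpow_pos_of_pos hh _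
    rcases le_total (S.r j * S.h j ^ X.c₅) y with h1 | h1
    · have h2 : STR.hN m T (wr S j) ν y ≤ C * S.h j ^ (1 - X.e) := (S.nxt j).top y h1 hy8
      have h3 : 0 ≤ C * S.h j ^ (1 - X.e) := by positivity
      nlinarith
    · have h2 : STR.hN m T (wr S j) ν (S.r j * S.h j ^ X.c₅) ≤ C * S.h j ^ (1 - X.e) :=
        (S.nxt j).top _ le_rfl (by
          have := (hsm j).pc'
          gcongr
          linarith)
      have h3 : STR.hN m T (wr S j) ν y ≤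
          4 ^ (m + 2) * STR.hN m T (wr S j) ν (S.r j * S.h j ^ X.c₅) :=
        W5.hV_le_of_le hI.cyl (ball_subset_ball (by
          have := (hsm j).pc'
          nlinarith)) (drel_cont S j) (x0.trans_le hxy) h1 (by linarith)
      exact h3.trans (by gcongr)
  have h1 := hK j x x2 hx2
  rw [div_le_iff₀ (by positivity)]
  calc Hw m T ν k (tube S j) (wr S j) x ≤ Ck * x ^ 2 * STR.hN m T (wr S j) ν y := h1
    _ ≤ Ck * x ^ 2 * (4 ^ (m + 2) * (C * S.h j ^ (1 - X.e))) := by gcongr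
    _ = ((Ck * 4 ^ (m + 2) * C) * S.h j ^ (1 - X.e)) * x ^ 2 := by ring
    _ ≤ (A * S.h j ^ (1 - X.e)) * x ^ 2 := by
        have hp : 0 < S.h j ^ (1 - X.e) := Real.rpow_pos_of_pos hh _
        gcongr
    _ ≤ S.h j ^ (3 / 4 : ℝ) * x ^ 2 := by gcongr; exact (hsm j).pA

/-- comparison with the previous window -/
lemma dcmp {Ck M : ℝ} {k : ℝ → ℝ} (hCk : 1 ≤ Ck) (hM0 : 0 ≤ M) (hc : 0 < X.c)
    (hK : ∀ j t, S.r j * S.h j ^ (2 * X.c₅) ≤ t →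
    (t ≤ S.r j * (1 - 9 * th (S.h j)) →
      Hw m T ν k (tube S j) (wr S j) t
        ≤ Ck * t ^ 2 * STR.hN m T (wr S j) ν (t * (1 + S.h j ^ (1 / 4 : ℝ)))) ∧
    (∀ d, 4 * S.h j ^ (1 / 4 : ℝ) ≤ d → d ≤ 1 / 2 →
      t * (1 + d) ≤ S.r j * (1 - 17 / 2 * th (S.h j)) →
      STR.hN m T (wr S j) ν t
        ≤ Ck * d⁻¹ ^ 3 * (t ^ 2)⁻¹ * Hw m T ν k (tube S j) (wr S j) (t * (1 + d))))
    (hacc : ∀ j y, 0 < y → y ≤ S.r (j + 1) * (1 - 8 * th (S.h (j + 1))) →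
      STR.hN m T (wr S (j + 1)) ν y ≤ 2 * STR.hN m T (wr S j) ν y
        + 8 * n ^ 2 * M * (S.r (j + 1) / y) ^ 2 * S.h j ^ (1 + 4 * X.c))
    (j : ℕ)
    (hpos : ∀ x, Tr S (j + 1) ≤ x → x ≤ Tr S j → 0 < Hw m T ν k (tube S j) (wr S j) x)
    {x d : ℝ} (hx : Tr S (j + 1) ≤ x) (hd : S.h j ^ (1 / 8 : ℝ) ≤ d) (hd1 : d ≤ 1 / 2)
    (hxd : x * (1 + d) ≤ S.r (j + 1) * (1 - 9 * th (S.h (j + 1)))) :
    Hw m T ν k (tube S (j + 1)) (wr S (j + 1)) x / x ^ 2 ≤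
      Ck * (64 * Ck + 32 * n ^ 2 * M) * ((d⁻¹) ^ 3 *
        (Hw m T ν k (tube S j) (wr S j) (x * (1 + d)) / (x * (1 + d)) ^ 2)
        + S.h j ^ (1 + 2 * X.c)) := by
  obtain ⟨x0, x1, x2, x3, x4⟩ := dlow_range S hsm j hx
  have hh := S.h_pos j
  have hh' := S.h_pos (j + 1)
  have hr := S.r_pos j
  have hr' := S.r_pos (j + 1)
  have hθ := (hsm j).th_pos
  have hθ1 := (hsm j).th_le
  have hθ' := (hsm (j + 1)).th_pos
  have hθ1' := (hsm (j + 1)).th_le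
  have hmono : S.h (j + 1) ≤ S.h j := by
    refine (S.h_succ j).trans ?_
    calc S.h j ^ (1 + X.c) ≤ S.h j ^ (1:ℝ) :=
          Real.rpow_le_rpow_of_exponent_ge hh (hsm j).lt_one.le (by linarith)
      _ = _ := Real.rpow_one _
  obtain ⟨q, hq⟩ : ∃ q, q = S.h (j + 1) ^ (1 / 4 : ℝ) := ⟨_, rfl⟩
  have hq0 : 0 < q := by rw [hq]; exact Real.rpow_pos_of_pos hh' _
  have hqj : q ≤ S.h j ^ (1 / 4 : ℝ) := by
    rw [hq]; exact Real.rpow_le_rpow hh'.le hmono (by norm_num)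
  have hq16 : 16 * S.h j ^ (1 / 4 : ℝ) ≤ d := (hsm j).p8.trans hd
  have hqd : q ≤ d / 16 := by linarith
  have hd0 : 0 < d := by linarith
  have hx9 : x ≤ S.r (j + 1) * (1 - 9 * th (S.h (j + 1))) := le_trans (by nlinarith) hxd
  -- the height over the cylinder
  obtain ⟨y, hy⟩ : ∃ y, y = x * (1 + q) := ⟨_, rfl⟩
  have hxy : x ≤ y := by rw [hy]; nlinarith
  have hy0 : 0 < y := x0.trans_le hxy
  have hy2 : y ≤ x * (1 + d) := by
    rw [hy]; exact mul_le_mul_of_nonneg_left (by linarith) x0.le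
  have h1 : Hw m T ν k (tube S (j + 1)) (wr S (j + 1)) x ≤
      Ck * x ^ 2 * STR.hN m T (wr S (j + 1)) ν y := by
    rw [hy, hq]; exact (hK (j + 1) x x4).1 hx9
  have hy8 : y ≤ S.r (j + 1) * (1 - 8 * th (S.h (j + 1))) :=
    (hy2.trans hxd).trans (mul_le_mul_of_nonneg_left (by linarith) hr'.le)
  have h2 := hacc j y hy0 hy8
  -- the second comparison
  obtain ⟨hd'2, hd'1⟩ := dprime hq0 hqd hd1
  obtain ⟨d', hd'⟩ : ∃ d', d' = (1 + d) / (1 + q) - 1 := ⟨_, rfl⟩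
  rw [← hd'] at hd'2 hd'1
  have e1 : y * (1 + d') = x * (1 + d) := by
    rw [hy, hd']; field_simp; ring
  have hxr : x * (1 + d) ≤ S.r (j + 1) := hxd.trans (by nlinarith)
  have hxr' : x * (1 + d) ≤ S.r j * (1 - 12 * th (S.h j)) := hxr.trans (S.nxt j).r_le
  have h3 := (hK j y (x2.trans hxy)).2 d' (by linarith) hd'1 (by
    rw [e1]
    exact hxr'.trans (mul_le_mul_of_nonneg_left (by linarith) hr.le))
  rw [e1] at h3
  have hW : 0 < Hw m T ν k (tube S j) (wr S j) (x * (1 + d)) :=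
    hpos _ (hx.trans (by nlinarith))
      (hxr'.trans (mul_le_mul_of_nonneg_left (by linarith) hr.le))
  have hp4 : 0 < S.h j ^ (1 + 4 * X.c) := Real.rpow_pos_of_pos hh _
  have h6 : S.h j ^ (1 + 4 * X.c) ≤ S.h j ^ (1 + 2 * X.c) :=
    Real.rpow_le_rpow_of_exponent_ge hh (hsm j).lt_one.le (by linarith)
  have h7 := cmp_alg (B := n ^ 2 * M) x0 hq0 hd0 hd1 hxy hy2 hd'2 hW hCk (by positivity) hr' x3 h1
    (by rw [← mul_assoc]; exact h2) h3 hp4 h6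
  rw [← mul_assoc 32] at h7
  exact h7

end

/-- `LowStmt` from the data of the switches -/
theorem lowStmt_of_swDat {k K : ℝ → ℝ} {c₀ C₀ : ℝ} (hc₀ : 0 < c₀)
    (h : Ev E m n Q fun _ _ _ _ _ _ X _ _ ε S => ∀ (k₀ : ℕ) (e : ℕ → ℝ) (κ : ℝ), Fat S k₀ →
      SwDat X.c C₀ c₀ ε (fun i => S.r (k₀ + i)) (fun i => S.h (k₀ + i))
        (chain k K κ e S k₀).h) : LowStmt E m n Q k K := by
  refine ⟨c₀, hc₀, fun X C C₅ => ?_⟩
  obtain ⟨ε₁, hε₁, h1⟩ := h X C C₅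
  refine ⟨min ε₁ (1 / 2), by positivity, ?_⟩
  intro T F ν P Kp δ ε τ S hS hε k₀ e κ hfat i
  have hD := h1 T F ν P Kp δ ε τ S hS (hε.trans (min_le_left _ _)) k₀ e κ hfat
  refine ⟨hD.low' i, ?_⟩
  obtain ⟨y, y1, y2, y3, y4, -⟩ := hD.low i
  have hθ : 0 ≤ th (S.h (k₀ + i)) := by
    have h2 : S.h (k₀ + i) ≤ 1 :=
      ((S.h_le _).trans (hε.trans (min_le_right _ _))).trans (by norm_num)
    have h3 : 0 ≤ Real.log (S.h (k₀ + i))⁻¹ :=
      Real.log_nonneg ((one_le_inv₀ (S.h_pos _)).2 h2)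
    unfold th
    positivity
  have hr := S.r_pos (k₀ + (i + 1))
  have hr' := S.r_pos (k₀ + i)
  refine ⟨y, ⟨y1, y2.trans ?_⟩, y4, ?_⟩
  · show S.r (k₀ + (i + 1)) * (1 + th (S.h (k₀ + i))) ≤
      S.r (k₀ + i) * (1 - 10 * th (S.h (k₀ + i)))
    calc S.r (k₀ + (i + 1)) * (1 + th (S.h (k₀ + i))) ≤
          (S.r (k₀ + i) * (1 - 12 * th (S.h (k₀ + i)))) * (1 + th (S.h (k₀ + i))) := by
            refine mul_le_mul_of_nonneg_right (S.nxt (k₀ + i)).r_le (by linarith)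
      _ ≤ _ := by
        rw [mul_assoc]
        refine mul_le_mul_of_nonneg_left ?_ hr'.le
        nlinarith
  · have y3' : 30 * (y / S.r (k₀ + (i + 1)) - 1) ≤ (((chain k K κ e S k₀).L i y)⁻¹) ^ 6 := y3
    have e1 : y / S.r (k₀ + (i + 1)) ≤ 1 + (((chain k K κ e S k₀).L i y)⁻¹) ^ 6 / 30 := by
      linarith
    rw [div_le_iff₀ hr] at e1
    linarith

/-- **[DICH]** -/
theorem dichStmt {k K : ℝ → ℝ} (hker : KerStmt E m n Q k) (hlow : LowStmt E m n Q k K)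
    (hsoft : SoftStmt E m n Q k K) : DichStmt E m n Q k K := by
  obtain ⟨Ck, hCk, hker⟩ := hker
  obtain ⟨c₀, hc₀, hlow⟩ := hlow
  intro S₀ hS₀ X C C₅
  by_cases hX : X.OK m
  swap
  · exact ⟨1, one_pos, fun T F ν P Kp δ ε τ S hS _ => absurd hS.ok hX⟩
  obtain ⟨ε₁, hε₁, h1⟩ := hker X C C₅
  obtain ⟨ε₂, hε₂, h2⟩ := hlow X C C₅
  obtain ⟨ε₃, hε₃, h3⟩ := hsoft X C C₅
  obtain ⟨ε₄, hε₄, hε₄1, h4⟩ := hN_acc hX
  obtain ⟨ε₅, hε₅, h5⟩ := exists_DcH hX (Ck * 4 ^ (m + 2) * C)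
  obtain ⟨ε₆, hε₆, h6⟩ := exists_DSm hX.c_pos (by linarith [hX.c_le]) hc₀
  refine ⟨min (min ε₁ ε₂) (min (min ε₃ ε₄) (min ε₅ ε₆)), by positivity, ?_⟩
  intro T F ν P Kp δ ε τ S hS hε k₀ e κ hfat
  have k1 : ε ≤ ε₁ := hε.trans ((min_le_left _ _).trans (min_le_left _ _))
  have k2 : ε ≤ ε₂ := hε.trans ((min_le_left _ _).trans (min_le_right _ _))
  have k3 : ε ≤ ε₃ := hε.trans ((min_le_right _ _).trans ((min_le_left _ _).trans (min_le_left _ _)))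
  have k4 : ε ≤ ε₄ := hε.trans ((min_le_right _ _).trans ((min_le_left _ _).trans (min_le_right _ _)))
  have k5 : ε ≤ ε₅ := hε.trans ((min_le_right _ _).trans ((min_le_right _ _).trans (min_le_left _ _)))
  have k6 : ε ≤ ε₆ := hε.trans ((min_le_right _ _).trans ((min_le_right _ _).trans (min_le_right _ _)))
  have hε1 : ε ≤ 1 := k4.trans hε₄1
  have hsm : ∀ j, DcH X (Ck * 4 ^ (m + 2) * C) (S.h j) :=
    fun j => h5 _ (S.h_pos j) ((S.h_le j).trans k5)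
  have hK := h1 T F ν P Kp δ ε τ S hS k1
  have hL := h2 T F ν P Kp δ ε τ S hS k2 k₀ e κ hfat
  obtain ⟨-, -, -, -, hW, -⟩ := h3 T F ν P Kp δ ε τ S hS k3 k₀ e κ hfat
  have hloc := hS.loc
  have hI := hloc.int (3 / 8) (by norm_num) le_rfl
  obtain ⟨M, hM⟩ : ∃ M, M = |(Q:ℝ) * Skel.om m| + 1 := ⟨_, rfl⟩
  have hM0 : 0 ≤ M := by rw [hM]; positivity
  have hC1 := hS.C_one
  have hacc : ∀ j y, 0 < y → y ≤ S.r (j + 1) * (1 - 8 * th (S.h (j + 1))) →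
      STR.hN m T (wr S (j + 1)) ν y ≤ 2 * STR.hN m T (wr S j) ν y
        + 8 * n ^ 2 * M * (S.r (j + 1) / y) ^ 2 * S.h j ^ (1 + 4 * X.c) := by
    intro j y hy hyr
    have h5 : y ≤ 3 / 8 := by
      have h9 := dr_le_one S hsm (j + 1)
      have h10 := (hsm (j + 1)).th_pos
      have h11 := S.r_pos (j + 1)
      nlinarith
    exact h4 S k4 hI.cyl j (j + 2) (by omega) y hy hyr (ball_subset_ball h5) (M := M) (by
      have h7 := (hloc.int y hy h5).mass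
      have h8 := (abs_le.1 h7).2
      have h9 : τ * y ^ m ≤ 1 * y ^ m := by
        have : τ ≤ 1 := hS.τ_le.trans hε1
        gcongr
      have h10 : (Q:ℝ) * Skel.om m * y ^ m ≤ |(Q:ℝ) * Skel.om m| * y ^ m := by
        gcongr; exact le_abs_self _
      rw [hM]; linarith)
  have hTr : ∀ j x, Tr S (j + 1) ≤ x → 0 < x := fun j x hx => (dlow_range S hsm j hx).1
  have hin : DichIn X.c c₀ (Ck * (64 * Ck + 32 * n ^ 2 * M)) (fun i => S.r (k₀ + i))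
      (fun i => S.h (k₀ + i)) (chain k K κ e S k₀) :=
    { r_pos := fun i => S.r_pos _
      h_pos := fun i => S.h_pos _
      h_next := fun i => by
        refine (S.h_succ (k₀ + i)).trans ?_
        calc S.h (k₀ + i) ^ (1 + X.c) ≤ S.h (k₀ + i) ^ (1:ℝ) :=
              Real.rpow_le_rpow_of_exponent_ge (S.h_pos _) (hsm _).lt_one.le
                (by linarith [hX.c_pos])
          _ = _ := Real.rpow_one _
      r_le := fun i => (S.nxt (k₀ + i)).r_le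
      T_eq := rfl
      h_lim := by
        refine squeeze_zero (fun j => (S.h_pos _).le) (g := fun j => S.r (k₀ + j)) (fun j => ?_)
          (S.r_lim.comp (tendsto_add_atTop_nat k₀ |>.congr fun j => add_comm _ _))
        refine (S.h_pow _).trans ?_
        have h5 := dr_le_one S hsm (k₀ + j)
        calc S.r (k₀ + j) ^ (8 * sW m) ≤ S.r (k₀ + j) ^ 1 :=
              pow_le_pow_of_le_one (S.r_pos _).le (by linarith) (by unfold sW; omega)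
          _ = S.r (k₀ + j) := pow_one _
      small := fun i => h6 _ (S.h_pos _) ((S.h_le _).trans k6)
      win_le := fun i x hx => (hW i x hx).2.2.2
      low' := fun i => (hL i).1
      low := fun i => (hL i).2
      top := fun i x hx hx2 => by
        exact dtop S hsm le_rfl hCk hC1 hI (fun j t ht => (hK j t ht).1) (k₀ + i) hx hx2
      cmp := fun i x d hx hd hd1 hxd => by
        exact dcmp S hsm hCk hM0 hX.c_pos hK hacc (k₀ + i)
          (fun x h7 h8 => (hW i x ⟨h7, h8⟩).2.2.1) hx hd hd1 hxd }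
  have hC₁ : 1 ≤ Ck * (64 * Ck + 32 * n ^ 2 * M) := by
    have h7 : 0 ≤ 32 * (n:ℝ) ^ 2 * M := by positivity
    nlinarith
  obtain ⟨t₀, ht₀, hfin⟩ := dich hX.c_pos hc₀ hC₁ hin hS₀
  refine ⟨t₀, ht₀, fun i t s hi ht hs hst hB => ?_⟩
  obtain ⟨d, S', D⟩ := hfin i t s hi ht hs hst hB
  exact ⟨d, S', D.d_pos, D.d_le, D.S_pos, D.S_le, D.dS, D.rad, D.hgt,
    D.tube.trans_eq (mul_comm _ _), D.err⟩

end

end Vale.Agent.P214.INST
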