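import Vale.Agent.P214.INST.Near
import Vale.Agent.P214.INST.Asm

/-!
# P214, block INST: the field `lim`

`limStmt`: heights and area excess of the active references tend to zero.
-/

open Set Filter Topology MeasureTheory Metric
open scoped RealInnerProductSpace ContDiff

set_option linter.all false

namespace Vale.Agent.P214.INSTL

open WIN WSEQ FM FV ODE INST

variable {E : Type*} [NormedAddCommGroup E] [InnerProductSpace ℝ E] [FiniteDimensional ℝ E]
  [MeasurableSpace E] [BorelSpace E] {m n Q : ℕ} {T : Submodule ℝ E} {w : E → E} {ε κ h₁ : ℝ}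
  {t : ℝ} {ν : Measure E} {P : E → E →L[ℝ] E} {u M B η : ℝ} {k k' K : ℝ → ℝ}

/-- **the area excess is small** -/
lemma Sc.aF_le (S : Sc m T w h₁ t ν u M) (hu : 0 ≤ u) (H : Adm T w ε κ h₁)
    (hk : ODEW.KB k k' K B)
    (hA : |∫ y, K (‖T.starProjection y‖ ^ 2 / t ^ 2) / B ∂ν -
      Q * ∫ x in (T : Set E), K (‖x‖ ^ 2 / t ^ 2) / B * areaEl w x ∂μH[m]| ≤ η * t ^ m) :
    |aF m Q T w 0 K (fmeas T w h₁ ν) t| ≤ 2 * (B * u * M + B * η) * t ^ 2 := by
  have ht := S.pos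
  have hB : 0 < B := by linarith [hk.one]
  have htm : 0 < t ^ m := by positivity
  have h1 := (S.MF_close H hk).resolve_right (not_lt.2 hu)
  have e1 : ∫ x in (T : Set E), K (aX T w 0 x / t ^ 2) * areaEl w x ∂μH[m] =
      B * ∫ x in (T : Set E), K (‖x‖ ^ 2 / t ^ 2) / B * areaEl w x ∂μH[m] := by
    rw [← integral_const_mul]
    refine setIntegral_congr_fun T.closed_of_finiteDimensional.measurableSet fun x hx => ?_
    show K (aX T w 0 x / t ^ 2) * areaEl w x = B * (K (‖x‖ ^ 2 / t ^ 2) / B * areaEl w x)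
    rw [aX_zero, Submodule.starProjection_eq_self_iff.2 hx]
    field_simp
  have e2 : ∫ y, K (‖T.starProjection y‖ ^ 2 / t ^ 2) / B ∂ν =
      (∫ y, K (‖T.starProjection y‖ ^ 2 / t ^ 2) ∂ν) / B := integral_div _ _
  rw [e2] at hA
  unfold aF MF MSf
  rw [e1]
  set a := kI T w 0 (fmeas T w h₁ ν) K (fun _ => 1) t with ha
  set b := ∫ y, K (‖T.starProjection y‖ ^ 2 / t ^ 2) ∂ν with hb
  set c := ∫ x in (T : Set E), K (‖x‖ ^ 2 / t ^ 2) / B * areaEl w x ∂μH[m] with hc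
  have h2 : |b - Q * (B * c)| ≤ B * (η * t ^ m) := by
    have : b - Q * (B * c) = B * (b / B - Q * c) := by field_simp
    rw [this, abs_mul, abs_of_pos hB]
    gcongr
  have h3 : |a - Q * (B * c)| ≤ (B * u * M + B * η) * t ^ m := by
    calc |a - Q * (B * c)| = |(a - b) + (b - Q * (B * c))| := by congr 1; ring
      _ ≤ B * u * (M * t ^ m) + B * (η * t ^ m) := (abs_add_le _ _).trans (add_le_add h1 h2)
      _ = _ := by ring
  have e3 : 2 * t ^ 2 * (t ^ (-(m : ℤ)) * a - Q * (t ^ (-(m : ℤ)) * (B * c))) =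
      2 * t ^ 2 * ((t ^ m)⁻¹ * (a - Q * (B * c))) := by
    rw [zpow_neg, zpow_natCast]; ring
  rw [e3, abs_mul (2 * t ^ 2), abs_mul (t ^ m)⁻¹,
    abs_of_pos (show (0:ℝ) < 2 * t ^ 2 by positivity),
    abs_of_pos (show (0:ℝ) < (t ^ m)⁻¹ by positivity)]
  calc 2 * t ^ 2 * ((t ^ m)⁻¹ * |a - Q * (B * c)|)
      ≤ 2 * t ^ 2 * ((t ^ m)⁻¹ * ((B * u * M + B * η) * t ^ m)) := by gcongr
    _ = _ := by field_simp

lemma kmsRef (hw : FM.Ref T w ε κ) : KMS.Ref T w where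
  smooth := hw.smooth
  base y := (hw.base y).symm
  perp y := (Submodule.starProjection_apply_eq_zero_iff _).1 (hw.perp y)

/-- slope over a ball from the slope at the centre -/
lemma norm_fderiv_le (hw : FM.Ref T w ε κ) (y : E) :
    ‖fderiv ℝ w y‖ ≤ ‖fderiv ℝ w 0‖ + κ * ‖T.starProjection y‖ := by
  have h1 := (convex_univ (𝕜 := ℝ) (E := E)).norm_image_sub_le_of_norm_hasFDerivWithin_le
    (f := fderiv ℝ w) (f' := D2 w) (C := κ)
    (fun z _ => (hw.diff1 z).hasFDerivAt.hasFDerivWithinAt)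
    (fun z _ => hw.norm_D2_le z) (mem_univ 0) (mem_univ (T.starProjection y))
  rw [hw.fderiv_base, sub_zero] at h1
  calc ‖fderiv ℝ w y‖ = ‖fderiv ℝ w 0 + (fderiv ℝ w y - fderiv ℝ w 0)‖ := by congr 1; abel
    _ ≤ _ := (norm_add_le _ _).trans (by gcongr)

/-- the situation at a small scale -/
lemma sc_of_loc {Kp : Set E} {δ : ℝ → ℝ} {τ σ δ' : ℝ} (hL : Loc m Q T ν P Kp δ τ) (hτ0 : 0 ≤ τ)
    (hτ : τ ≤ 1 / 16) (H : Adm T w ε κ h₁) (hh : h₁ ≤ 1 / 16) (h0 : w 0 = 0) (ht : 0 < t)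
    (ht1 : t ≤ 3 / 64)
    (hI : Skel.IntCyl m Q T 0 (2 * t) (σ * (2 * t)) σ ν P) (hσ : σ ≤ 1)
    (hDw : ∀ y, ‖T.starProjection y‖ < 2 * t → ‖fderiv ℝ w y‖ ≤ δ') :
    Sc m T w h₁ t ν (2 * (σ + δ')) ((Q * Skel.om m + 1) * 2 ^ m) where
  fin := hI.cyl.fin
  pos := ht
  near := by
    have h1 : ∀ᵐ y ∂ν, ∀ i : ℕ, 2 ^ i * t ≤ 3 / 8 → ‖T.starProjection y‖ < 2 ^ i * t →
        ‖co T y‖ ≤ τ * (2 ^ i * t) := by
      rw [ae_all_iff]
      intro i
      by_cases hi : 2 ^ i * t ≤ 3 / 8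
      · filter_upwards [(hL.int (2 ^ i * t) (by positivity) hi).cyl.slab] with y hy _ h3
        have := hy (by rwa [mem_ball_zero_iff])
        rwa [← co_apply] at this
      · exact Eventually.of_forall fun y h => absurd h hi
    filter_upwards [h1, hI.cyl.slab] with y hy hs hor
    have hY : Psi T w h₁ (PsiInv T w h₁ y) = y := H.Psi_PsiInv y
    have h2 := near H.ref H.eps_le h0 H.hpos ht (R₀ := 3 / 8) (τ := τ)
      (Y := PsiInv T w h₁ y) (by
        have := H.eps_le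
        have h3 : ε * h₁ ≤ 1 / 16 * (1 / 16) := by
          have : (0:ℝ) ≤ h₁ := H.hpos.le
          gcongr
        linarith) hτ0 hτ (by rw [hY]; exact hy) (by rw [hY]; exact hor)
    have h3 := near_co H.ref h0 (Y := PsiInv T w h₁ y) (h₁ := h₁) (σ := σ) hDw (by
      rw [hY]
      intro h3
      have := hs (by rwa [mem_ball_zero_iff])
      rwa [← co_apply] at this) h2
    rw [hY] at h2
    exact ⟨h2.1, h2.2, h3⟩
  mass := by
    have h1 := (abs_le.1 hI.mass).2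
    have h2 : {y | ‖T.starProjection y‖ < 2 * t} = Skel.cylSet T 0 (2 * t) := by
      ext y
      show _ ↔ T.starProjection y ∈ ball (0:E) (2 * t)
      rw [mem_ball_zero_iff]; rfl
    rw [h2]
    have h3 : (0:ℝ) < (2 * t) ^ m := by positivity
    calc ν.real (Skel.cylSet T 0 (2 * t)) ≤ Q * Skel.om m * (2 * t) ^ m + σ * (2 * t) ^ m := by
          linarith
      _ ≤ Q * Skel.om m * (2 * t) ^ m + 1 * (2 * t) ^ m := by gcongr
      _ = _ := by rw [mul_pow]; ring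

lemma th_pos {h : ℝ} (h0 : 0 < h) (h1 : h < 1) : 0 < th h := by
  have : 0 < Real.log h⁻¹ := Real.log_pos (one_lt_inv_iff₀.2 ⟨h0, h1⟩)
  unfold th
  positivity

section seq

variable {F : Frame m n T} {Kp : Set E} {δ : ℝ → ℝ} {X : Exps} {C C₅ ε' : ℝ}

lemma r_le (S : WSeq m n Q T F ν P Kp δ X C C₅ ε') (hε : ε' < 1) (j : ℕ) : S.r j ≤ 3 / 16 := by
  induction j with
  | zero => rw [S.r_zero]
  | succ j ih =>
    have h1 := (S.nxt j).r_le
    have h2 := th_pos (S.h_pos j) ((S.h_le j).trans_lt hε)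
    have h3 := S.r_pos j
    nlinarith

/-- the radii of the tubes -/
lemma tube_pos (S : WSeq m n Q T F ν P Kp δ X C C₅ ε') (hε : ε' < 1) (j : ℕ) : 0 < tube S j :=
  mul_pos (S.r_pos j) (th_pos (S.h_pos j) ((S.h_le j).trans_lt hε))

lemma tube_le (S : WSeq m n Q T F ν P Kp δ X C C₅ ε') (hε : ε' < 1) (j : ℕ) :
    tube S j ≤ 1 / 640 := by
  have h1 := r_le S hε j
  have h2 := S.th_le j
  have h3 := S.r_pos j
  calc tube S j = S.r j * th (S.h j) := rfl
    _ ≤ S.r j * (1 / 120) := by gcongr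
    _ ≤ 1 / 640 := by linarith

end seq

end Vale.Agent.P214.INSTL

namespace Vale.Agent.P214.INST

open WIN WSEQ FM FV ODE INSTL

/-- **the field `lim`** -/
theorem limStmt (E : Type*) [NormedAddCommGroup E] [InnerProductSpace ℝ E]
    [FiniteDimensional ℝ E] [MeasurableSpace E] [BorelSpace E] (m n Q : ℕ) {k k' K : ℝ → ℝ}
    {B : ℝ} (hk : Ker k k' K B) (hT : TanStmt E m n Q) (hR : RefsStmt E m n Q) :
    LimStmt E m n Q k K := by
  intro X C C₅
  obtain ⟨ε₀, hε₀, H0⟩ := (Ev.and hT (hR eps0 eps0_pos le_rfl)) X C C₅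
  refine ⟨min ε₀ (1 / 16), by positivity, fun T F ν P Kp δ ε τ S hS hε k₀ e κ hf η hη => ?_⟩
  obtain ⟨hTan, hRef⟩ := H0 T F ν P Kp δ ε τ S hS (hε.trans (min_le_left _ _))
  have hτ : τ ≤ 1 / 16 := hS.τ_le.trans (hε.trans (min_le_right _ _))
  have hB : 1 ≤ B := hk.kb.one
  have hom : 0 ≤ Skel.om m := ENNReal.toReal_nonneg
  obtain ⟨M, hM⟩ : ∃ M : ℝ, M = (Q * Skel.om m + 1) * 2 ^ m := ⟨_, rfl⟩
  have hM0 : 0 < M := by rw [hM]; positivity
  obtain ⟨u, hu⟩ : ∃ u : ℝ, u = min 1 (η / (4 * B * M)) := ⟨_, rfl⟩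
  have hu0 : 0 < u := by rw [hu]; positivity
  have hu1 : u ≤ 1 := hu.le.trans (min_le_left _ _)
  have hu2 : 4 * B * M * u ≤ η := by
    have : u ≤ η / (4 * B * M) := hu.le.trans (min_le_right _ _)
    rwa [le_div_iff₀' (by positivity)] at this
  obtain ⟨δ₁, hδ₁, HA⟩ := area_lim E m Q hS.m_pos (η := η / (4 * B)) (by positivity)
  obtain ⟨σ, hσ⟩ : ∃ σ : ℝ, σ = min δ₁ (u / 4) := ⟨_, rfl⟩
  have hσ0 : 0 < σ := by rw [hσ]; positivity
  have hσ1 : σ ≤ δ₁ := hσ.le.trans (min_le_left _ _)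
  have hσ2 : σ ≤ u / 4 := hσ.le.trans (min_le_right _ _)
  obtain ⟨r₀, hr₀, HL⟩ := hS.loc.lim σ hσ0
  refine ⟨min (r₀ / 8) (min (σ / 3) (3 / 64)), by positivity, fun i t hW ht => ?_⟩
  have ht1 : 8 * t ≤ r₀ := by
    have := ht.trans (min_le_left _ _); linarith
  have ht2 : 3 * t ≤ σ := by
    have := ht.trans ((min_le_right _ _).trans (min_le_left _ _)); linarith
  have ht3 : t ≤ 3 / 64 := ht.trans ((min_le_right _ _).trans (min_le_right _ _))
  obtain ⟨j, hj⟩ : ∃ j, j = k₀ + i := ⟨_, rfl⟩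
  have hW1 : Tr S (j + 1) ≤ t := by rw [hj]; exact hW.1
  have hTr : 0 < Tr S (j + 1) := by
    have h2 := S.th_le (j + 1)
    exact mul_pos (S.r_pos _) (by linarith)
  have ht0 : 0 < t := hTr.trans_le hW1
  have hε1 : ε < 1 := (hε.trans (min_le_right _ _)).trans_lt (by norm_num)
  have htb : tube S j ≤ 1 / 16 := (tube_le S hε1 j).trans (by norm_num)
  obtain ⟨H', h0, -⟩ := hRef j
  have H := H' (tube S j) (tube_pos S hε1 j) htb
  have hDw : ∀ y, ‖T.starProjection y‖ < 2 * t → ‖fderiv ℝ (wr S j) y‖ ≤ σ := by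
    intro y hy
    refine (norm_fderiv_le H.ref y).trans ?_
    have := (hTan j).2
    linarith
  obtain ⟨hI8, hE8⟩ := HL (8 * t) (by positivity) ht1
  obtain ⟨hI2, -⟩ := HL (2 * t) (by positivity) (by linarith)
  have hSc := sc_of_loc hS.loc hS.τ_pos.le hτ H htb h0 ht0 ht3 hI2 (by linarith) hDw
  have hu3 : 2 * (σ + σ) ≤ u := by linarith
  rw [← hM] at hSc
  have hB0 : 0 < B := by linarith
  have hMB : 0 < B * M := by positivity
  constructor
  · have h1 := hSc.HF_le H hk.kb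
    show HF m T (wr S (k₀ + i)) 0 k (fmeas T (wr S (k₀ + i)) (tube S (k₀ + i)) ν) t / t ^ 2 ≤ η
    rw [← hj, div_le_iff₀ (by positivity)]
    refine h1.trans ?_
    gcongr
    have h2 : (2 * (σ + σ)) ^ 2 ≤ u := by
      calc (2 * (σ + σ)) ^ 2 ≤ u ^ 2 := by gcongr
        _ ≤ u := by nlinarith
    calc 4 * B * M * (2 * (σ + σ)) ^ 2 ≤ 4 * B * M * u := by gcongr
      _ ≤ η := hu2
  · have hA := HA T (σ * (8 * t)) t ν P { hI8 with mass := hI8.mass.trans (by gcongr) }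
      (hE8.trans (by gcongr)) (wr S j) (kmsRef H.ref) (fun y hy => (hDw y hy).trans hσ1)
      (fun x => K (‖x‖ ^ 2 / t ^ 2) / B)
      (((hk.kb.kern.pK.continuous.comp (by fun_prop)).div_const _).measurable)
      (fun x => by
        have h1 := hk.kb.KB (‖x‖ ^ 2 / t ^ 2) (by positivity)
        have h2 := hk.kb.kern.K_nonneg (‖x‖ ^ 2 / t ^ 2)
        rw [abs_of_nonneg (by positivity), div_le_one hB0]
        exact h1)
      (fun x hx => by rw [kern_zero hk.kb.kern.pK.zero ht0 hx, zero_div])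
    have h1 := hSc.aF_le (by positivity) H hk.kb hA
    show |aF m Q T (wr S (k₀ + i)) 0 K (fmeas T (wr S (k₀ + i)) (tube S (k₀ + i)) ν) t|
      ≤ η * t ^ 2
    rw [← hj]
    refine h1.trans ?_
    gcongr
    have h2 : B * (2 * (σ + σ)) * M ≤ B * u * M := by gcongr
    have h3 : B * (η / (4 * B)) = η / 4 := by field_simp
    rw [h3]
    nlinarith

end Vale.Agent.P214.INST
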