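import Vale.Agent.P214.INST.Props
import Vale.Agent.P214.COORD.Win
import Vale.Agent.P214.ALL.Frame

/-!
# P214, block INST, [REFS]: the references of the windows are admissible
-/

open Set Filter Topology MeasureTheory Metric
open scoped RealInnerProductSpace ContDiff

namespace Vale.Agent.P214.INST

open WIN WSEQ FM

noncomputable section

variable {m n Q : ℕ} {E : Type*} [NormedAddCommGroup E] [InnerProductSpace ℝ E]
  [FiniteDimensional ℝ E]

/-- a reference with small derivatives is a reference in the sense of FM -/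
lemma ref_of_small {T : Submodule ℝ E} (F : Frame m n T) {u : Fin n → REF.E m → ℝ} {ε κ η : ℝ}
    (hu : ∀ a, ContDiff ℝ ∞ (u a))
    (hs : ∀ a, ∀ k ≤ sW m, ∀ x, ‖iteratedFDeriv ℝ k (u a) x‖ ≤ ε)
    (hκ : 0 < κ) (hκ1 : κ ≤ 1) (h1 : n * ε ≤ η) (h2 : n * ε ≤ κ ^ 5) :
    FM.Ref T (F.lift u) η κ := by
  have hsum : ∀ k ≤ sW m, ∀ x, ∑ a, ‖iteratedFDeriv ℝ k (u a) x‖ ≤ n * ε := by
    intro k hk x
    refine (Finset.sum_le_sum fun a _ => hs a k hk x).trans (le_of_eq ?_)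
    simp
  have h6 : 6 ≤ sW m := by unfold sW; omega
  refine COORD.fm_ref_lift F hu hκ.le (fun x => (hsum 1 (by omega) x).trans h1)
    fun k hk hk' x => (hsum k (by omega) x).trans (h2.trans ?_)
  exact pow_le_pow_of_le_one hκ.le hκ1 (by omega)

/-- growth of the differential of a reference -/
lemma Ref.norm_fderiv_le {T : Submodule ℝ E} {w : E → E} {ε κ : ℝ} (hw : FM.Ref T w ε κ) (Y : E) :
    ‖fderiv ℝ w Y‖ ≤ ‖fderiv ℝ w 0‖ + κ * ‖T.starProjection Y‖ := by
  have h1 : ‖fderiv ℝ w (T.starProjection Y) - fderiv ℝ w 0‖ ≤ κ * ‖T.starProjection Y - 0‖ :=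
    convex_univ.norm_image_sub_le_of_norm_fderiv_le (𝕜 := ℝ) (f := fderiv ℝ w)
      (fun x _ => hw.diff1 x) (fun x _ => hw.norm_D2_le x) (mem_univ _) (mem_univ _)
  rw [hw.fderiv_base, sub_zero] at h1
  have h2 := norm_le_norm_add_norm_sub (fderiv ℝ w 0) (fderiv ℝ w Y)
  rw [norm_sub_rev] at h2
  linarith

/-- **[REFS]** -/
theorem refsStmt [MeasurableSpace E] [BorelSpace E] (hT : TanStmt E m n Q) : RefsStmt E m n Q := by
  intro η hη hη0 X C C₅
  obtain ⟨ε₁, hε₁, H1⟩ := hT X C C₅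
  set ε₂ : ℝ := min η (1 / 32) / (n + 1) with hε₂
  have hn : (0:ℝ) ≤ n := Nat.cast_nonneg n
  have hε₂0 : 0 < ε₂ := div_pos (lt_min hη (by norm_num)) (by linarith)
  refine ⟨min ε₁ ε₂, lt_min hε₁ hε₂0, ?_⟩
  intro T F ν P Kp δ ε τ S hctx hε j
  have hεpos := hctx.ε_pos
  have hnε : n * ε ≤ min η (1 / 32) := by
    have h1 : ε ≤ ε₂ := hε.trans (min_le_right _ _)
    calc (n:ℝ) * ε ≤ n * ε₂ := by gcongr
      _ ≤ (n + 1) * ε₂ := by nlinarith
      _ = _ := by rw [hε₂]; field_simp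
  have hr := S.refe (j + 1)
  have hzero : wr S j 0 = 0 := by
    unfold wr Frame.lift
    refine Finset.sum_eq_zero fun a _ => ?_
    rw [F.xc_zero, (S.nxt j).zero a, zero_smul]
  have hRef : ∀ κ : ℝ, 1 / 2 ≤ κ → κ ≤ 1 → FM.Ref T (wr S j) η κ := by
    intro κ h1 h2
    refine ref_of_small F hr.smooth hr.small (by linarith) h2 (hnε.trans (min_le_left _ _))
      (hnε.trans ((min_le_right _ _).trans ?_))
    calc (1:ℝ) / 32 = (1 / 2) ^ 5 := by norm_num
      _ ≤ κ ^ 5 := by gcongr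
  refine ⟨fun h₁ h1 h2 => ⟨hRef 1 (by norm_num) le_rfl, h1, hη0, by linarith⟩, hzero, ?_, ?_⟩
  · exact (COORD.minimalOver_lift_iff F fun a => (hr.smooth a).of_le (WithTop.coe_le_coe.2 le_top)).2
      (S.nxt j).refe.exact
  · intro t ht Y hY
    have h1 := (H1 T F ν P Kp δ ε τ S hctx (hε.trans (min_le_left _ _)) j).2
    have h2 := Ref.norm_fderiv_le (hRef (1 / 2) le_rfl (by norm_num)) Y
    have h3 : ODE.bx T 0 Y = T.starProjection Y := by unfold ODE.bx; rw [sub_zero]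
    rw [h3] at hY ⊢
    linarith [norm_nonneg (T.starProjection Y)]

end

end Vale.Agent.P214.INST
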