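import Vale.Agent.P214.INST.Lim
import Vale.Agent.P214.INST.Tan

/-!
# P214, block INST: the soft fields of the chain
-/

open Set Filter Topology MeasureTheory Metric
open scoped RealInnerProductSpace ContDiff

set_option linter.all false

namespace Vale.Agent.P214.INST

open WIN WSEQ FM ODE FV INSTL

variable {m n Q : ℕ} {E : Type*} [NormedAddCommGroup E] [InnerProductSpace ℝ E]
  [FiniteDimensional ℝ E] [MeasurableSpace E] [BorelSpace E]
variable {T : Submodule ℝ E} {ν : Measure E} {P : E → E →L[ℝ] E} {w : E → E} {ε κ h₁ t : ℝ}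

/-- the situation at a scale `t` with `2 (t + 2 ε h₁) ≤ 3/8` -/
lemma sc_of_loc' {Kp : Set E} {δ : ℝ → ℝ} {τ δ' : ℝ} (hL : Loc m Q T ν P Kp δ τ) (hτ0 : 0 ≤ τ)
    (hτ : τ ≤ 1 / 16) (H : Adm T w ε κ h₁) (h0 : w 0 = 0) (ht : 0 < t)
    (ht1 : 2 * (t + 2 * ε * h₁) ≤ 3 / 8)
    (hDw : ∀ y, ‖T.starProjection y‖ < 2 * t → ‖fderiv ℝ w y‖ ≤ δ') :
    Sc m T w h₁ t ν (2 * (τ + δ')) ((Q * Skel.om m + 1) * 2 ^ m) := by
  have hεh : 0 ≤ ε * h₁ := mul_nonneg H.ref.eps_nonneg H.hpos.le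
  have hI := hL.int (2 * t) (by positivity) (by linarith)
  exact
  { fin := hI.cyl.fin
    pos := ht
    near := by
      have h1 : ∀ᵐ y ∂ν, ∀ i : ℕ, 2 ^ i * t ≤ 3 / 8 → ‖T.starProjection y‖ < 2 ^ i * t →
          ‖co T y‖ ≤ τ * (2 ^ i * t) := by
        rw [ae_all_iff]
        intro i
        by_cases hi : 2 ^ i * t ≤ 3 / 8
        · filter_upwards [(hL.int (2 ^ i * t) (by positivity) hi).cyl.slab] with y hy _ h3
          have := hy (by rwa [mem_ball_zero_iff])
          rwa [← co_apply] at this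
        · exact Eventually.of_forall fun y h => absurd h hi
      filter_upwards [h1, hI.cyl.slab] with y hy hs hor
      have hY : Psi T w h₁ (PsiInv T w h₁ y) = y := H.Psi_PsiInv y
      have h2 := near H.ref H.eps_le h0 H.hpos ht (R₀ := 3 / 8) (τ := τ)
        (Y := PsiInv T w h₁ y) ht1 hτ0 hτ (by rw [hY]; exact hy) (by rw [hY]; exact hor)
      have h3 := near_co H.ref h0 (Y := PsiInv T w h₁ y) (h₁ := h₁) (σ := τ) hDw (by
        rw [hY]
        intro h3
        have := hs (by rwa [mem_ball_zero_iff])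
        rwa [← co_apply] at this) h2
      rw [hY] at h2
      exact ⟨h2.1, h2.2, h3⟩
    mass := by
      have h1 := (abs_le.1 hI.mass).2
      have h2 : {y | ‖T.starProjection y‖ < 2 * t} = Skel.cylSet T 0 (2 * t) := by
        ext y
        show _ ↔ T.starProjection y ∈ ball (0:E) (2 * t)
        rw [mem_ball_zero_iff]; rfl
      rw [h2]
      have h3 : (0:ℝ) < (2 * t) ^ m := by positivity
      calc ν.real (Skel.cylSet T 0 (2 * t)) ≤ Q * Skel.om m * (2 * t) ^ m + τ * (2 * t) ^ m := by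
            linarith
        _ ≤ Q * Skel.om m * (2 * t) ^ m + 1 * (2 * t) ^ m := by gcongr; linarith
        _ = _ := by rw [mul_pow]; ring }

/-- if the measure is carried by the reference in Fermi coordinates near the centre, then the
centre is regular -/
theorem onGraph_of_fermi {Kp : Set E} {δ : ℝ → ℝ} {τ : ℝ} (hL : Loc m Q T ν P Kp δ τ)
    (hτ0 : 0 ≤ τ) (hτ : τ ≤ 1) (H : Adm T w ε κ h₁) (h0 : w 0 = 0) (ht : 0 < t)
    (hν : fmeas T w h₁ ν {Y | aX T w 0 Y < t ^ 2 ∧ co T Y ≠ 0} = 0) :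
    ∃ ρ > 0, ALL.OnGraph T ν ρ w := by
  have hc : Continuous (PsiInv T w h₁) := H.contDiff_PsiInv.continuous
  have hP0 : Psi T w h₁ 0 = 0 := by
    unfold Psi ret
    rw [h0, map_zero]
    simp
  have hPI0 : PsiInv T w h₁ 0 = 0 := by
    have := H.PsiInv_Psi 0
    rwa [hP0] at this
  have hnear : ∀ᶠ y in 𝓝 (0:E), ‖PsiInv T w h₁ y‖ < t := by
    have h1 : ContinuousAt (fun y => ‖PsiInv T w h₁ y‖) 0 := hc.norm.continuousAt
    have h2 : ‖PsiInv T w h₁ 0‖ < t := by rw [hPI0, norm_zero]; exact ht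
    exact h1.eventually_lt_const h2
  obtain ⟨ρ', hρ', hball⟩ := Metric.eventually_nhds_iff.1 hnear
  set ρ : ℝ := min (ρ' / 3) (3 / 8) with hρ
  have hρ0 : 0 < ρ := by positivity
  have hρ1 : ρ ≤ 3 / 8 := min_le_right _ _
  have hρ2 : 3 * ρ ≤ ρ' := by
    have : ρ ≤ ρ' / 3 := min_le_left _ _
    linarith
  refine ⟨ρ, hρ0, ?_, fun y _ => ?_, ?_⟩
  · have h1 : ContDiff ℝ ∞ (fun y => w (T.starProjection y)) :=
      H.ref.smooth.comp T.starProjection.contDiff
    exact h1.contDiffOn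
  · exact H.ref.perp _
  · have h1 : ∀ᵐ Y ∂(fmeas T w h₁ ν), ¬ (aX T w 0 Y < t ^ 2 ∧ co T Y ≠ 0) := by
      rw [ae_iff]
      simpa using hν
    have h2 : ∀ᵐ y ∂ν, ¬ (aX T w 0 (PsiInv T w h₁ y) < t ^ 2 ∧ co T (PsiInv T w h₁ y) ≠ 0) := by
      unfold fmeas at h1
      exact ae_of_ae_map H.aem.aemeasurable h1
    filter_upwards [h2, (hL.int ρ hρ0 hρ1).cyl.slab] with y hy hs hyρ
    have h3 : ‖T.starProjection y‖ < ρ := by rwa [mem_ball_zero_iff] at hyρ
    have h4 := hs hyρ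
    have h5 : ‖y‖ < ρ' := by
      calc ‖y‖ = ‖T.starProjection y + (y - T.starProjection y)‖ := by congr 1; abel
        _ ≤ ‖T.starProjection y‖ + ‖y - T.starProjection y‖ := norm_add_le _ _
        _ < ρ + τ * ρ := add_lt_add_of_lt_of_le h3 h4
        _ ≤ ρ + 1 * ρ := by gcongr
        _ ≤ ρ' := by linarith
    have h6 : ‖PsiInv T w h₁ y‖ < t := hball (by rwa [dist_zero_right])
    set Y := PsiInv T w h₁ y with hY
    have h7 : aX T w 0 Y < t ^ 2 := by
      rw [aX_zero]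
      have := (norm_star_le T Y).trans_lt h6
      gcongr
    have h8 : co T Y = 0 := by
      by_contra h
      exact hy ⟨h7, h⟩
    have h9 : Psi T w h₁ Y = y := H.Psi_PsiInv y
    have h10 : y = Y + w Y := by
      rw [← h9]
      unfold Psi ret
      rw [h8]
      simp
    have h11 : T.starProjection Y = Y := by
      rw [co_apply, sub_eq_zero] at h8
      exact h8.symm
    have h12 : T.starProjection y = Y := by
      rw [h10, map_add, H.ref.perp, add_zero, h11]
    rw [h12]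
    rw [h10]; abel

section chain

variable {F : Frame m n T} {Kp : Set E} {δ : ℝ → ℝ} {X : Exps} {C C₅ : ℝ}

lemma Tr_pos (S : WSeq m n Q T F ν P Kp δ X C C₅ ε) (j : ℕ) : 0 < Tr S j := by
  unfold Tr
  have h1 := S.r_pos j
  have h2 := S.th_le j
  exact mul_pos h1 (by linarith)

lemma Tr_le (S : WSeq m n Q T F ν P Kp δ X C C₅ ε) (hε : ε < 1) (j : ℕ) : Tr S j ≤ S.r j := by
  unfold Tr
  have h1 := S.r_pos j
  have h2 := th_pos (S.h_pos j) ((S.h_le j).trans_lt hε)
  nlinarith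

lemma Tr_succ_lt (S : WSeq m n Q T F ν P Kp δ X C C₅ ε) (hε : ε < 1) (j : ℕ) :
    Tr S (j + 1) < Tr S j := by
  have h1 := S.r_pos j
  have h2 := th_pos (S.h_pos j) ((S.h_le j).trans_lt hε)
  calc Tr S (j + 1) ≤ S.r (j + 1) := Tr_le S hε _
    _ ≤ S.r j * (1 - 12 * th (S.h j)) := (S.nxt j).r_le
    _ < Tr S j := by unfold Tr; nlinarith

lemma Tr_lim (S : WSeq m n Q T F ν P Kp δ X C C₅ ε) (hε : ε < 1) :
    Tendsto (Tr S) atTop (𝓝 0) :=
  squeeze_zero (fun j => (Tr_pos S j).le) (fun j => Tr_le S hε j) S.r_lim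

/-- the base ball of a scale of window `j` -/
lemma ballIn_Gr (S : WSeq m n Q T F ν P Kp δ X C C₅ ε) (j : ℕ) {R : ℝ}
    (hR : R < S.r j * (1 - 9 * th (S.h j))) : BallIn T (Gr S j) 0 R := by
  intro x hx hxR
  show x ∈ ball (0:E) _
  rw [mem_ball_zero_iff]
  rw [map_zero, sub_zero] at hxR
  exact hxR.trans_lt hR

end chain

/-- **[SIMPLE]** -/
theorem softStmt (E : Type*) [NormedAddCommGroup E] [InnerProductSpace ℝ E]
    [FiniteDimensional ℝ E] [MeasurableSpace E] [BorelSpace E] (m n Q : ℕ) {k k' K : ℝ → ℝ}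
    {B : ℝ} (hk : Ker k k' K B) (hR : RefsStmt E m n Q) (hC : CylStmt E m n Q) :
    SoftStmt E m n Q k K := by
  have hB : 1 ≤ B := hk.kb.one
  have hom : 0 ≤ Skel.om m := ENNReal.toReal_nonneg
  have he10 : 0 < Real.exp (-10) := Real.exp_pos _
  set M : ℝ := (Q * Skel.om m + 1) * 2 ^ m with hM
  have hM0 : 0 < M := by positivity
  -- the slope
  obtain ⟨η, hη, hη0, hη1⟩ : ∃ η : ℝ, 0 < η ∧ η ≤ eps0 ∧
      4 * B * M * (4 * η) ^ 2 ≤ Real.exp (-10) := by
    refine ⟨min eps0 (Real.exp (-10) / (64 * B * M)), ?_, min_le_left _ _, ?_⟩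
    · have := eps0_pos
      positivity
    · set η := min eps0 (Real.exp (-10) / (64 * B * M)) with hη
      have h1 : η ≤ Real.exp (-10) / (64 * B * M) := min_le_right _ _
      have h2 : 0 ≤ η := by
        have := eps0_pos
        positivity
      have h3 : η ≤ 1 := (min_le_left _ _).trans (eps0_le.trans (by norm_num))
      calc 4 * B * M * (4 * η) ^ 2 = 64 * B * M * (η * η) := by ring
        _ ≤ 64 * B * M * (η * 1) := by gcongr
        _ ≤ 64 * B * M * (Real.exp (-10) / (64 * B * M) * 1) := by gcongr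
        _ = _ := by field_simp
  intro X C C₅
  obtain ⟨ε₀, hε₀, H0⟩ := (Ev.and (hR η hη hη0) (hC η hη hη0)) X C C₅
  refine ⟨min ε₀ (min η (1 / 16)), by positivity, fun T F ν P Kp δ ε τ S hS hε k₀ e κ hf => ?_⟩
  obtain ⟨hRef, hCyl⟩ := H0 T F ν P Kp δ ε τ S hS (hε.trans (min_le_left _ _))
  have hεη : ε ≤ η := hε.trans ((min_le_right _ _).trans (min_le_left _ _))
  have hε16 : ε ≤ 1 / 16 := hε.trans ((min_le_right _ _).trans (min_le_right _ _))
  have hε1 : ε < 1 := by linarith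
  have hτη : τ ≤ η := hS.τ_le.trans hεη
  have hτ16 : τ ≤ 1 / 16 := hS.τ_le.trans hε16
  have hr1 : ∀ j, S.r j ≤ 3 / 16 := fun j => r_le_one S hε1.le j
  have hth0 : ∀ j, 0 < th (S.h j) := fun j => th_pos (S.h_pos j) ((S.h_le j).trans_lt hε1)
  have htu0 : ∀ j, 0 < tube S j := fun j => mul_pos (S.r_pos j) (hth0 j)
  have htu1 : ∀ j, tube S j ≤ 1 / 16 := fun j => by
    have h1 := S.th_le j
    have h2 := S.r_pos j
    have h3 := hr1 j
    unfold tube
    nlinarith [hth0 j]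
  have hadm : ∀ j, Adm T (wr S j) η 1 (tube S j) := fun j =>
    (hRef j).1 _ (htu0 j) (htu1 j)
  have hcyl : ∀ j, CylF m T (wr S j) (tube S j) (Gr S j) (2 * (S.r j * S.h j ^ (2 / 5 : ℝ)))
      (fmeas T (wr S j) (tube S j) ν) (fP T (wr S j) (tube S j) P) := fun j => (hCyl j).2.1
  refine ⟨fun i => Tr_pos S _, ?_, ?_, ?_, ?_, ?_⟩
  · exact strictAnti_nat_of_succ_lt fun i => Tr_succ_lt S hε1 (k₀ + i)
  · have h1 : Tendsto (fun i => k₀ + i) atTop atTop := by
      simpa [add_comm] using tendsto_add_atTop_nat k₀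
    exact (Tr_lim S hε1).comp h1
  · exact (Tr_le S hε1 _).trans ((hr1 _).trans (by norm_num))
  · intro i t hw
    obtain ⟨hw1, hw2⟩ := hw
    have hw1' : Tr S (k₀ + i + 1) ≤ t := hw1
    have hw2' : t ≤ Tr S (k₀ + i) := hw2
    set j := k₀ + i with hj
    have ht : 0 < t := (Tr_pos S (j + 1)).trans_le hw1'
    have hrj := S.r_pos j
    have hthj := hth0 j
    set R : ℝ := S.r j * (1 - 19 / 2 * th (S.h j)) with hRdef
    have hR9 : R < S.r j * (1 - 9 * th (S.h j)) := by
      rw [hRdef]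
      nlinarith
    have htR : t < R := by
      refine hw2'.trans_lt ?_
      unfold Tr
      rw [hRdef]
      nlinarith
    have hGR : BallIn T (Gr S j) 0 R := ballIn_Gr S j hR9
    have hGt : BallIn T (Gr S j) 0 t := ballIn_Gr S j (htR.trans hR9)
    have h1 := (hcyl j).height_ode (hadm j) hk.kb.kern ht htR hGR
    have h2 := (hcyl j).hasDerivAt_aF (Q := Q) (hadm j) hk.kb.kern ht hGt
    refine ⟨?_, ?_, ?_, ?_⟩
    · exact h1.differentiableAt.hasDerivAt
    · exact h2.differentiableAt.hasDerivAt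
    · refine (hcyl j).HF_pos (hadm j) hk.kb.kern (fun s hs0 hs1 => ?_) ht hGt ?_
      · exact lt_of_lt_of_le (pow_pos (by linarith) 3) (hk.low s hs0 hs1.le)
      · intro h0
        obtain ⟨ρ, hρ, hgr⟩ := onGraph_of_fermi hS.loc hS.τ_pos.le (by linarith) (hadm j)
          (hRef j).2.1 ht h0
        exact hS.irr ρ hρ _ hgr
    · have hsc := sc_of_loc' hS.loc hS.τ_pos.le hτ16 (hadm j) (hRef j).2.1 ht (by
          have h3 := (hadm j).eps_le
          have h4 := htu0 j
          have h5 : η * tube S j ≤ 1 / 16 * tube S j := by gcongr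
          have h6 : t + tube S j ≤ S.r j := by
            unfold tube
            have : Tr S j = S.r j - 10 * (S.r j * th (S.h j)) := by unfold Tr; ring
            have h7 : 0 < S.r j * th (S.h j) := by positivity
            linarith
          have h8 := hr1 j
          linarith) (fun y _ => (hadm j).ref.slope y)
      have h3 := hsc.HF_le (hadm j) hk.kb
      show Hw m T ν k (tube S j) (wr S j) t / t ^ 2 ≤ _
      rw [div_le_iff₀ (by positivity)]
      refine h3.trans ?_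
      have h4 : 2 * (τ + η) ≤ 4 * η := by linarith
      have h5 : 0 ≤ 2 * (τ + η) := by
        have := hS.τ_pos
        positivity
      have hB0 : 0 ≤ B := by linarith
      calc 4 * B * M * (2 * (τ + η)) ^ 2 * t ^ 2 ≤ 4 * B * M * (4 * η) ^ 2 * t ^ 2 := by
            gcongr
        _ ≤ _ := by gcongr
  · intro i x t hx hw hxt
    obtain ⟨hx1, hx2⟩ := hx
    obtain ⟨hw1, hw2⟩ := hw
    have hx1' : Tr S (k₀ + i + 1) ≤ x := hx1
    have hw2' : t ≤ Tr S (k₀ + i) := hw2
    set j := k₀ + i with hj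
    have hx0 : 0 < x := (Tr_pos S (j + 1)).trans_le hx1'
    have hrj := S.r_pos j
    have hthj := hth0 j
    have hGt : BallIn T (Gr S j) 0 t := ballIn_Gr S j (by
      refine hw2'.trans_lt ?_
      unfold Tr
      nlinarith)
    exact (hcyl j).mono_HF (hadm j) hk.kb.kern hk.anti hx0 hxt hGt

end Vale.Agent.P214.INST
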