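import Vale.Agent.P214.INST.Props
import Vale.Agent.P214.CMP.AJump
import Vale.Agent.P214.COORD.Win
import Vale.Agent.P214.S1.Basic

/-!
# P214, block INST: the jump of the area excess at the switch radii
-/

open Set Filter Topology MeasureTheory Metric
open scoped RealInnerProductSpace ContDiff

set_option linter.all false

namespace Vale.Agent.P214.INST

open WIN WSEQ FM FV CMP ODEF ODE

variable {m n Q : ℕ} {E : Type*} [NormedAddCommGroup E] [InnerProductSpace ℝ E]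
  [FiniteDimensional ℝ E] [MeasurableSpace E] [BorelSpace E]
variable {T : Submodule ℝ E} {F : Frame m n T} {ν : Measure E} {P : E → E →L[ℝ] E} {Kp : Set E}
  {δ : ℝ → ℝ} {X : Exps} {C C₅ ε : ℝ}

section core

variable (S : WSeq m n Q T F ν P Kp δ X C C₅ ε) (j : ℕ)

lemma bx_zero_eq (y : E) : bx T 0 y = T.starProjection y := by
  rw [bx_eq, map_zero, sub_zero]

/-- mass against the area of the reference of window `j`, over the next ball -/
lemma mass_wr {ψ : E → ℝ} {M R : ℝ} (hψ : Continuous ψ)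
    (hb : ∀ y, ψ (T.starProjection y) = ψ y) (h0 : ∀ y, R ≤ ‖bx T 0 y‖ → ψ y = 0)
    (hR : R ≤ S.r (j + 1) * (1 - 5 * th (S.h (j + 1)))) (hM : ∀ y, |ψ y| ≤ M) :
    |∫ y, ψ y ∂ν - Q * ∫ x in (T : Set E), ψ x * areaEl (wr S j) x ∂μH[m]| ≤
      S.r (j + 1) ^ m * S.h (j + 1) ^ (1 / 2 - X.e) * M := by
  have hup : Continuous F.up := continuous_subtype_val.comp F.bT.repr.symm.continuous
  have h1 := (S.nxt (j + 1)).mass (fun x => ψ (F.up x)) M (hψ.comp hup) (fun x hx => by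
    refine h0 _ ?_
    rw [bx_zero_eq, KMS.star_up, ← KMS.star_up, ← KMS.norm_xc F, KMS.xc_up]
    exact hR.trans hx) (fun x => hM _)
  have hu : ∀ a, ContDiff ℝ 2 (S.u (j + 1) a) := fun a =>
    ((S.refe (j + 1)).smooth a).of_le KMS.two_le_inf
  have e1 : ∀ y, ψ (F.up (F.xc y)) = ψ y := fun y => by rw [KMS.up_xc, hb]
  simp only [e1] at h1
  rw [COORD.setIntegral_up F]
  have e2 : ∀ x, ψ (F.up x) * areaEl (wr S j) (F.up x) =
      ψ (F.up x) * √(REF.gm (S.u (j + 1)) x).det := fun x => by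
    unfold wr
    rw [COORD.areaEl_lift F hu]
  simp only [e2]
  rw [COORD.hausdorff_eq, integral_smul_nnreal_measure] at h1
  exact h1

lemma hE_wr : hE T (wr S j) ν (S.r (j + 1)) = S.r (j + 1) ^ (m + 2) * S.h (j + 1) := by
  have hr := S.r_pos (j + 1)
  rw [S.h_eq (j + 1)]
  unfold STR.hN wr
  field_simp

lemma th_nn {h : ℝ} (h0 : 0 < h) (h1 : h ≤ 1) : 0 ≤ th h := by
  unfold th
  have : 0 ≤ Real.log h⁻¹ := Real.log_nonneg ((one_le_inv₀ h0).2 h1)
  positivity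

omit [NormedAddCommGroup E] [InnerProductSpace ℝ E] [FiniteDimensional ℝ E]
  [MeasurableSpace E] [BorelSpace E] in
lemma om_nn : 0 ≤ Skel.om m := ENNReal.toReal_nonneg

lemma r_le16 (hε : ε ≤ 1) : ∀ j, S.r j ≤ 3 / 16
  | 0 => S.r_zero.le
  | j + 1 => by
    have h1 := (S.nxt j).r_le
    have h2 := th_nn (S.h_pos j) ((S.h_le j).trans hε)
    have h3 := S.r_pos j
    have h4 := r_le16 hε j
    nlinarith [mul_nonneg h3.le h2]

lemma mass_cyl {τ₀ : ℝ} (hc : Ctx τ₀ S) (hε : ε ≤ 1) {s : ℝ} (hs : 0 < s) (hs1 : s ≤ 3 / 8) :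
    ν.real (Skel.cylSet T 0 s) ≤ (Q * Skel.om m + 1) * s ^ m := by
  have h1 := (abs_le.1 (hc.loc.int s hs hs1).mass).2
  have h2 := hc.τ_le
  have h3 : 0 < s ^ m := by positivity
  nlinarith

lemma int_rel_le {τ₀ : ℝ} (hc : Ctx τ₀ S) (hε : ε ≤ 1) :
    ∫ y in Skel.cylSet T 0 (S.r (j + 1)), ‖co T y - wr S j y‖ ∂ν ≤
      S.r (j + 1) ^ (m + 1) * √((Q * Skel.om m + 1) * S.h (j + 1)) := by
  have hr := S.r_pos (j + 1)
  have hr1 := r_le16 S hε (j + 1)
  have hI := hc.loc.int (3 / 8) (by norm_num) le_rfl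
  have h1 := S1.int_norm_le (F := F) hI.cyl (S.refe (j + 1)).smooth
    (ρ := S.r (j + 1)) (closedBall_subset_ball (by linarith))
    (mass_cyl S hc hε hr (by linarith))
  refine (show _ ≤ _ from h1).trans (le_of_eq ?_)
  have h2 := hE_wr S j
  unfold wr at h2
  rw [h2]
  have e : (Q * Skel.om m + 1) * S.r (j + 1) ^ m * (S.r (j + 1) ^ (m + 2) * S.h (j + 1)) =
      (S.r (j + 1) ^ (m + 1)) ^ 2 * ((Q * Skel.om m + 1) * S.h (j + 1)) := by ring
  rw [e, Real.sqrt_mul (sq_nonneg _), Real.sqrt_sq (by positivity)]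

lemma vert_wr {τ₀ : ℝ} (hc : Ctx τ₀ S) {ρ : ℝ} (hρ : ρ ≤ 3 / 8) :
    ∃ B, ∀ᵐ y ∂ν, ‖bx T 0 y‖ < ρ → ‖co T y - wr S j y‖ ≤ B := by
  have hI := hc.loc.int (3 / 8) (by norm_num) le_rfl
  have hcw : Continuous (wr S j) :=
    (COORD.contDiff_lift F (k := ∞) (S.refe (j + 1)).smooth).continuous
  obtain ⟨B, hB⟩ := (isCompact_closedBall (0:E) (3 / 8)).exists_bound_of_continuousOn
    hcw.continuousOn
  refine ⟨τ₀ * (3 / 8) + B, ?_⟩
  filter_upwards [hI.cyl.slab] with y hy h1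
  rw [bx_zero_eq] at h1
  have h2 : T.starProjection y ∈ ball (0:E) (3 / 8) := by
    rw [mem_ball_zero_iff]; linarith
  have h3 := hy h2
  have h4 := hB _ (ball_subset_closedBall h2)
  have h5 : wr S j (T.starProjection y) = wr S j y :=
    ((COORD.kms_ref_lift F (S.refe (j + 1)).smooth).base y).symm
  rw [h5] at h4
  rw [co_apply]
  exact (norm_sub_le _ _).trans (add_le_add h3 h4)

lemma vert_le {τ₀ : ℝ} (hc : Ctx τ₀ S) (hε : ε ≤ 1) {R : ℝ} (hR : R ≤ S.r (j + 1)) :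
    ∫ y in {y | ‖bx T 0 y‖ < R}, ‖co T y - wr S j y‖ ∂ν ≤
      S.r (j + 1) ^ (m + 1) * √((Q * Skel.om m + 1) * S.h (j + 1)) := by
  have hr1 := r_le16 S hε (j + 1)
  have hI := hc.loc.int (3 / 8) (by norm_num) le_rfl
  have hcw : Continuous (wr S j) :=
    (COORD.contDiff_lift F (k := ∞) (S.refe (j + 1)).smooth).continuous
  refine le_trans ?_ (int_rel_le S j hc hε)
  refine setIntegral_mono_set (S1.integrableOn_cont hI.cyl ((co T).continuous.sub hcw).norm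
    (closedBall_subset_ball (by linarith))) (Eventually.of_forall fun y => norm_nonneg _)
    (HasSubset.Subset.eventuallyLE fun y hy => ?_)
  rw [mem_setOf_eq, bx_zero_eq] at hy
  show T.starProjection y ∈ ball (0:E) (S.r (j + 1))
  rw [mem_ball_zero_iff]
  linarith

variable {η κ t τ h ρ : ℝ} {w' : E → E} {G : Set E}

/-- pointwise facts about the foot points in the region of comparison -/
lemma foot_ae (hS : Sw0 m T (wr S j) w' η κ (tube S j) 0 ρ t τ G h ν P) : ∀ᵐ y ∂ν,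
    PsiInv T (wr S j) (tube S j) y ∈ Reg T (wr S j) 0 t τ →
      ‖co T (PsiInv T (wr S j) (tube S j) y)‖ ≤ h ∧
      ‖co T (PsiInv T (wr S j) (tube S j) y)‖ ≤ 4 / 3 * ‖co T y - wr S j y‖ ∧
      ‖T.starProjection y‖ < t * (1 + 5 * τ) + h := by
  have H := hS.pair
  have hτt : 0 ≤ τ * t := mul_nonneg H.τnn H.tpos.le
  have hrad := hS.rad
  filter_upwards [hS.ae_slab] with y s1 hR
  set Y := PsiInv T (wr S j) (tube S j) y with hY
  have hPsi : Psi T (wr S j) (tube S j) Y = y := H.adm.Psi_PsiInv y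
  have hfoot : ‖T.starProjection y - T.starProjection Y‖ ≤ 1 / 16 * ‖co T Y‖ := by
    have h8 := H.adm.ref.norm_star_Psi_sub_le' (tube S j) Y
    rw [hPsi] at h8
    exact h8.trans (by gcongr; exact H.eps_le)
  have hbx : ‖bx T 0 Y‖ < t * (1 + 5 * τ) := (H.adm.ref.norm_bx_le_XX 0 Y).trans_lt hR
  have hco := s1 (hS.mem_G (by nlinarith))
  refine ⟨hco, ?_, ?_⟩
  · have h1 := norm_PsiInv_sub_le H.adm y (T.starProjection y + wr S j y)
    have e1 : PsiInv T (wr S j) (tube S j) (T.starProjection y + wr S j y) =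
        T.starProjection y := by
      rw [H.psi_star, H.adm.PsiInv_Psi]
    have e2 : y - (T.starProjection y + wr S j y) = co T y - wr S j y := by rw [co_apply]; abel
    rw [e1, e2, ← hY] at h1
    have e3 : co T Y = co T (Y - T.starProjection y) := by
      rw [map_sub, co_star, sub_zero]
    rw [e3]
    exact (norm_co_le T _).trans h1
  · rw [bx_zero_eq] at hbx
    have h1 : ‖T.starProjection y‖ ≤ ‖T.starProjection y - T.starProjection Y‖ +
        ‖T.starProjection Y‖ := by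
      simpa using norm_add_le (T.starProjection y - T.starProjection Y) (T.starProjection Y)
    have h2 := norm_nonneg (co T Y)
    linarith

/-- the integrated heights, when the comparison region stays inside of the next ball -/
lemma hI_le {τ₀ : ℝ} (hc : Ctx τ₀ S) (hε : ε ≤ 1)
    (hS : Sw0 m T (wr S j) w' η κ (tube S j) 0 ρ t τ G h ν P) (hρ : ρ ≤ S.r (j + 1))
    (hin : t * (1 + 5 * τ) + h ≤ S.r (j + 1)) :
    hI T (wr S j) (tube S j) 0 ν t τ ≤
      3 * (S.r (j + 1) ^ (m + 1) * √((Q * Skel.om m + 1) * S.h (j + 1))) := by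
  have hr1 := r_le16 S hε (j + 1)
  have hI := hc.loc.int (3 / 8) (by norm_num) le_rfl
  have hcw : Continuous (wr S j) :=
    (COORD.contDiff_lift F (k := ∞) (S.refe (j + 1)).smooth).continuous
  have hi := S1.integrableOn_cont hI.cyl ((co T).continuous.sub hcw).norm
    (closedBall_subset_ball (show S.r (j + 1) < 3 / 8 by linarith))
  have hms : MeasurableSet (Skel.cylSet T 0 (S.r (j + 1))) :=
    measurableSet_ball.preimage T.starProjection.continuous.measurable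
  have hτt : 0 ≤ τ * t := mul_nonneg hS.pair.τnn hS.pair.tpos.le
  have h1 := vert_le S j hc hε (R := t * (1 + 2 * τ)) (by have := hS.rad; linarith)
  have h2 := int_rel_le S j hc hε
  have h3 : ∫ Y in Reg T (wr S j) 0 t τ, ‖co T Y‖ ∂(fmeas T (wr S j) (tube S j) ν) ≤
      4 / 3 * ∫ y in Skel.cylSet T 0 (S.r (j + 1)), ‖co T y - wr S j y‖ ∂ν := by
    rw [← integral_indicator hS.measurableSet_Reg, hS.integral_eq, ← integral_const_mul,
      ← integral_indicator hms]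
    refine integral_mono_of_nonneg (Eventually.of_forall fun y =>
      indicator_nonneg (fun _ _ => norm_nonneg _) _) ?_ ?_
    · rw [integrable_indicator_iff hms]
      exact hi.const_mul _
    · filter_upwards [foot_ae S j hS] with y hy
      by_cases hR : PsiInv T (wr S j) (tube S j) y ∈ Reg T (wr S j) 0 t τ
      · obtain ⟨-, b, c⟩ := hy hR
        have hm : y ∈ Skel.cylSet T 0 (S.r (j + 1)) := by
          show T.starProjection y ∈ ball (0:E) (S.r (j + 1))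
          rw [mem_ball_zero_iff]
          linarith
        rw [indicator_of_mem hR, indicator_of_mem hm]
        exact b
      · rw [indicator_of_notMem hR]
        exact indicator_nonneg (fun _ _ => by positivity) _
  unfold CMP.hI
  have h4 : 0 ≤ S.r (j + 1) ^ (m + 1) * √((Q * Skel.om m + 1) * S.h (j + 1)) := by
    have := S.r_pos (j + 1)
    positivity
  linarith

/-- the integrated heights, in general -/
lemma hI_le' {τ₀ : ℝ} (hc : Ctx τ₀ S) (hε : ε ≤ 1)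
    (hS : Sw0 m T (wr S j) w' η κ (tube S j) 0 ρ t τ G h ν P) (hρ : ρ ≤ S.r (j + 1))
    (h0 : 0 ≤ h) (h2 : 2 * h ≤ t) :
    hI T (wr S j) (tube S j) 0 ν t τ ≤
      S.r (j + 1) ^ (m + 1) * √((Q * Skel.om m + 1) * S.h (j + 1)) +
        t / 2 * ((Q * Skel.om m + 1) * (2 * t) ^ m) := by
  have hr1 := r_le16 S hε (j + 1)
  have ht := hS.pair.tpos
  have hI := hc.loc.int (3 / 8) (by norm_num) le_rfl
  haveI := hI.cyl.fin
  have hms : MeasurableSet (Skel.cylSet T 0 (2 * t)) :=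
    measurableSet_ball.preimage T.starProjection.continuous.measurable
  have hτt : 0 ≤ τ * t := mul_nonneg hS.pair.τnn hS.pair.tpos.le
  have hrad := hS.rad
  have htr : t ≤ S.r (j + 1) := by nlinarith
  have h1 := vert_le S j hc hε (R := t * (1 + 2 * τ)) (by linarith)
  have h3 : ∫ Y in Reg T (wr S j) 0 t τ, ‖co T Y‖ ∂(fmeas T (wr S j) (tube S j) ν) ≤
      ∫ y in Skel.cylSet T 0 (2 * t), (t / 2) ∂ν := by
    rw [← integral_indicator hS.measurableSet_Reg, hS.integral_eq, ← integral_indicator hms]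
    refine integral_mono_of_nonneg (Eventually.of_forall fun y =>
      indicator_nonneg (fun _ _ => norm_nonneg _) _) ?_ ?_
    · rw [integrable_indicator_iff hms]
      exact integrable_const _
    · filter_upwards [foot_ae S j hS] with y hy
      by_cases hR : PsiInv T (wr S j) (tube S j) y ∈ Reg T (wr S j) 0 t τ
      · obtain ⟨a, b, c⟩ := hy hR
        have hm : y ∈ Skel.cylSet T 0 (2 * t) := by
          show T.starProjection y ∈ ball (0:E) (2 * t)
          rw [mem_ball_zero_iff]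
          have := hS.small
          nlinarith
        rw [indicator_of_mem hR, indicator_of_mem hm]
        linarith
      · rw [indicator_of_notMem hR]
        exact indicator_nonneg (fun _ _ => by positivity) _
  have h4 := mass_cyl S hc hε (s := 2 * t) (by positivity) (by linarith)
  rw [setIntegral_const, smul_eq_mul] at h3
  have h5 : ν.real (Skel.cylSet T 0 (2 * t)) * (t / 2) ≤
      (Q * Skel.om m + 1) * (2 * t) ^ m * (t / 2) := by gcongr
  unfold CMP.hI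
  linarith

end core

/-- the constant of the jump -/
noncomputable def cJ (m n Q : ℕ) : ℝ :=
  4 * (n + 1) * (2 ^ m + 3 * 2 ^ (m + 1) * (Q * Skel.om m + 1) + 4 * (n + 1) * Q)

lemma cJ_nn : 0 ≤ cJ m n Q := by
  unfold cJ
  have : 0 ≤ Skel.om m := ENNReal.toReal_nonneg
  positivity

/-- arithmetic of the two cases -/
lemma jump_arith {h h' τ c e r t N W V : ℝ} (hh : 0 < h) (h1 : h ≤ 1) (hh' : 0 < h')
    (hle : h' ≤ h) (hc : 0 < c) (hc1 : c ≤ 1 / 100) (he : 0 < e) (hec : e ≤ c / 100)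
    (ht : 0 < t) (hr : 0 < r) (hrt : r ≤ 2 * t) (hN : N = Q * Skel.om m + 1)
    (hW : W = r ^ m * h' ^ (1 / 2 - e))
    (hcase : (τ = 4 * (n + 1) * h ^ (1 / 2 + 2 * c) ∧ V ≤ 3 * (r ^ (m + 1) * √(N * h'))) ∨
      (h' < h ^ 4 ∧ τ = 4 * (n + 1) * h' ^ (1 / 2 - e) ∧
        V ≤ r ^ (m + 1) * √(N * h') + t / 2 * (N * (2 * t) ^ m))) :
    τ * ((t ^ m)⁻¹ * W + (t ^ (m + 1))⁻¹ * V + Q * τ) ≤ cJ m n Q * h ^ (1 + 9 / 5 * c) := by
  have hom : 0 ≤ Skel.om m := ENNReal.toReal_nonneg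
  have hN1 : 1 ≤ N := by rw [hN]; have : (0:ℝ) ≤ Q * Skel.om m := by positivity
                         linarith
  have hh1 : h' ≤ 1 := hle.trans h1
  have hpw : h' ^ (1 / 2 - e) ≤ h ^ (1 / 2 - e) :=
    Real.rpow_le_rpow hh'.le hle (by linarith)
  have hpw1 : h' ^ (1 / 2 - e) ≤ 1 := Real.rpow_le_one hh'.le hh1 (by linarith)
  have hsq : √(N * h') ≤ N * h' ^ (1 / 2 - e) := by
    rw [Real.sqrt_mul (by linarith)]
    have a1 : √N ≤ N := by
      rw [Real.sqrt_le_left (by linarith)]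
      nlinarith
    have a2 : √h' ≤ h' ^ (1 / 2 - e) := by
      rw [Real.sqrt_eq_rpow]
      exact Real.rpow_le_rpow_of_exponent_ge hh' hh1 (by linarith)
    gcongr
  have hW1 : (t ^ m)⁻¹ * W ≤ 2 ^ m * h' ^ (1 / 2 - e) := by
    rw [hW]
    have : r ^ m ≤ (2 * t) ^ m := by gcongr
    calc (t ^ m)⁻¹ * (r ^ m * h' ^ (1 / 2 - e)) ≤ (t ^ m)⁻¹ * ((2 * t) ^ m * h' ^ (1 / 2 - e)) := by
          gcongr
      _ = _ := by rw [mul_pow]; field_simp
  have hr1 : (t ^ (m + 1))⁻¹ * r ^ (m + 1) ≤ 2 ^ (m + 1) := by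
    have : r ^ (m + 1) ≤ (2 * t) ^ (m + 1) := by gcongr
    calc (t ^ (m + 1))⁻¹ * r ^ (m + 1) ≤ (t ^ (m + 1))⁻¹ * (2 * t) ^ (m + 1) := by gcongr
      _ = _ := by rw [mul_pow]; field_simp
  have hti : 0 < (t ^ (m + 1))⁻¹ := by positivity
  have hp0 : 0 ≤ h' ^ (1 / 2 - e) := Real.rpow_nonneg hh'.le _
  have hp1 : 0 ≤ h ^ (1 / 2 - e) := Real.rpow_nonneg hh.le _
  have hV0 : (t ^ (m + 1))⁻¹ * (r ^ (m + 1) * √(N * h')) ≤ 2 ^ (m + 1) * (N * h' ^ (1 / 2 - e)) := by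
    calc (t ^ (m + 1))⁻¹ * (r ^ (m + 1) * √(N * h')) =
          ((t ^ (m + 1))⁻¹ * r ^ (m + 1)) * √(N * h') := by ring
      _ ≤ 2 ^ (m + 1) * (N * h' ^ (1 / 2 - e)) := by gcongr
  set D : ℝ := 2 ^ m + 3 * 2 ^ (m + 1) * N + 4 * (n + 1) * Q with hD
  have hD0 : 0 ≤ D := by positivity
  have hcJ : cJ m n Q = 4 * (n + 1) * D := by
    unfold cJ; rw [hD, hN]
  rcases hcase with ⟨hτ, hV⟩ | ⟨h4, hτ, hV⟩
  · have hτ0 : 0 ≤ τ := by rw [hτ]; positivity
    have b1 : (t ^ (m + 1))⁻¹ * V ≤ 3 * (2 ^ (m + 1) * (N * h' ^ (1 / 2 - e))) := by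
      calc _ ≤ (t ^ (m + 1))⁻¹ * (3 * (r ^ (m + 1) * √(N * h'))) := by gcongr
        _ = 3 * ((t ^ (m + 1))⁻¹ * (r ^ (m + 1) * √(N * h'))) := by ring
        _ ≤ _ := by gcongr
    have b2 : τ ≤ 4 * (n + 1) * h ^ (1 / 2 - e) := by
      rw [hτ]
      gcongr 4 * (n + 1) * ?_
      exact Real.rpow_le_rpow_of_exponent_ge hh h1 (by linarith)
    have b3 : (t ^ m)⁻¹ * W + (t ^ (m + 1))⁻¹ * V + Q * τ ≤ D * h ^ (1 / 2 - e) := by
      have c1 : (2:ℝ) ^ m * h' ^ (1 / 2 - e) ≤ 2 ^ m * h ^ (1 / 2 - e) := by gcongr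
      have c2 : 3 * (2 ^ (m + 1) * (N * h' ^ (1 / 2 - e))) ≤
          3 * (2 ^ (m + 1) * (N * h ^ (1 / 2 - e))) := by gcongr
      have c3 : (Q:ℝ) * τ ≤ Q * (4 * (n + 1) * h ^ (1 / 2 - e)) := by gcongr
      calc _ ≤ 2 ^ m * h ^ (1 / 2 - e) + 3 * (2 ^ (m + 1) * (N * h ^ (1 / 2 - e))) +
            Q * (4 * (n + 1) * h ^ (1 / 2 - e)) := by linarith
        _ = _ := by rw [hD]; ring
    calc _ ≤ τ * (D * h ^ (1 / 2 - e)) := by gcongr
      _ = 4 * (n + 1) * D * (h ^ (1 / 2 + 2 * c) * h ^ (1 / 2 - e)) := by rw [hτ]; ring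
      _ = 4 * (n + 1) * D * h ^ ((1 / 2 + 2 * c) + (1 / 2 - e)) := by
          rw [Real.rpow_add hh (1 / 2 + 2 * c) (1 / 2 - e)]
      _ ≤ 4 * (n + 1) * D * h ^ (1 + 9 / 5 * c) := by
        gcongr 4 * (n + 1) * D * ?_
        exact Real.rpow_le_rpow_of_exponent_ge hh h1 (by linarith)
      _ = _ := by rw [hcJ]
  · have hτ0 : 0 ≤ τ := by rw [hτ]; positivity
    have b2 : τ ≤ 4 * (n + 1) * h ^ (1 + 9 / 5 * c) := by
      rw [hτ]
      gcongr 4 * (n + 1) * ?_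
      calc h' ^ (1 / 2 - e) ≤ (h ^ 4) ^ (1 / 2 - e) :=
            Real.rpow_le_rpow hh'.le h4.le (by linarith)
        _ = h ^ (4 * (1 / 2 - e)) := by
            rw [show h ^ 4 = h ^ (4:ℝ) by norm_cast, ← Real.rpow_mul hh.le]
        _ ≤ _ := Real.rpow_le_rpow_of_exponent_ge hh h1 (by linarith)
    have b1 : (t ^ (m + 1))⁻¹ * V ≤ 2 ^ (m + 1) * N + 2 ^ (m + 1) * N := by
      calc _ ≤ (t ^ (m + 1))⁻¹ * (r ^ (m + 1) * √(N * h') + t / 2 * (N * (2 * t) ^ m)) := by gcongr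
        _ = (t ^ (m + 1))⁻¹ * (r ^ (m + 1) * √(N * h')) + 2 ^ m * N / 2 := by
            rw [mul_add]
            congr 1
            rw [mul_pow]
            field_simp
            try ring
        _ ≤ 2 ^ (m + 1) * (N * 1) + 2 ^ (m + 1) * N := by
            have c1 : (2:ℝ) ^ (m + 1) * (N * h' ^ (1 / 2 - e)) ≤ 2 ^ (m + 1) * (N * 1) := by
              gcongr
            have c2 : (2:ℝ) ^ m * N / 2 ≤ 2 ^ (m + 1) * N := by
              have : 0 ≤ (2:ℝ) ^ m * N := by positivity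
              rw [pow_succ]; linarith
            linarith
        _ = _ := by ring
    have b4 : τ ≤ 4 * (n + 1) := by
      rw [hτ]
      calc _ ≤ 4 * ((n:ℝ) + 1) * 1 := by gcongr
        _ = _ := by ring
    have b3 : (t ^ m)⁻¹ * W + (t ^ (m + 1))⁻¹ * V + Q * τ ≤ D := by
      have c1 : (2:ℝ) ^ m * h' ^ (1 / 2 - e) ≤ 2 ^ m * 1 := by gcongr
      have c3 : (Q:ℝ) * τ ≤ Q * (4 * (n + 1)) := by gcongr
      have c4 : 0 ≤ (2:ℝ) ^ (m + 1) * N := by positivity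
      rw [hD]
      linarith
    calc _ ≤ τ * D := by gcongr
      _ ≤ 4 * (n + 1) * h ^ (1 + 9 / 5 * c) * D := by gcongr
      _ = _ := by rw [hcJ]; ring

/-- **[JUMP-A]**, core: the jump of the area excess at the switch radius of window `j + 1`; the
tube is the one of window `j` for both references. -/
theorem jump_core (E : Type*) [NormedAddCommGroup E] [InnerProductSpace ℝ E]
    [FiniteDimensional ℝ E] [MeasurableSpace E] [BorelSpace E] (m n Q : ℕ) {k k' K : ℝ → ℝ}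
    (hk : Kern k k' K) : ∃ C' : ℝ, 0 < C' ∧ ∀ (T : Submodule ℝ E) (F : Frame m n T)
      (ν : Measure E) (P : E → E →L[ℝ] E) (Kp : Set E) (δ : ℝ → ℝ) (X : Exps) (C C₅ ε τ₀ η κ : ℝ)
      (S : WSeq m n Q T F ν P Kp δ X C C₅ ε) (j : ℕ) (τ : ℝ), Ctx τ₀ S → ε ≤ 1 →
      CMP.Sw0 m T (wr S j) (wr S (j + 1)) η κ (tube S j) 0
        (S.r (j + 1) * (1 - 17 / 2 * th (S.h (j + 1)))) (Tr S (j + 1)) τ (Gr S j)
        (6 * (S.r j * S.h j ^ (2 / 5 : ℝ))) ν P →
      MinimalOver T (wr S (j + 1)) (ball 0 (S.r (j + 1) * (1 - 17 / 2 * th (S.h (j + 1))))) →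
      12 * (S.r j * S.h j ^ (2 / 5 : ℝ)) ≤ Tr S (j + 1) →
      12 * (S.r j * S.h j ^ (2 / 5 : ℝ)) + 6 * (τ * Tr S (j + 1)) ≤ tube S j →
      ((τ = 4 * (n + 1) * S.h j ^ (1 / 2 + 2 * X.c) ∧
          Tr S (j + 1) * (1 + 5 * τ) + 6 * (S.r j * S.h j ^ (2 / 5 : ℝ)) ≤ S.r (j + 1)) ∨
        (S.h (j + 1) < S.h j ^ 4 ∧ τ = 4 * (n + 1) * S.h (j + 1) ^ (1 / 2 - X.e))) →
      |aw m Q T ν K (tube S j) (wr S (j + 1)) (Tr S (j + 1)) -
          aw m Q T ν K (tube S j) (wr S j) (Tr S (j + 1))| ≤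
        Tr S (j + 1) ^ 2 * (C' * S.h j ^ (1 + 9 / 5 * X.c)) := by
  obtain ⟨CA, hCA, hA⟩ := aF_sub E m hk
  refine ⟨CA * cJ m n Q + 1, by have := cJ_nn (m := m) (n := n) (Q := Q); positivity, ?_⟩
  intro T F ν P Kp δ X C C₅ ε τ₀ η κ S j τ hc hε hS hmin h12 htube hcase
  have hr := S.r_pos (j + 1)
  have hh := S.h_pos j
  have hh' := S.h_pos (j + 1)
  have hh1 : S.h j ≤ 1 := (S.h_le j).trans hε
  have hh1' : S.h (j + 1) ≤ 1 := (S.h_le (j + 1)).trans hε
  have hsl : 0 ≤ S.r j * S.h j ^ (2 / 5 : ℝ) :=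
    mul_nonneg (S.r_pos j).le (Real.rpow_nonneg hh.le _)
  have hth0 := th_nn hh' hh1'
  have hth1 := S.th_le (j + 1)
  have ht := hS.pair.tpos
  have hτ0 := hS.pair.τnn
  have hrad := hS.rad
  have hok := hc.ok
  have hle : S.h (j + 1) ≤ S.h j := by
    have h1 := (S.nxt j).h_next
    rw [← S.h_eq (j + 1)] at h1
    refine h1.trans ?_
    have := Real.rpow_le_rpow_of_exponent_ge hh hh1 (show 1 ≤ 1 + X.c by linarith [hok.c_pos])
    rwa [Real.rpow_one] at this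
  have hrt : S.r (j + 1) ≤ 2 * Tr S (j + 1) := by
    unfold Tr; nlinarith
  have hρr : S.r (j + 1) * (1 - 17 / 2 * th (S.h (j + 1))) ≤ S.r (j + 1) := by nlinarith
  have hSF : SwF m T (wr S j) (wr S (j + 1)) η κ (tube S j) 0
      (S.r (j + 1) * (1 - 17 / 2 * th (S.h (j + 1)))) (Tr S (j + 1)) τ (Gr S j)
      (6 * (S.r j * S.h j ^ (2 / 5 : ℝ))) ν P :=
    { hS with
      hnn := by positivity
      h2 := by linarith
      h1 := by linarith
      vert := vert_wr S j hc (by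
        have := r_le16 S hε (j + 1)
        have := mul_nonneg ht.le hτ0
        nlinarith) }
  have h1 := hA Q T _ _ _ _ _ _ _ _ _ _ _ ν P
    (S.r (j + 1) ^ m * S.h (j + 1) ^ (1 / 2 - X.e)) hSF
    (fun y hy => hmin y (ball_subset_ball hrad hy)) (fun ψ M hψ hb h0 hM => by
      refine mass_wr S j hψ hb h0 ?_ hM
      have := mul_nonneg ht.le hτ0
      nlinarith [mul_nonneg hr.le hth0]) 
  have h2 : hI T (wr S j) (tube S j) 0 ν (Tr S (j + 1)) τ ≤
      hI T (wr S j) (tube S j) 0 ν (Tr S (j + 1)) τ := le_rfl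
  have h3 := jump_arith (n := n) (Q := Q) (m := m) (h := S.h j) (h' := S.h (j + 1)) (τ := τ)
    (c := X.c) (e := X.e) (r := S.r (j + 1)) (t := Tr S (j + 1))
    (N := Q * Skel.om m + 1) (W := S.r (j + 1) ^ m * S.h (j + 1) ^ (1 / 2 - X.e))
    (V := hI T (wr S j) (tube S j) 0 ν (Tr S (j + 1)) τ) hh hh1 hh' hle hok.c_pos hok.c_le
    hok.e_pos hok.e_le ht hr hrt rfl rfl (by
      rcases hcase with ⟨a, b⟩ | ⟨a, b⟩
      · exact Or.inl ⟨a, hI_le S j hc hε hS hρr b⟩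
      · exact Or.inr ⟨a, b, hI_le' S j hc hε hS hρr (by positivity) (by linarith)⟩)
  unfold aw
  refine h1.trans ?_
  have h4 : 0 ≤ S.h j ^ (1 + 9 / 5 * X.c) := Real.rpow_nonneg hh.le _
  have h5 : 0 ≤ Tr S (j + 1) ^ 2 := sq_nonneg _
  calc _ = Tr S (j + 1) ^ 2 * (CA * (τ * ((Tr S (j + 1) ^ m)⁻¹ *
        (S.r (j + 1) ^ m * S.h (j + 1) ^ (1 / 2 - X.e)) +
        (Tr S (j + 1) ^ (m + 1))⁻¹ * hI T (wr S j) (tube S j) 0 ν (Tr S (j + 1)) τ +
          Q * τ))) := by ring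
    _ ≤ Tr S (j + 1) ^ 2 * (CA * (cJ m n Q * S.h j ^ (1 + 9 / 5 * X.c))) := by gcongr
    _ ≤ Tr S (j + 1) ^ 2 * ((CA * cJ m n Q + 1) * S.h j ^ (1 + 9 / 5 * X.c)) := by
      gcongr ?_ * ?_
      linarith

end Vale.Agent.P214.INST
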