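import Vale.Agent.P214.ABS.Defs
import Mathlib.Topology.Order.IntermediateValue
import Mathlib.Analysis.SpecialFunctions.Exp
import Mathlib.Tactic

/-!
# P214, block INST (helper617): the fields `switch`, `e_pos`, `growth`, `e_le` of `ABS.Chain.Good`

Pure real analysis.  Inputs (`SwIn`): window radii `r`, window heights `h`, collars
`θ = (log 1/h)⁻⁷`, comparison of the kernel heights with the window heights, and the size of the
jumps.
-/

open Set Filter Topology

namespace Vale.Agent.P214.INST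

open ABS

noncomputable section

/-- numerical inputs for the switches -/
structure SwIn (X : Chain) (r h θ : ℕ → ℝ) (a₀ c C : ℝ) (p : ℕ) : Prop where
  r_pos : ∀ k, 0 < r k
  h_pos : ∀ k, 0 < h k
  θ_eq : ∀ k, θ k = ((Real.log (h k)⁻¹)⁻¹) ^ 7
  T_eq : ∀ k, X.T k = r k * (1 - 10 * θ k)
  Xc : X.c = c / 2
  h_next : ∀ k, h (k + 1) ≤ h k ^ (1 + c)
  r_next : ∀ k, r (k + 1) ≤ r k * (1 - 12 * θ k)
  cont : ∀ k, ContinuousOn (X.h k) (Icc (X.T (k + 1)) (X.T k))
  h_lt : ∀ k t, X.Win k t → X.h k t < 1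
  /-- the window height `h (k+1)` is visible for the kernel height of window `k` -/
  vis : ∀ k, a₀ * θ (k + 1) ^ p * h (k + 1) ≤ X.h k (r (k + 1) * (1 + θ (k + 1)))
  /-- the stopping height is visible if the window is not minimal -/
  vis2 : ∀ k, r (k + 1) < r k * (1 - 12 * θ k) →
    a₀ * θ k ^ p * h k ^ (1 + c) ≤ X.h k (r (k + 1) * (1 + θ k))
  up : ∀ k, X.h k (X.T (k + 1)) ≤ C * h (k + 1)
  jump_H : ∀ k, |X.H (k + 1) (X.T (k + 1)) - X.H k (X.T (k + 1))|
    ≤ X.T (k + 1) ^ 2 * (C * h k ^ (1 + 9 / 5 * c))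
  jump_a : ∀ k, |X.a (k + 1) (X.T (k + 1)) - X.a k (X.T (k + 1))|
    ≤ X.T (k + 1) ^ 2 * (C * h k ^ (1 + 9 / 5 * c))
  first : r 1 < r 0 * (1 - 12 * θ 0)
  e_zero : X.e 0 = h 0
  e_succ : ∀ k, X.e (k + 1) = max (X.h k (X.T (k + 1))) (a₀ * θ (k + 1) ^ p * h (k + 1))

/-- powers of the logarithm are negligible against powers -/
theorem log_pow_small (N : ℕ) {b a : ℝ} (hb : 0 < b) (ha : 0 < a) :
    ∃ ε : ℝ, 0 < ε ∧ ε < 1 ∧ ∀ h : ℝ, 0 < h → h ≤ ε →
      h ^ b ≤ a * ((Real.log h⁻¹)⁻¹) ^ N := by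
  have h1 : Tendsto (fun x : ℝ => x ^ N * Real.exp (-x)) atTop (𝓝 0) :=
    Real.tendsto_pow_mul_exp_neg_atTop_nhds_zero N
  have h2 : Tendsto (fun x : ℝ => b * x) atTop atTop :=
    tendsto_id.const_mul_atTop hb
  have h3 := (h1.comp h2).eventually_lt_const (show (0:ℝ) < a * b ^ N by positivity)
  obtain ⟨Λ, hΛ⟩ := eventually_atTop.1 h3
  refine ⟨Real.exp (-(max Λ 1)), Real.exp_pos _, ?_, ?_⟩
  · rw [Real.exp_lt_one_iff]
    have := le_max_right Λ 1
    linarith
  intro h hh hle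
  have hL : max Λ 1 ≤ Real.log h⁻¹ := by
    rw [Real.log_inv, le_neg, Real.log_le_iff_le_exp hh]
    exact hle
  have hL1 : 1 ≤ Real.log h⁻¹ := (le_max_right _ _).trans hL
  have h4 := hΛ (Real.log h⁻¹) ((le_max_left _ _).trans hL)
  simp only [Function.comp] at h4
  have h5 : h ^ b = Real.exp (-(b * Real.log h⁻¹)) := by
    rw [Real.rpow_def_of_pos hh, Real.log_inv]
    ring_nf
  rw [h5]
  set L := Real.log h⁻¹
  have hLpos : 0 < L := by linarith
  rw [mul_pow] at h4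
  have h6 : 0 < b ^ N := pow_pos hb N
  have h7 : 0 < L ^ N := pow_pos hLpos N
  rw [inv_pow]
  rw [← div_eq_mul_inv, le_div_iff₀ h7]
  have h8 : b ^ N * (L ^ N * Real.exp (-(b * L))) < b ^ N * a := by
    calc _ = b ^ N * L ^ N * Real.exp (-(b * L)) := by ring
      _ < a * b ^ N := h4
      _ = _ := by ring
  have h9 := lt_of_mul_lt_mul_left h8 h6.le
  linarith

/-- the smallness conditions, from one inequality -/
theorem small_of {h q c C : ℝ} (hh : 0 < h) (hh1 : h < 1) (hq0 : 0 < q) (hq1 : q ≤ 1) (hc : 0 < c)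
    (hc1 : c ≤ 2 / 5) (hC : 1 ≤ C)
    (H : h ^ (c / 10) ≤ Real.exp (-40) / (4 * C) * q ^ 2) :
    h ^ (1 - c) ≤ q ∧ Real.exp 10 * (C * h ^ (1 + c)) ≤ q * h / 4 ∧
      C * h ^ (1 + c) ≤ (q * h) ^ (1 + c / 2) ∧
      C * h ^ (1 + 9 / 5 * c) ≤ (Real.exp (-20) * (q * h ^ (1 + c))) ^ (1 + c / 2) ∧
      Real.exp 10 * (C * h ^ (1 + 9 / 5 * c)) ≤ q * h ^ (1 + c) / 4 := by
  have hC0 : 0 < C := by linarith
  have hq2 : q ^ 2 ≤ q := by nlinarith
  have e40 : Real.exp (-40) ≤ 1 := Real.exp_le_one_iff.2 (by norm_num)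
  have e30 : Real.exp 10 * Real.exp (-40) ≤ 1 := by
    rw [← Real.exp_add]; exact Real.exp_le_one_iff.2 (by norm_num)
  have e0 : 0 < Real.exp (-40) := Real.exp_pos _
  have e10 : 0 < Real.exp 10 := Real.exp_pos _
  -- all powers with exponent at least `c/10`
  have key : ∀ b, c / 10 ≤ b → 4 * C * h ^ b ≤ Real.exp (-40) * q ^ 2 := by
    intro b hb
    have h1 : h ^ b ≤ h ^ (c / 10) := Real.rpow_le_rpow_of_exponent_ge hh hh1.le hb
    have h2 := h1.trans H
    have h3 : Real.exp (-40) / (4 * C) * q ^ 2 = Real.exp (-40) * q ^ 2 / (4 * C) := by ring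
    rw [h3, le_div_iff₀ (by positivity)] at h2
    linarith
  have hpw : ∀ b : ℝ, 0 < h ^ b := fun b => Real.rpow_pos_of_pos hh b
  refine ⟨?_, ?_, ?_, ?_, ?_⟩
  · have h1 := key (1 - c) (by linarith)
    have h2 : h ^ (1 - c) ≤ 4 * C * h ^ (1 - c) := by
      nlinarith [hpw (1 - c)]
    nlinarith
  · have h1 := key c (by linarith)
    have h2 : h ^ (1 + c) = h * h ^ c := by rw [Real.rpow_add hh, Real.rpow_one]
    rw [h2]
    have h3 : Real.exp 10 * (4 * C * h ^ c) ≤ Real.exp 10 * (Real.exp (-40) * q ^ 2) :=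
      mul_le_mul_of_nonneg_left h1 e10.le
    have h4 : Real.exp 10 * (Real.exp (-40) * q ^ 2) ≤ q := by
      rw [← mul_assoc]
      nlinarith [sq_nonneg q, Real.exp_pos 10, Real.exp_pos (-40)]
    have h5 := mul_le_mul_of_nonneg_left (h3.trans h4) hh.le
    nlinarith
  · have h1 := key (c / 2) (by linarith)
    rw [Real.mul_rpow hq0.le hh.le]
    have h2 : q ^ 2 ≤ q ^ (1 + c / 2) := by
      rw [← Real.rpow_natCast q 2]
      exact Real.rpow_le_rpow_of_exponent_ge hq0 hq1 (by push_cast; linarith)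
    have h3 : h ^ (1 + c) = h ^ (c / 2) * h ^ (1 + c / 2) := by
      rw [← Real.rpow_add hh]; ring_nf
    have h4 : C * h ^ (c / 2) ≤ q ^ 2 := by
      nlinarith [hpw (c / 2), sq_nonneg q]
    calc C * h ^ (1 + c) = C * h ^ (c / 2) * h ^ (1 + c / 2) := by rw [h3]; ring
      _ ≤ q ^ (1 + c / 2) * h ^ (1 + c / 2) :=
        mul_le_mul_of_nonneg_right (h4.trans h2) (hpw _).le
  · have h1 := key (1 / 10 * c) (by linarith)
    have hx : 0 < Real.exp (-20) * q := mul_pos (Real.exp_pos _) hq0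
    rw [← mul_assoc, Real.mul_rpow hx.le (hpw _).le]
    have hx1 : Real.exp (-20) * q ≤ 1 := by
      have : Real.exp (-20) ≤ 1 := Real.exp_le_one_iff.2 (by norm_num)
      nlinarith [Real.exp_pos (-20)]
    have h2 : (Real.exp (-20) * q) ^ 2 ≤ (Real.exp (-20) * q) ^ (1 + c / 2) := by
      rw [← Real.rpow_natCast _ 2]
      exact Real.rpow_le_rpow_of_exponent_ge hx hx1 (by push_cast; linarith)
    have h2' : (Real.exp (-20) * q) ^ 2 = Real.exp (-40) * q ^ 2 := by
      rw [mul_pow, ← Real.exp_nat_mul]; norm_num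
    have h3 : h ^ (17 / 10 * c + 1) ≤ (h ^ (1 + c)) ^ (1 + c / 2) := by
      rw [← Real.rpow_mul hh.le]
      exact Real.rpow_le_rpow_of_exponent_ge hh hh1.le (by nlinarith)
    have h4 : h ^ (1 + 9 / 5 * c) = h ^ (1 / 10 * c) * h ^ (17 / 10 * c + 1) := by
      rw [← Real.rpow_add hh]; ring_nf
    have h5 : C * h ^ (1 / 10 * c) ≤ Real.exp (-40) * q ^ 2 := by
      nlinarith [hpw (1 / 10 * c)]
    calc C * h ^ (1 + 9 / 5 * c) = C * h ^ (1 / 10 * c) * h ^ (17 / 10 * c + 1) := by rw [h4]; ring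
      _ ≤ (Real.exp (-40) * q ^ 2) * h ^ (17 / 10 * c + 1) :=
        mul_le_mul_of_nonneg_right h5 (hpw _).le
      _ ≤ (Real.exp (-20) * q) ^ (1 + c / 2) * (h ^ (1 + c)) ^ (1 + c / 2) := by
        rw [← h2']
        exact mul_le_mul h2 h3 (hpw _).le (Real.rpow_nonneg hx.le _)
  · have h1 := key (4 / 5 * c) (by linarith)
    have h2 : h ^ (1 + 9 / 5 * c) = h ^ (1 + c) * h ^ (4 / 5 * c) := by
      rw [← Real.rpow_add hh]; ring_nf
    rw [h2]
    have h3 : Real.exp 10 * (4 * C * h ^ (4 / 5 * c)) ≤ Real.exp 10 * (Real.exp (-40) * q ^ 2) :=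
      mul_le_mul_of_nonneg_left h1 e10.le
    have h4 : Real.exp 10 * (Real.exp (-40) * q ^ 2) ≤ q := by
      rw [← mul_assoc]
      nlinarith [sq_nonneg q, Real.exp_pos 10, Real.exp_pos (-40)]
    have h5 := mul_le_mul_of_nonneg_left (h3.trans h4) (hpw (1 + c)).le
    nlinarith

/-- the collar `(log 1/g)⁻⁶` contains `24 θ` as soon as `h² ≤ g < 1` -/
theorem collar {g h : ℝ} (hh : 0 < h) (hg : h ^ 2 ≤ g) (hg1 : g < 1)
    (hΛ : 1536 ≤ Real.log h⁻¹) :
    24 * ((Real.log h⁻¹)⁻¹) ^ 7 ≤ ((Real.log g⁻¹)⁻¹) ^ 6 := by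
  have hg0 : 0 < g := lt_of_lt_of_le (by positivity) hg
  have hL0 : 0 < Real.log g⁻¹ := Real.log_pos ((one_lt_inv₀ hg0).2 hg1)
  have hL : Real.log g⁻¹ ≤ 2 * Real.log h⁻¹ := by
    have h1 : Real.log (h ^ 2) ≤ Real.log g := Real.log_le_log (by positivity) hg
    rw [Real.log_pow] at h1
    rw [Real.log_inv, Real.log_inv]
    push_cast at h1
    linarith
  set Λ := Real.log h⁻¹
  set L := Real.log g⁻¹
  have hΛ0 : 0 < Λ := by linarith
  have h1 : (2 * Λ)⁻¹ ≤ L⁻¹ := inv_anti₀ hL0 hL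
  have h2 : ((2 * Λ)⁻¹) ^ 6 ≤ (L⁻¹) ^ 6 := pow_le_pow_left₀ (by positivity) h1 6
  refine le_trans ?_ h2
  have h3 : ((2 * Λ)⁻¹) ^ 6 = Λ * (Λ⁻¹) ^ 7 / 64 := by
    field_simp
    norm_num
  rw [h3]
  have h4 : 0 < (Λ⁻¹) ^ 7 := by positivity
  nlinarith

/-- **the fields of `Good` concerning the switches** -/
theorem switch_of (p : ℕ) {c C a₀ : ℝ} (hc : 0 < c) (hc1 : c ≤ 2 / 5) (hC : 1 ≤ C) (ha : 0 < a₀)
    (ha1 : a₀ ≤ 1) :
    ∃ ε : ℝ, 0 < ε ∧ ∀ (X : Chain) (r h θ : ℕ → ℝ), SwIn X r h θ a₀ c C p → (∀ k, h k ≤ ε) →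
      (∀ k, 0 < X.e k) ∧ (∀ k, X.e (k + 1) ≤ X.e k ^ (1 + X.c)) ∧
      (∀ k t S, X.T (k + 1) ≤ t → X.Bdd t S → X.e (k + 1) ≤ S) ∧
      (∀ k, X.Jump k (X.h k (X.T (k + 1))) ∧ X.h k (X.T (k + 1)) ≤ X.e k ∨
        ∃ l y, X.Near k l y ∧ X.Jump k (X.h l y) ∧ X.h l y ≤ X.e k ∧
          Real.exp 10 * X.h k (X.T (k + 1)) ≤ X.h l y ∧
          Real.exp 10 * X.h (k + 1) (X.T (k + 1)) ≤ X.h l y) := by
  have hC0 : 0 < C := by linarith
  obtain ⟨ε₁, hε₁, -, H₁⟩ := log_pow_small (7 * p * 2) (b := c / 10)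
    (a := Real.exp (-40) / (4 * C) * a₀ ^ 2) (by linarith) (by positivity)
  refine ⟨min ε₁ (Real.exp (-1536)), lt_min hε₁ (Real.exp_pos _), ?_⟩
  intro X r h θ D hε
  -- basic facts
  have hh0 := D.h_pos
  have hΛ : ∀ k, 1536 ≤ Real.log (h k)⁻¹ := by
    intro k
    rw [Real.log_inv, le_neg, Real.log_le_iff_le_exp (hh0 k)]
    exact (hε k).trans (min_le_right _ _)
  have hh1 : ∀ k, h k < 1 := by
    intro k
    refine ((hε k).trans (min_le_right _ _)).trans_lt ?_
    exact Real.exp_lt_one_iff.2 (by norm_num)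
  have hθ0 : ∀ k, 0 < θ k := by
    intro k
    rw [D.θ_eq]
    have := hΛ k
    have : 0 < Real.log (h k)⁻¹ := by linarith
    positivity
  have hθs : ∀ k, θ k ≤ 1 / 1536 := by
    intro k
    rw [D.θ_eq]
    have h1 : (Real.log (h k)⁻¹)⁻¹ ≤ 1 / 1536 := by
      rw [one_div]
      exact inv_anti₀ (by norm_num) (hΛ k)
    have h0 : 0 ≤ (Real.log (h k)⁻¹)⁻¹ := by
      have := hΛ k
      have : 0 < Real.log (h k)⁻¹ := by linarith
      positivity
    calc ((Real.log (h k)⁻¹)⁻¹) ^ 7 ≤ ((Real.log (h k)⁻¹)⁻¹) ^ 1 :=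
          pow_le_pow_of_le_one h0 (h1.trans (by norm_num)) (by norm_num)
      _ ≤ 1 / 1536 := by rw [pow_one]; exact h1
  set q : ℕ → ℝ := fun k => a₀ * θ k ^ p with hq
  have hq0 : ∀ k, 0 < q k := fun k => mul_pos ha (pow_pos (hθ0 k) p)
  have hθ1 : ∀ k, θ k ^ p ≤ 1 := fun k => pow_le_one₀ (hθ0 k).le ((hθs k).trans (by norm_num))
  have hq1 : ∀ k, q k ≤ 1 := by
    intro k
    calc a₀ * θ k ^ p ≤ 1 * 1 := mul_le_mul ha1 (hθ1 k) (pow_nonneg (hθ0 k).le _) (by norm_num)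
      _ = 1 := by norm_num
  have S : ∀ k, h k ^ (1 - c) ≤ q k ∧ Real.exp 10 * (C * h k ^ (1 + c)) ≤ q k * h k / 4 ∧
      C * h k ^ (1 + c) ≤ (q k * h k) ^ (1 + c / 2) ∧
      C * h k ^ (1 + 9 / 5 * c) ≤ (Real.exp (-20) * (q k * h k ^ (1 + c))) ^ (1 + c / 2) ∧
      Real.exp 10 * (C * h k ^ (1 + 9 / 5 * c)) ≤ q k * h k ^ (1 + c) / 4 := by
    intro k
    refine small_of (hh0 k) (hh1 k) (hq0 k) (hq1 k) hc hc1 hC ?_
    have h1 := H₁ (h k) (hh0 k) ((hε k).trans (min_le_left _ _))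
    refine h1.trans (le_of_eq ?_)
    simp only [hq]
    rw [D.θ_eq k, mul_pow, ← pow_mul, ← pow_mul]
    ring
  have hpw : ∀ k (b : ℝ), 0 < h k ^ b := fun k b => Real.rpow_pos_of_pos (hh0 k) b
  have hle1 : ∀ k (b : ℝ), 1 ≤ b → h k ^ b ≤ h k := by
    intro k b hb
    calc h k ^ b ≤ h k ^ (1:ℝ) := Real.rpow_le_rpow_of_exponent_ge (hh0 k) (hh1 k).le hb
      _ = h k := Real.rpow_one _
  have hmono : ∀ k, h (k + 1) ≤ h k := fun k =>
    (D.h_next k).trans (hle1 k _ (by linarith))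
  have hθm : ∀ k, θ (k + 1) ≤ θ k := by
    intro k
    rw [D.θ_eq, D.θ_eq]
    have h1 : Real.log (h k)⁻¹ ≤ Real.log (h (k + 1))⁻¹ := by
      rw [Real.log_inv, Real.log_inv, neg_le_neg_iff]
      exact Real.log_le_log (hh0 _) (hmono k)
    have h0 : 0 < Real.log (h k)⁻¹ := by linarith [hΛ k]
    exact pow_le_pow_left₀ (inv_nonneg.2 (h0.le.trans h1)) (inv_anti₀ h0 h1) 7
  -- `h² ≤ q h^(1+c) ≤ q h`
  have hqh2 : ∀ k, h k ^ 2 ≤ q k * h k ^ (1 + c) := by
    intro k
    calc h k ^ 2 = h k ^ (1 - c) * h k ^ (1 + c) := by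
          rw [← Real.rpow_add (hh0 k), ← Real.rpow_natCast]; norm_num
      _ ≤ q k * h k ^ (1 + c) := mul_le_mul_of_nonneg_right (S k).1 (hpw k _).le
  have hqh1 : ∀ k, q k * h k ^ (1 + c) ≤ q k * h k := fun k =>
    mul_le_mul_of_nonneg_left (hle1 k _ (by linarith)) (hq0 k).le
  have hqh : ∀ k, q k * h k ≤ 1 * h k := fun k =>
    mul_le_mul_of_nonneg_right (hq1 k) (hh0 k).le
  -- the radii
  have hT0 : ∀ k, 0 < X.T k := by
    intro k
    rw [D.T_eq]
    exact mul_pos (D.r_pos k) (by linarith [hθs k])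
  have hTT : ∀ k, X.T (k + 1) ≤ X.T k := by
    intro k
    rw [D.T_eq, D.T_eq]
    have h1 := D.r_next k
    have h2 := D.r_pos k
    have h3 := D.r_pos (k + 1)
    have h4 := hθ0 (k + 1)
    have h5 := hθ0 k
    nlinarith
  -- upper ends of the collars lie in the windows
  have hyW : ∀ k s, s ≤ θ k → r (k + 1) * (1 + s) ≤ X.T k := by
    intro k s hs
    rw [D.T_eq]
    have h1 := D.r_next k
    have h2 := D.r_pos k
    have h3 := D.r_pos (k + 1)
    have h5 := hθ0 k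
    calc r (k + 1) * (1 + s) ≤ r (k + 1) * (1 + θ k) :=
          mul_le_mul_of_nonneg_left (by linarith) h3.le
      _ ≤ r k * (1 - 12 * θ k) * (1 + θ k) := mul_le_mul_of_nonneg_right h1 (by linarith)
      _ = r k * ((1 - 12 * θ k) * (1 + θ k)) := by ring
      _ ≤ r k * (1 - 10 * θ k) := mul_le_mul_of_nonneg_left (by nlinarith) h2.le
  have hTy : ∀ k s, 0 ≤ s → X.T (k + 1) ≤ r (k + 1) * (1 + s) := by
    intro k s hs
    rw [D.T_eq]
    exact mul_le_mul_of_nonneg_left (by linarith [hθ0 (k + 1)]) (D.r_pos _).le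
  -- collar estimate above `T (k+1)` for `r (k+1) (1 + θ j)`, `θ (k+1) ≤ θ j`
  have hcol : ∀ k j, θ (k + 1) ≤ θ j → r (k + 1) * (1 + θ j) ≤ X.T (k + 1) * (1 + 24 * θ j) := by
    intro k j hkj
    rw [D.T_eq, mul_assoc]
    refine mul_le_mul_of_nonneg_left ?_ (D.r_pos _).le
    have h1 := hθs j
    have h2 := hθ0 (k + 1)
    have h3 := hθ0 j
    nlinarith
  have he : ∀ k, q k * h k ≤ X.e k := by
    intro k
    cases k with
    | zero => rw [D.e_zero]; linarith [hqh 0]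
    | succ k => rw [D.e_succ]; exact le_max_right _ _
  have he' : ∀ k, X.e (k + 1) ≤ C * h k ^ (1 + c) := by
    intro k
    rw [D.e_succ]
    have h1 : C * h (k + 1) ≤ C * h k ^ (1 + c) := mul_le_mul_of_nonneg_left (D.h_next k) hC0.le
    refine max_le ((D.up k).trans h1) (le_trans ?_ h1)
    calc q (k + 1) * h (k + 1) ≤ 1 * h (k + 1) := hqh _
      _ ≤ C * h (k + 1) := mul_le_mul_of_nonneg_right hC (hh0 _).le
  have hqhp : ∀ k, 0 < q k * h k := fun k => mul_pos (hq0 k) (hh0 k)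
  -- the jump at level `g`
  have hjump : ∀ k g, Real.exp (-20) * (q k * h k ^ (1 + c)) ≤ g → X.Jump k g := by
    intro k g hg
    have hp : 0 < Real.exp (-20) * (q k * h k ^ (1 + c)) :=
      mul_pos (Real.exp_pos _) (mul_pos (hq0 k) (hpw k _))
    have h1 : C * h k ^ (1 + 9 / 5 * c) ≤ g ^ (1 + X.c) := by
      rw [D.Xc]
      exact (S k).2.2.2.1.trans (Real.rpow_le_rpow hp.le hg (by linarith))
    have h2 := mul_le_mul_of_nonneg_left h1 (sq_nonneg (X.T (k + 1)))
    exact ⟨(D.jump_H k).trans h2, (D.jump_a k).trans h2⟩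
  have h20 : Real.exp (-20) ≤ 1 := Real.exp_le_one_iff.2 (by norm_num)
  have h20' : 0 < Real.exp (-20) := Real.exp_pos _
  -- height of the new reference at the switch
  have hnew : ∀ k, X.h (k + 1) (X.T (k + 1)) ≤ X.h k (X.T (k + 1)) + C * h k ^ (1 + 9 / 5 * c) := by
    intro k
    have h1 := (abs_le.1 (D.jump_H k)).2
    have h2 : 0 < X.T (k + 1) ^ 2 := pow_pos (hT0 _) 2
    unfold Chain.h
    rw [div_add' _ _ _ h2.ne', div_le_div_iff_of_pos_right h2]
    linarith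
  refine ⟨fun k => (hqhp k).trans_le (he k), ?_, ?_, ?_⟩
  · intro k
    rw [D.Xc]
    refine (he' k).trans ((S k).2.2.1.trans ?_)
    exact Real.rpow_le_rpow (hqhp k).le (he k) (by linarith)
  · intro k t S' ht hB
    rw [D.e_succ]
    refine max_le ?_ ?_
    · refine hB k (X.T (k + 1)) ⟨le_rfl, hTT k⟩ (ht.trans ?_)
      have h1 : 0 ≤ t := (hT0 _).le.trans ht
      have h2 : 0 ≤ ((X.L k (X.T (k + 1)))⁻¹) ^ 6 := by
        have : ((X.L k (X.T (k + 1)))⁻¹) ^ 6 = (((X.L k (X.T (k + 1)))⁻¹) ^ 3) ^ 2 := by ring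
        rw [this]; exact sq_nonneg _
      nlinarith
    · set y := r (k + 1) * (1 + θ (k + 1)) with hy
      have hW : X.Win k y := ⟨hTy k _ (hθ0 _).le, hyW k _ (hθm k)⟩
      have hvis : q (k + 1) * h (k + 1) ≤ X.h k y := D.vis k
      refine hvis.trans (hB k y hW ?_)
      have h1 := hcol k (k + 1) le_rfl
      have h2 : 24 * θ (k + 1) ≤ ((X.L k y)⁻¹) ^ 6 := by
        rw [D.θ_eq]
        exact collar (hh0 _) (((hqh2 _).trans (hqh1 _)).trans hvis) (D.h_lt k y hW) (hΛ _)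
      calc y ≤ X.T (k + 1) * (1 + 24 * θ (k + 1)) := h1
        _ ≤ X.T (k + 1) * (1 + ((X.L k y)⁻¹) ^ 6) :=
          mul_le_mul_of_nonneg_left (by linarith) (hT0 _).le
        _ ≤ t * (1 + ((X.L k y)⁻¹) ^ 6) := by
          refine mul_le_mul_of_nonneg_right ht ?_
          linarith [hθ0 (k + 1)]
  · intro k
    have hup : X.h k (X.T (k + 1)) ≤ C * h k ^ (1 + c) :=
      (D.up k).trans (mul_le_mul_of_nonneg_left (D.h_next k) hC0.le)
    have e10 : 1 ≤ Real.exp 10 := Real.one_le_exp (by norm_num)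
    have hCh : 0 < C * h k ^ (1 + c) := mul_pos hC0 (hpw k _)
    have hupe : X.h k (X.T (k + 1)) ≤ X.e k := by
      have := (S k).2.1
      nlinarith [he k, hqhp k]
    rcases lt_or_eq_of_le (D.r_next k) with hlt | heq
    · -- the window is not minimal
      set g := q k * h k ^ (1 + c) with hg
      have hg0 : 0 < g := mul_pos (hq0 k) (hpw k _)
      by_cases hreg : Real.exp (-20) * g ≤ X.h k (X.T (k + 1))
      · exact Or.inl ⟨hjump k _ hreg, hupe⟩
      · rw [not_le] at hreg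
        right
        set Y := r (k + 1) * (1 + θ k) with hY
        have hTY : X.T (k + 1) ≤ Y := hTy k _ (hθ0 _).le
        have hYT : Y ≤ X.T k := hyW k _ le_rfl
        have hvis : g ≤ X.h k Y := D.vis2 k hlt
        have hco : ContinuousOn (X.h k) (Icc (X.T (k + 1)) Y) :=
          (D.cont k).mono (Icc_subset_Icc_right hYT)
        have hgT : X.h k (X.T (k + 1)) ≤ g := by nlinarith
        obtain ⟨y, hy, hyg⟩ := intermediate_value_Icc hTY hco ⟨hgT, hvis⟩
        have hW : X.Win k y := ⟨hy.1, hy.2.trans hYT⟩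
        refine ⟨k, y, ⟨hW, hy.1, ?_⟩, ?_, ?_, ?_, ?_⟩
        · have h2 : 24 * θ k ≤ ((X.L k y)⁻¹) ^ 6 := by
            rw [D.θ_eq]
            refine collar (hh0 _) ?_ (D.h_lt k y hW) (hΛ _)
            rw [hyg]; exact hqh2 k
          calc y ≤ Y := hy.2
            _ ≤ X.T (k + 1) * (1 + 24 * θ k) := hcol k k (hθm k)
            _ ≤ _ := mul_le_mul_of_nonneg_left (by linarith) (hT0 _).le
        · refine hjump k _ ?_
          rw [hyg]; nlinarith
        · rw [hyg]; exact (hqh1 k).trans (he k)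
        · rw [hyg]
          have h1 : Real.exp 10 * Real.exp (-20) ≤ 1 := by
            rw [← Real.exp_add]; exact Real.exp_le_one_iff.2 (by norm_num)
          calc Real.exp 10 * X.h k (X.T (k + 1)) ≤ Real.exp 10 * (Real.exp (-20) * g) :=
                mul_le_mul_of_nonneg_left hreg.le (by linarith)
            _ = (Real.exp 10 * Real.exp (-20)) * g := by ring
            _ ≤ 1 * g := mul_le_mul_of_nonneg_right h1 hg0.le
            _ = g := one_mul g
        · rw [hyg]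
          have h1 : Real.exp 10 * Real.exp (-20) ≤ 1 / 2 := by
            rw [← Real.exp_add]
            have h3 : Real.exp (10 + -20) ≤ Real.exp (-1) := Real.exp_le_exp.2 (by norm_num)
            have h4 : Real.exp (-1) ≤ 1 / 2 := by
              rw [Real.exp_neg, one_div]
              refine inv_anti₀ (by norm_num) ?_
              have := Real.add_one_le_exp (1:ℝ)
              linarith
            exact h3.trans h4
          have h2 := (S k).2.2.2.2
          calc Real.exp 10 * X.h (k + 1) (X.T (k + 1))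
              ≤ Real.exp 10 * (Real.exp (-20) * g + C * h k ^ (1 + 9 / 5 * c)) :=
                mul_le_mul_of_nonneg_left ((hnew k).trans (by linarith)) (by linarith)
            _ = (Real.exp 10 * Real.exp (-20)) * g
                  + Real.exp 10 * (C * h k ^ (1 + 9 / 5 * c)) := by ring
            _ ≤ 1 / 2 * g + g / 4 := by
                have := mul_le_mul_of_nonneg_right h1 hg0.le
                linarith
            _ ≤ g := by linarith
    · -- minimal window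
      right
      cases k with
      | zero => exact absurd heq (ne_of_lt D.first)
      | succ k =>
        set Y := r (k + 1) * (1 + θ (k + 1)) with hY
        have hTY : X.T (k + 1) ≤ Y := hTy k _ (hθ0 _).le
        have hYT : Y ≤ X.T k := hyW k _ (hθm k)
        have hco : ContinuousOn (X.h k) (Icc (X.T (k + 1)) Y) :=
          (D.cont k).mono (Icc_subset_Icc_right hYT)
        have hex : ∃ y ∈ Icc (X.T (k + 1)) Y, X.h k y = X.e (k + 1) := by
          rcases le_total (a₀ * θ (k + 1) ^ p * h (k + 1)) (X.h k (X.T (k + 1))) with h1 | h1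
          · exact ⟨X.T (k + 1), ⟨le_rfl, hTY⟩, by rw [D.e_succ, max_eq_left h1]⟩
          · obtain ⟨y, hy, hyg⟩ := intermediate_value_Icc hTY hco ⟨h1, D.vis k⟩
            exact ⟨y, hy, by rw [D.e_succ, max_eq_right h1]; exact hyg⟩
        obtain ⟨y, hy, hyg⟩ := hex
        have hW : X.Win k y := ⟨hy.1, hy.2.trans hYT⟩
        have hq4 := (S (k + 1)).2.1
        have hee := he (k + 1)
        refine ⟨k, y, ⟨hW, (hTT (k + 1)).trans hy.1, ?_⟩, ?_, ?_, ?_, ?_⟩
        · have h2 : 24 * θ (k + 1) ≤ ((X.L k y)⁻¹) ^ 6 := by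
            rw [D.θ_eq]
            refine collar (hh0 _) ?_ (D.h_lt k y hW) (hΛ _)
            rw [hyg]; exact ((hqh2 _).trans (hqh1 _)).trans hee
          have h3 : Y ≤ X.T (k + 1 + 1) * (1 + 24 * θ (k + 1)) := by
            rw [D.T_eq (k + 1 + 1), heq, hY]
            have h4 := hθs (k + 1)
            have h5 := hθm (k + 1)
            have h6 := hθ0 (k + 1)
            have h7 := hθ0 (k + 1 + 1)
            rw [mul_assoc, mul_assoc]
            refine mul_le_mul_of_nonneg_left ?_ (D.r_pos _).le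
            have h8 : (1 - 12 * θ (k + 1)) * (1 - 10 * θ (k + 1))
                ≤ (1 - 12 * θ (k + 1)) * (1 - 10 * θ (k + 1 + 1)) :=
              mul_le_mul_of_nonneg_left (by linarith) (by linarith)
            have h9 : 1 - 22 * θ (k + 1) ≤ (1 - 12 * θ (k + 1)) * (1 - 10 * θ (k + 1)) := by
              nlinarith
            calc 1 + θ (k + 1) ≤ (1 - 22 * θ (k + 1)) * (1 + 24 * θ (k + 1)) := by nlinarith
              _ ≤ ((1 - 12 * θ (k + 1)) * (1 - 10 * θ (k + 1 + 1))) * (1 + 24 * θ (k + 1)) :=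
                mul_le_mul_of_nonneg_right (h9.trans h8) (by linarith)
              _ = _ := by ring
          calc y ≤ Y := hy.2
            _ ≤ X.T (k + 1 + 1) * (1 + 24 * θ (k + 1)) := h3
            _ ≤ _ := mul_le_mul_of_nonneg_left (by linarith) (hT0 _).le
        · refine hjump (k + 1) _ ?_
          rw [hyg]
          refine le_trans ?_ hee
          have := hqh1 (k + 1)
          have h0 : 0 < q (k + 1) * h (k + 1) ^ (1 + c) := mul_pos (hq0 _) (hpw _ _)
          nlinarith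
        · rw [hyg]
        · rw [hyg]
          have h1 := mul_le_mul_of_nonneg_left hup (Real.exp_pos 10).le
          linarith [hqhp (k + 1)]
        · rw [hyg]
          have h1 := mul_le_mul_of_nonneg_left ((hnew (k + 1)).trans (add_le_add_left hup _))
            (Real.exp_pos 10).le
          have h2 := (S (k + 1)).2.2.2.2
          have h3 := hqh1 (k + 1)
          rw [mul_add] at h1
          linarith [hqhp (k + 1)]

end

end Vale.Agent.P214.INST
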