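import Vale.Agent.P214.INST.Props
import Vale.Agent.P214.INST.SwAbs
import Vale.Agent.P214.CMP.Int
import Vale.Agent.P214.COORD.Win
import Vale.Agent.P214.WSEQ.AccSum
import Vale.Agent.P214.WSEQ.Exps

/-!
# P214, block INST (helper617): two consecutive references at the switch radius

`SwPairStmt`: the structure `CMP.Sw` for `(wr S j, wr S (j+1))` at `Tr S (j+1)` with the tube of
window `j`; closeness `τ ~ h_j^{1/2+2c}` (W6) if `h_{j+1} ≥ h_j^4`, and `τ ~ h_{j+1}^{1/2-e}`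
(global size of the increment) otherwise.
-/

open Set Filter Topology MeasureTheory Metric
open scoped RealInnerProductSpace ContDiff

set_option linter.all false

namespace Vale.Agent.P214.INST

open WIN WSEQ FM

noncomputable section

variable {m n Q : ℕ} {E : Type*} [NormedAddCommGroup E] [InnerProductSpace ℝ E]
  [FiniteDimensional ℝ E] [MeasurableSpace E] [BorelSpace E]
variable {T : Submodule ℝ E} {F : Frame m n T} {ν : Measure E} {P : E → E →L[ℝ] E} {Kp : Set E}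
  {δ : ℝ → ℝ} {X : Exps} {C C₅ ε : ℝ}

/-- **[TAN#]** sharp bounds of the differentials of the references at the centre -/
def TanSharpStmt (E : Type*) [NormedAddCommGroup E] [InnerProductSpace ℝ E]
    [FiniteDimensional ℝ E] [MeasurableSpace E] [BorelSpace E] (m n Q : ℕ) : Prop :=
  Ev E m n Q fun _ _ _ _ _ _ X _ _ _ S => ∀ j,
    ‖fderiv ℝ (wr S j) 0‖ ≤ 2 * n * S.h j ^ (1 / 2 + 2 * X.c) ∧
    ‖fderiv ℝ (wr S j) 0‖ ≤ 2 * n * S.h (j + 1) ^ (1 / 2 - X.e)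

/-- **[SWPAIR]** two consecutive references at the switch radius -/
def SwPairStmt (E : Type*) [NormedAddCommGroup E] [InnerProductSpace ℝ E] [FiniteDimensional ℝ E]
    [MeasurableSpace E] [BorelSpace E] (m n Q : ℕ) : Prop :=
  ∀ η : ℝ, 0 < η → η ≤ eps0 → Ev E m n Q fun T _ ν P _ _ X _ _ _ S => ∀ j, ∃ τ : ℝ,
    CMP.Sw m T (wr S j) (wr S (j + 1)) η (1 / 3) (tube S j) 0
      (S.r (j + 1) * (1 - 17 / 2 * th (S.h (j + 1)))) (Tr S (j + 1)) τ (Gr S j)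
      (6 * (S.r j * S.h j ^ (2 / 5 : ℝ))) ν P ∧
    MinimalOver T (wr S (j + 1)) (ball 0 (S.r (j + 1) * (1 - 17 / 2 * th (S.h (j + 1))))) ∧
    12 * (S.r j * S.h j ^ (2 / 5 : ℝ)) ≤ Tr S (j + 1) ∧
    12 * (S.r j * S.h j ^ (2 / 5 : ℝ)) + 6 * (τ * Tr S (j + 1)) ≤ tube S j ∧
    ((S.h j ^ 4 ≤ S.h (j + 1) ∧ τ = 4 * (n + 1) * S.h j ^ (1 / 2 + 2 * X.c) ∧
        Tr S (j + 1) * (1 + 5 * τ) + 6 * (S.r j * S.h j ^ (2 / 5 : ℝ)) ≤ S.r (j + 1)) ∨
      (S.h (j + 1) < S.h j ^ 4 ∧ τ = 4 * (n + 1) * S.h (j + 1) ^ (1 / 2 - X.e)))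

/-! ### differences of lifts -/

lemma norm_xc (F : Frame m n T) (y : E) : ‖F.xc y‖ = ‖T.starProjection y‖ := by
  unfold WIN.Frame.xc
  rw [LinearIsometryEquiv.norm_map]
  rfl

lemma lift_sub_eq (F : Frame m n T) (u u' : Fin n → REF.E m → ℝ) (y : E) :
    F.lift u' y - F.lift u y = F.lift (fun a x => u' a x - u a x) y := by
  unfold WIN.Frame.lift
  rw [← Finset.sum_sub_distrib]
  refine Finset.sum_congr rfl fun a _ => ?_
  rw [sub_smul]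

lemma lift_diff (F : Frame m n T) {u u' : Fin n → REF.E m → ℝ} (hu : ∀ a, ContDiff ℝ ∞ (u a))
    (hu' : ∀ a, ContDiff ℝ ∞ (u' a)) {k : ℕ} {y : E} {B : ℝ}
    (hB : ∀ a, ‖iteratedFDeriv ℝ k (fun x => u' a x - u a x) (F.xc y)‖ ≤ B) :
    ‖iteratedFDeriv ℝ k (fun y => F.lift u' y - F.lift u y) y‖ ≤ n * B := by
  have h1 : (fun y => F.lift u' y - F.lift u y) = F.lift (fun a x => u' a x - u a x) :=
    funext (lift_sub_eq F u u')
  rw [h1]
  have h2 : ∀ a, ContDiff ℝ k (fun x => u' a x - u a x) := fun a =>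
    ((hu' a).sub (hu a)).of_le (WithTop.coe_le_coe.2 le_top)
  refine (COORD.norm_iteratedFDeriv_lift F h2 y).trans ?_
  calc ∑ a, ‖iteratedFDeriv ℝ k (fun x => u' a x - u a x) (F.xc y)‖ ≤ ∑ _a : Fin n, B :=
        Finset.sum_le_sum fun a _ => hB a
    _ = n * B := by simp

/-- values, first and second derivatives of the difference of two maps -/
lemma diff_bounds {w w' : E → E} (hw : ContDiff ℝ ∞ w) (hw' : ContDiff ℝ ∞ w') {y : E} {B : ℕ → ℝ}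
    (hB : ∀ k ≤ 2, ‖iteratedFDeriv ℝ k (fun y => w' y - w y) y‖ ≤ B k) :
    ‖w y - w' y‖ ≤ B 0 ∧ ‖fderiv ℝ w y - fderiv ℝ w' y‖ ≤ B 1 ∧
      ∀ v, ‖D2 w y v - D2 w' y v‖ ≤ B 2 * ‖v‖ := by
  have d : Differentiable ℝ w := hw.differentiable (by simp)
  have d' : Differentiable ℝ w' := hw'.differentiable (by simp)
  have c1 : ContDiff ℝ ∞ (fderiv ℝ w) := hw.fderiv_right (by exact_mod_cast le_rfl)
  have c1' : ContDiff ℝ ∞ (fderiv ℝ w') := hw'.fderiv_right (by exact_mod_cast le_rfl)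
  have d1 : Differentiable ℝ (fderiv ℝ w) := c1.differentiable (by simp)
  have d1' : Differentiable ℝ (fderiv ℝ w') := c1'.differentiable (by simp)
  have e1 : fderiv ℝ (fun y => w' y - w y) = fun y => fderiv ℝ w' y - fderiv ℝ w y := by
    funext x
    exact fderiv_fun_sub (d' x) (d x)
  have e2 : fderiv ℝ (fderiv ℝ (fun y => w' y - w y)) y = D2 w' y - D2 w y := by
    rw [e1]
    exact fderiv_fun_sub (d1' y) (d1 y)
  have h0 := hB 0 (by norm_num)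
  have h1 := hB 1 (by norm_num)
  have h2 := hB 2 le_rfl
  rw [norm_iteratedFDeriv_zero] at h0
  rw [norm_iteratedFDeriv_one, e1] at h1
  rw [← norm_iteratedFDeriv_fderiv, norm_iteratedFDeriv_one, e2] at h2
  refine ⟨by rw [norm_sub_rev]; exact h0, by rw [norm_sub_rev]; exact h1, fun v => ?_⟩
  rw [norm_sub_rev]
  have h3 : D2 w' y v - D2 w y v = (D2 w' y - D2 w y) v := rfl
  rw [h3]
  exact (ContinuousLinearMap.le_opNorm _ _).trans (mul_le_mul_of_nonneg_right h2 (norm_nonneg _))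

/-! ### the references are admissible with curvature `1/3` -/

lemma adm_third (F : Frame m n T) {u : Fin n → REF.E m → ℝ} {r η h₁ : ℝ} (hu : Refe ε r u)
    (hη : η ≤ eps0) (hε0 : 0 ≤ ε) (h1 : n * ε ≤ η) (h2 : n * ε ≤ (1 / 3) ^ 5) (hh0 : 0 < h₁)
    (hh : h₁ ≤ 1 / 16) : Adm T (F.lift u) η (1 / 3) h₁ := by
  have key : ∀ k ≤ 6, ∀ x, ∑ a, ‖iteratedFDeriv ℝ k (u a) x‖ ≤ n * ε := by
    intro k hk x
    calc ∑ a, ‖iteratedFDeriv ℝ k (u a) x‖ ≤ ∑ _a : Fin n, ε :=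
          Finset.sum_le_sum fun a _ => hu.small a k (by unfold sW; omega) x
      _ = n * ε := by simp
  refine ⟨COORD.fm_ref_lift F hu.smooth (by norm_num) (fun x => (key 1 (by norm_num) x).trans h1)
    fun k hk hk' x => ((key k hk' x).trans h2).trans ?_, hh0, hη, by linarith⟩
  exact pow_le_pow_of_le_one (by norm_num) (by norm_num) (by omega)

/-! ### restriction of the cylinders -/

lemma _root_.Vale.Agent.P214.FV.CylStat.shrink {G G' : Set E} {h : ℝ} (hC : FV.CylStat m T G h ν P) (hG' : IsOpen G')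
    (hsub : G' ⊆ G) : FV.CylStat m T G' h ν P :=
  ⟨hC.fin, hC.meas, hC.proj, hC.dimT, hG', by
    filter_upwards [hC.slab] with y hy hyG using hy (hsub hyG),
    fun X hX ⟨K, hK, hKG, h0⟩ => hC.stat X hX ⟨K, hK, hKG.trans hsub, h0⟩⟩

lemma _root_.Vale.Agent.P214.FM.CylF.slab_mono {w : E → E} {h₁ h h' : ℝ} {G : Set E}
    (hC : CylF m T w h₁ G h ν P) (hh : h ≤ h') (hlt : h' < h₁) : CylF m T w h₁ G h' ν P :=
  ⟨hC.fin, hC.meas, hC.proj, hC.dimT, hC.isOpen, by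
    filter_upwards [hC.slab] with y hy hyG using (hy hyG).trans hh, hlt, hC.stat⟩

/-! ### numbers -/

/-- the numerical facts at a switch -/
theorem swNum (n : ℕ) {c c₅ e : ℝ} (hc : 0 < c) (hc5 : 0 < c₅) (hc5' : c₅ ≤ 1 / 10000)
    (he' : e ≤ 1 / 10000) :
    ∃ ε₀ : ℝ, 0 < ε₀ ∧ ε₀ < 1 ∧ ∀ h h' r r' : ℝ, 0 < h → h ≤ ε₀ → 0 < h' → h' ≤ h → 0 < r →
      r * h ^ c₅ ≤ r' → r' ≤ r * (1 - 12 * th h) →
      0 < th h' ∧ th h' ≤ th h ∧ th h ≤ 1 / 120 ∧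
      12 * (r * h ^ (2 / 5 : ℝ)) ≤ r' * (1 - 10 * th h') ∧
      6 * (r * h ^ (2 / 5 : ℝ)) < r * th h ∧
      (h ^ 4 ≤ h' → 8 * (4 * (n + 1) * h ^ (1 / 2 + 2 * c)) ≤ th h' ∧
        12 * (r * h ^ (2 / 5 : ℝ)) +
          6 * ((4 * (n + 1) * h ^ (1 / 2 + 2 * c)) * (r' * (1 - 10 * th h'))) ≤ r * th h ∧
        r' * (1 - 10 * th h') * (1 + 5 * (4 * (n + 1) * h ^ (1 / 2 + 2 * c))) +
          6 * (r * h ^ (2 / 5 : ℝ)) ≤ r') ∧
      (8 * (4 * (n + 1) * h' ^ (1 / 2 - e)) ≤ th h' ∧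
        12 * (r * h ^ (2 / 5 : ℝ)) +
          6 * ((4 * (n + 1) * h' ^ (1 / 2 - e)) * (r' * (1 - 10 * th h'))) ≤ r * th h) ∧
      (n + 1) * h' ^ (1 / 2 - e) ≤ h ^ (2 / 5 : ℝ) := by
  have hn : (0:ℝ) ≤ n := Nat.cast_nonneg n
  set a : ℝ := 1 / (1000000 * (n + 1)) with ha
  have ha0 : 0 < a := by positivity
  have han : a * (n + 1) = 1 / 1000000 := by rw [ha]; field_simp
  have ha1 : a ≤ 1 / 1000000 := by
    rw [ha]
    exact one_div_le_one_div_of_le (by norm_num) (by nlinarith)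
  obtain ⟨ε₁, hε₁, hε₁1, H₁⟩ := log_pow_small 7 (b := 1 / 5) (by norm_num) ha0
  obtain ⟨ε₂, hε₂, hε₂1, H₂⟩ := exists_th (a := 1) (b := 1 / 120) one_pos (by norm_num)
  obtain ⟨ε₃, hε₃, hε₃1, H₃⟩ := log_pow_small 0 (b := 1 / 20) (a := 1 / (n + 1)) (by norm_num)
    (by positivity)
  refine ⟨min ε₁ (min ε₂ ε₃), lt_min hε₁ (lt_min hε₂ hε₃), (min_le_left _ _).trans_lt hε₁1, ?_⟩
  intro h h' r r' hh hhε hh' hhh hr hr1 hr2
  have hε1 := hhε.trans (min_le_left _ _)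
  have hε2 := hhε.trans ((min_le_right _ _).trans (min_le_left _ _))
  have hε3 := hhε.trans ((min_le_right _ _).trans (min_le_right _ _))
  have hlt1 : h < 1 := hε1.trans_lt hε₁1
  have hlt1' : h' < 1 := hhh.trans_lt hlt1
  obtain ⟨-, th0, th1⟩ := H₂ h hh hε2
  obtain ⟨-, th0', th1'⟩ := H₂ h' hh' (hhh.trans hε2)
  have thm : th h' ≤ th h := th_mono hh' hhh hlt1
  have p1 : h ^ (1 / 5 : ℝ) ≤ a * th h := H₁ h hh hε1
  have p1' : h' ^ (1 / 5 : ℝ) ≤ a * th h' := H₁ h' hh' (hhh.trans hε1)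
  have hr'0 : 0 < r' := lt_of_lt_of_le (mul_pos hr (Real.rpow_pos_of_pos hh _)) hr1
  have hrt : 0 < r * th h := mul_pos hr th0
  have hrt' : 0 < r' * th h' := mul_pos hr'0 th0'
  have hr'r : r' ≤ r := by linarith
  -- the slab
  have s1 : h ^ (2 / 5 : ℝ) ≤ h ^ (1 / 5 : ℝ) :=
    Real.rpow_le_rpow_of_exponent_ge hh hlt1.le (by norm_num)
  have s2 : r * h ^ (2 / 5 : ℝ) ≤ r * (a * th h) :=
    mul_le_mul_of_nonneg_left (s1.trans p1) hr.le
  have s3 : r * h ^ (2 / 5 : ℝ) ≤ r' * (a * th h) := by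
    have e1 : h ^ (2 / 5 : ℝ) = h ^ c₅ * h ^ (2 / 5 - c₅) := by
      rw [← Real.rpow_add hh]; ring_nf
    have e2 : h ^ (2 / 5 - c₅) ≤ h ^ (1 / 5 : ℝ) :=
      Real.rpow_le_rpow_of_exponent_ge hh hlt1.le (by linarith)
    rw [e1, ← mul_assoc]
    exact mul_le_mul hr1 (e2.trans p1) (Real.rpow_nonneg hh.le _) hr'0.le
  have t0 : 0 ≤ r' * (1 - 10 * th h') := mul_nonneg hr'0.le (by linarith)
  have t1 : r' * (1 - 10 * th h') ≤ r' := by linarith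
  have g1 : 12 * (r * h ^ (2 / 5 : ℝ)) ≤ r' * (1 - 10 * th h') := by
    have : a * th h ≤ 1 / 1000000 * (1 / 120) := mul_le_mul ha1 th1 th0.le (by norm_num)
    have h2 : r' * (a * th h) ≤ r' * (1 / 1000000 * (1 / 120)) :=
      mul_le_mul_of_nonneg_left this hr'0.le
    have h3 : r' * th h' ≤ r' * (1 / 120) := mul_le_mul_of_nonneg_left th1' hr'0.le
    linarith
  have hat : a * th h ≤ 1 / 1000000 * th h := mul_le_mul_of_nonneg_right ha1 th0.le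
  have g2 : r * h ^ (2 / 5 : ℝ) ≤ 1 / 1000000 * (r * th h) := by
    refine s2.trans ?_
    calc r * (a * th h) ≤ r * (1 / 1000000 * th h) := mul_le_mul_of_nonneg_left hat hr.le
      _ = _ := by ring
  -- general step for `τ`
  have G : ∀ b x : ℝ, 0 < x → x < 1 → x ^ (1 / 5 : ℝ) ≤ a * th h → 1 / 5 ≤ b →
      12 * (r * h ^ (2 / 5 : ℝ)) +
        6 * ((4 * (n + 1) * x ^ b) * (r' * (1 - 10 * th h'))) ≤ r * th h := by
    intro b x hx hx1 hxa hb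
    have e1 : x ^ b ≤ a * th h :=
      (Real.rpow_le_rpow_of_exponent_ge hx hx1.le hb).trans hxa
    have e2 : (n + 1 : ℝ) * x ^ b ≤ 1 / 1000000 * th h := by
      calc (n + 1 : ℝ) * x ^ b ≤ (n + 1) * (a * th h) := mul_le_mul_of_nonneg_left e1 (by positivity)
        _ = (a * (n + 1)) * th h := by ring
        _ = _ := by rw [han]
    have e3 : (4 * (n + 1) * x ^ b) * (r' * (1 - 10 * th h')) ≤ (4 / 1000000 * th h) * r := by
      have e4 : 4 * (n + 1 : ℝ) * x ^ b ≤ 4 / 1000000 * th h := by linarith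
      exact mul_le_mul e4 (t1.trans hr'r) t0 (by positivity)
    linarith
  refine ⟨th0', thm, th1, g1, by linarith, ?_, ⟨?_, ?_⟩, ?_⟩
  rotate_left 3
  · have f0 := H₃ h hh hε3
    rw [pow_zero, mul_one, le_div_iff₀ (by positivity)] at f0
    have f1 : h' ^ (1 / 2 - e) ≤ h ^ (1 / 2 - e) := Real.rpow_le_rpow hh'.le hhh (by linarith)
    have f2 : h ^ (1 / 2 - e) = h ^ (2 / 5 : ℝ) * h ^ (1 / 10 - e) := by
      rw [← Real.rpow_add hh]; ring_nf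
    have f3 : h ^ (1 / 10 - e) ≤ h ^ (1 / 20 : ℝ) :=
      Real.rpow_le_rpow_of_exponent_ge hh hlt1.le (by linarith)
    have f4 : 0 ≤ h ^ (2 / 5 : ℝ) := Real.rpow_nonneg hh.le _
    calc (n + 1) * h' ^ (1 / 2 - e) ≤ (n + 1) * (h ^ (2 / 5 : ℝ) * h ^ (1 / 20 : ℝ)) :=
          mul_le_mul_of_nonneg_left (f1.trans (f2.le.trans (mul_le_mul_of_nonneg_left f3 f4)))
            (by positivity)
      _ = h ^ (2 / 5 : ℝ) * (h ^ (1 / 20 : ℝ) * (n + 1)) := by ring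
      _ ≤ h ^ (2 / 5 : ℝ) * 1 := mul_le_mul_of_nonneg_left f0 f4
      _ = _ := mul_one _
  · intro h4
    have hL : 0 < Real.log h⁻¹ := Real.log_pos ((one_lt_inv₀ hh).2 hlt1)
    have hL' : 0 < Real.log h'⁻¹ := Real.log_pos ((one_lt_inv₀ hh').2 hlt1')
    have hLL : Real.log h'⁻¹ ≤ 4 * Real.log h⁻¹ := by
      have h1 : Real.log (h ^ 4) ≤ Real.log h' := Real.log_le_log (by positivity) h4
      rw [Real.log_pow] at h1
      rw [Real.log_inv, Real.log_inv]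
      push_cast at h1
      linarith
    have hth : th h ≤ 16384 * th h' := by
      unfold th
      have h1 : (4 * Real.log h⁻¹)⁻¹ ≤ (Real.log h'⁻¹)⁻¹ := inv_anti₀ hL' hLL
      have h2 : ((4 * Real.log h⁻¹)⁻¹) ^ 7 ≤ ((Real.log h'⁻¹)⁻¹) ^ 7 :=
        pow_le_pow_left₀ (by positivity) h1 7
      have h3 : ((4 * Real.log h⁻¹)⁻¹) ^ 7 = (Real.log h⁻¹)⁻¹ ^ 7 / 16384 := by
        rw [mul_inv, mul_pow]; norm_num; ring
      rw [h3] at h2
      linarith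
    have e1 : h ^ (1 / 2 + 2 * c) ≤ a * th h :=
      (Real.rpow_le_rpow_of_exponent_ge hh hlt1.le (by linarith)).trans p1
    have e2 : (n + 1 : ℝ) * h ^ (1 / 2 + 2 * c) ≤ 1 / 1000000 * th h := by
      calc (n + 1 : ℝ) * h ^ (1 / 2 + 2 * c) ≤ (n + 1) * (a * th h) :=
            mul_le_mul_of_nonneg_left e1 (by positivity)
        _ = (a * (n + 1)) * th h := by ring
        _ = _ := by rw [han]
    have e3 : 8 * (4 * (n + 1) * h ^ (1 / 2 + 2 * c)) ≤ th h' := by linarith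
    refine ⟨e3, G _ h hh hlt1 p1 (by linarith), ?_⟩
    have e4 : 6 * (r * h ^ (2 / 5 : ℝ)) ≤ r' * (1 / 10 * th h') := by
      have : a * th h ≤ 1 / 1000000 * (16384 * th h') := hat.trans (by linarith)
      have h5 : r' * (a * th h) ≤ r' * (1 / 1000000 * (16384 * th h')) :=
        mul_le_mul_of_nonneg_left this hr'0.le
      have h6 : 0 < r' * th h' := mul_pos hr'0 th0'
      linarith
    have τ0 : 0 ≤ 4 * (n + 1 : ℝ) * h ^ (1 / 2 + 2 * c) := by positivity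
    set τ := 4 * (n + 1 : ℝ) * h ^ (1 / 2 + 2 * c)
    have e5 : (1 - 10 * th h') * (1 + 5 * τ) ≤ 1 - 9 * th h' := by
      have := mul_nonneg th0'.le τ0
      linarith
    have e6 : r' * (1 - 10 * th h') * (1 + 5 * τ) ≤ r' * (1 - 9 * th h') := by
      rw [mul_assoc]; exact mul_le_mul_of_nonneg_left e5 hr'0.le
    linarith
  · have e1 : h' ^ (1 / 2 - e) ≤ a * th h' :=
      (Real.rpow_le_rpow_of_exponent_ge hh' hlt1'.le (by linarith)).trans p1'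
    have e2 : (n + 1 : ℝ) * h' ^ (1 / 2 - e) ≤ 1 / 1000000 * th h' := by
      calc (n + 1 : ℝ) * h' ^ (1 / 2 - e) ≤ (n + 1) * (a * th h') :=
            mul_le_mul_of_nonneg_left e1 (by positivity)
        _ = (a * (n + 1)) * th h' := by ring
        _ = _ := by rw [han]
    linarith
  · exact G _ h' hh' hlt1' (p1'.trans (mul_le_mul_of_nonneg_left thm ha0.le)) (by linarith)

/-! ### general constructions -/

/-- the cylinder in the Fermi coordinates of a second, close reference -/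
lemma cylF_near {w w' : E → E} {η κ h₁ R R' H D : ℝ}
    (hs : ∀ᵐ y ∂ν, T.starProjection y ∈ ball (0:E) R → ‖FV.co T y - w y‖ ≤ D)
    (hww : ∀ y, ‖w' y - w y‖ ≤ D) (cs : FV.CylStat m T (ball (0:E) R) H ν P)
    (ad' : Adm T w' η κ h₁) (hRR : R' + 2 * η * h₁ ≤ R) (hD0 : 0 ≤ D) (hlt : 6 * D < h₁) :
    CylF m T w' h₁ (ball (0:E) R') (6 * D) (fmeas T w' h₁ ν) (fP T w' h₁ P) := by
  have hη1 : η ≤ 1 / 16 := ad'.hε.trans eps0_le
  have hη0 := ad'.ref.eps_nonneg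
  have sl' : ∀ᵐ y ∂ν, T.starProjection y ∈ ball (0:E) R → ‖FV.co T y - w' y‖ ≤ 2 * D := by
    filter_upwards [hs] with y hy hyb
    calc ‖FV.co T y - w' y‖ = ‖(FV.co T y - w y) - (w' y - w y)‖ := by congr 1; abel
      _ ≤ D + D := (norm_sub_le _ _).trans (add_le_add (hy hyb) (hww y))
      _ = _ := by ring
  have hη2 : η ^ 2 ≤ 1 / 256 := by nlinarith
  have hdiv : 2 * D / (1 - η ^ 2) ≤ 6 * D := by
    rw [div_le_iff₀ (by linarith)]
    have : 6 * D * η ^ 2 ≤ 6 * D * (1 / 256) := mul_le_mul_of_nonneg_left hη2 (by linarith)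
    linarith
  have h1 := cs.cylF ad' (G' := ball (0:E) R') isOpen_ball (fun x hx y hy => by
    rw [mem_ball_zero_iff] at hx ⊢
    have h2 : ‖y‖ ≤ ‖x‖ + ‖y - x‖ := by
      calc ‖y‖ = ‖x + (y - x)‖ := by congr 1; abel
        _ ≤ _ := norm_add_le _ _
    linarith) sl' (hdiv.trans_lt hlt)
  exact h1.slab_mono hdiv hlt

/-- the structure `CMP.Sw` from closeness of the references -/
lemma sw_of {w w' : E → E} {η h₁ r' θ' τ D R' : ℝ} (ad : Adm T w η (1 / 3) h₁)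
    (ad' : Adm T w' η (1 / 3) h₁) (w0 : w 0 = w' 0) (hr0 : 0 < r') (hr3 : r' ≤ 3 / 16)
    (hθ0 : 0 < θ') (hθ1 : θ' ≤ 1 / 120) (hτ0 : 0 ≤ τ) (hτ8 : 8 * τ ≤ θ')
    (hcl : ∀ y, T.starProjection y ∈ ball (0:E) (r' * (1 - 17 / 2 * θ')) → ∀ k ≤ 2,
      ‖iteratedFDeriv ℝ k (fun y => w' y - w y) y‖ ≤ r' * r'⁻¹ ^ k * (τ / 2))
    (hf1 : ‖fderiv ℝ w 0‖ ≤ τ) (hf2 : ‖fderiv ℝ w' 0‖ ≤ τ)
    (cy : CylF m T w h₁ (ball (0:E) R') (6 * D) (fmeas T w h₁ ν) (fP T w h₁ P))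
    (cy' : CylF m T w' h₁ (ball (0:E) R') (6 * D) (fmeas T w' h₁ ν) (fP T w' h₁ P))
    (hD : 6 * D ≤ r' * (1 - 10 * θ')) (hR : r' ≤ R') :
    CMP.Sw m T w w' η (1 / 3) h₁ 0 (r' * (1 - 17 / 2 * θ')) (r' * (1 - 10 * θ')) τ
      (ball (0:E) R') (6 * D) ν P := by
  have hrθ : 0 < r' * θ' := mul_pos hr0 hθ0
  have hrθ2 : r' * θ' ≤ r' * (1 / 120) := mul_le_mul_of_nonneg_left hθ1 hr0.le
  set t := r' * (1 - 10 * θ') with ht
  have tle : t ≤ r' := by rw [ht]; linarith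
  have tge : r' ≤ 2 * t := by rw [ht]; linarith
  have tpos : 0 < t := by linarith
  have hB : ∀ y, T.starProjection y ∈ ball (0:E) (r' * (1 - 17 / 2 * θ')) → _ :=
    fun y hy => diff_bounds ad.ref.smooth ad'.ref.smooth
      (B := fun k => r' * r'⁻¹ ^ k * (τ / 2)) (hcl y hy)
  have hτt : τ / 2 * r' ≤ τ / 2 * (2 * t) := mul_le_mul_of_nonneg_left tge (by linarith)
  refine ⟨⟨⟨ad, ad', zero_mem T, ?_, tpos, hτ0, by linarith, ?_,
    fun y hy => ?_, fun y hy => ?_, fun y hy v => ?_⟩, ?_, by linarith,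
    cy, cy', ?_, hD⟩, w0, hf1, hf2⟩
  · exact mul_pos hr0 (by linarith)
  · linarith
  · refine (hB y hy).1.trans ?_
    rw [pow_zero, mul_one]
    linarith
  · refine (hB y hy).2.1.trans ?_
    rw [pow_one, mul_inv_cancel₀ hr0.ne', one_mul]
    linarith
  · refine ((hB y hy).2.2 v).trans ?_
    refine mul_le_mul_of_nonneg_right ?_ (norm_nonneg _)
    rw [le_div_iff₀ tpos]
    have e1 : r' * r'⁻¹ ^ 2 * (τ / 2) = τ / 2 / r' := by
      field_simp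
    show r' * r'⁻¹ ^ 2 * (τ / 2) * t ≤ τ
    rw [e1, div_mul_eq_mul_div, div_le_iff₀ hr0]
    have : τ * t ≤ τ * r' := mul_le_mul_of_nonneg_left tle hτ0
    have : 0 ≤ τ * t := mul_nonneg hτ0 tpos.le
    linarith
  · rw [ht, mul_assoc]
    refine mul_le_mul_of_nonneg_left ?_ hr0.le
    have := mul_nonneg hθ0.le hτ0
    linarith
  · intro x hx hxr
    rw [map_zero, sub_zero] at hxr
    rw [mem_ball_zero_iff]
    linarith

/-- the pair of references of a switch -/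
lemma pair_final {w w' : E → E} {η r r' θ θ' d τ H : ℝ}
    (ad : ∀ h₁, 0 < h₁ → h₁ ≤ 1 / 16 → Adm T w η (1 / 3) h₁)
    (ad' : ∀ h₁, 0 < h₁ → h₁ ≤ 1 / 16 → Adm T w' η (1 / 3) h₁) (w0 : w 0 = w' 0)
    (hr0 : 0 < r) (hr0' : 0 < r') (hr3 : r ≤ 3 / 16) (hrr : r' ≤ r * (1 - 12 * θ))
    (n1 : 0 < θ') (n2 : θ' ≤ θ) (n3 : θ ≤ 1 / 120) (n4 : 12 * (r * d) ≤ r' * (1 - 10 * θ'))
    (n5 : 6 * (r * d) < r * θ) (d0 : 0 ≤ d)
    (sl : ∀ᵐ y ∂ν, T.starProjection y ∈ ball (0:E) (r * (1 - 17 / 2 * θ)) →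
      ‖FV.co T y - w y‖ ≤ r * d)
    (hww : ∀ y, ‖w' y - w y‖ ≤ r * d) (hloc : FV.CylStat m T (ball (0:E) (3 / 8)) H ν P)
    (cy : CylF m T w (r * θ) (ball (0:E) (r * (1 - 9 * θ))) (2 * (r * d))
      (fmeas T w (r * θ) ν) (fP T w (r * θ) P))
    (hτ0 : 0 ≤ τ) (hτ8 : 8 * τ ≤ θ')
    (hcl : ∀ y, T.starProjection y ∈ ball (0:E) (r' * (1 - 17 / 2 * θ')) → ∀ k ≤ 2,
      ‖iteratedFDeriv ℝ k (fun y => w' y - w y) y‖ ≤ r' * r'⁻¹ ^ k * (τ / 2))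
    (hf1 : ‖fderiv ℝ w 0‖ ≤ τ) (hf2 : ‖fderiv ℝ w' 0‖ ≤ τ) :
    CMP.Sw m T w w' η (1 / 3) (r * θ) 0 (r' * (1 - 17 / 2 * θ')) (r' * (1 - 10 * θ')) τ
      (ball (0:E) (r * (1 - 9 * θ))) (6 * (r * d)) ν P := by
  have hθ0 : 0 < θ := n1.trans_le n2
  have hrθ : 0 < r * θ := mul_pos hr0 hθ0
  have hrθ2 : r * θ ≤ 3 / 16 * (1 / 120) := mul_le_mul hr3 n3 hθ0.le (by norm_num)
  have hrd : 0 ≤ r * d := mul_nonneg hr0.le d0
  have hle : r * θ ≤ 1 / 16 := by linarith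
  have A := ad _ hrθ hle
  have A' := ad' _ hrθ hle
  have hη : η ≤ 1 / 16 := A.hε.trans eps0_le
  have cs := hloc.shrink (G' := ball (0:E) (r * (1 - 17 / 2 * θ))) isOpen_ball
    (ball_subset_ball (by linarith))
  have cy1 := cylF_near (R' := r * (1 - 9 * θ)) sl hww cs A' (by
    have : 2 * η * (r * θ) ≤ 1 / 8 * (r * θ) := mul_le_mul_of_nonneg_right (by linarith) hrθ.le
    linarith) hrd n5
  exact sw_of A A' w0 hr0' (by linarith) n1 (n2.trans n3) hτ0 hτ8 hcl hf1 hf2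
    (cy.slab_mono (by linarith) n5) cy1 (by linarith) (by linarith)

/-! ### the pair -/

/-- **[SWPAIR]** -/
theorem swPairStmt (hR : RefsStmt E m n Q) (hC : CylStmt E m n Q) (hT : TanSharpStmt E m n Q) :
    SwPairStmt E m n Q := by
  intro η hη0 hη X C C₅
  by_cases hX : X.OK m
  swap
  · exact ⟨1, one_pos, fun T F ν P Kp δ ε τ S hS _ => absurd hS.ok hX⟩
  obtain ⟨ε₁, hε₁, H₁⟩ := hR η hη0 hη X C C₅
  obtain ⟨ε₂, hε₂, H₂⟩ := hC η hη0 hη X C C₅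
  obtain ⟨ε₃, hε₃, H₃⟩ := hT X C C₅
  have he := hX.e_le
  have hc := hX.c_le
  have hc0 := hX.c_pos
  have hc5 := hX.c₅_le
  have he0 := hX.e_pos
  obtain ⟨ε₄, hε₄, hε₄1, H₄⟩ := swNum n (c := X.c) (c₅ := X.c₅) (e := X.e) hX.c_pos hX.c₅_pos
    (by linarith) (by linarith)
  have hn : (0:ℝ) ≤ n := Nat.cast_nonneg n
  refine ⟨min (min ε₁ ε₂) (min (min ε₃ ε₄) (min (η / (n + 1)) ((1 / 3) ^ 5 / (n + 1)))),
    by positivity, ?_⟩
  intro T F ν P Kp δ ε τ₀ S hS hε j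
  have q1 : ε ≤ ε₁ := hε.trans ((min_le_left _ _).trans (min_le_left _ _))
  have q2 : ε ≤ ε₂ := hε.trans ((min_le_left _ _).trans (min_le_right _ _))
  have q3 : ε ≤ ε₃ := hε.trans ((min_le_right _ _).trans ((min_le_left _ _).trans (min_le_left _ _)))
  have q4 : ε ≤ ε₄ := hε.trans ((min_le_right _ _).trans ((min_le_left _ _).trans (min_le_right _ _)))
  have q5 : ε ≤ η / (n + 1) :=
    hε.trans ((min_le_right _ _).trans ((min_le_right _ _).trans (min_le_left _ _)))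
  have q6 : ε ≤ (1 / 3) ^ 5 / (n + 1) :=
    hε.trans ((min_le_right _ _).trans ((min_le_right _ _).trans (min_le_right _ _)))
  have hεp := hS.ε_pos
  have hε1 : ε ≤ 1 := q4.trans hε₄1.le
  have p5 : n * ε ≤ η := by
    rw [le_div_iff₀ (by positivity)] at q5
    linarith
  have p6 : n * ε ≤ (1 / 3) ^ 5 := by
    rw [le_div_iff₀ (by positivity)] at q6
    linarith
  obtain ⟨-, w0, -, -⟩ := H₁ T F ν P Kp δ ε τ₀ S hS q1 j
  obtain ⟨-, w0', mi, -⟩ := H₁ T F ν P Kp δ ε τ₀ S hS q1 (j + 1)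
  obtain ⟨sl, cy, -⟩ := H₂ T F ν P Kp δ ε τ₀ S hS q2 j
  obtain ⟨ta, tb⟩ := H₃ T F ν P Kp δ ε τ₀ S hS q3 j
  obtain ⟨ta', tb'⟩ := H₃ T F ν P Kp δ ε τ₀ S hS q3 (j + 1)
  clear H₁ H₂ H₃ q5 q6
  -- numbers
  have hh0 := S.h_pos j
  have hh0' := S.h_pos (j + 1)
  have hh1 : S.h j < 1 := ((S.h_le j).trans q4).trans_lt hε₄1
  have hsucc : S.h (j + 1) ≤ S.h j := by
    refine (S.h_succ j).trans ?_
    calc S.h j ^ (1 + X.c) ≤ S.h j ^ (1:ℝ) :=
          Real.rpow_le_rpow_of_exponent_ge hh0 hh1.le (by linarith)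
      _ = S.h j := Real.rpow_one _
  have hr0 := S.r_pos j
  have hr0' := S.r_pos (j + 1)
  obtain ⟨n1, n2, n3, n4, n5, n6, ⟨n7, n8⟩, n9⟩ := H₄ (S.h j) (S.h (j + 1)) (S.r j) (S.r (j + 1))
    hh0 ((S.h_le j).trans q4) hh0' hsucc hr0 (S.nxt j).r_ge (S.nxt j).r_le
  clear H₄
  have hr3 : S.r j ≤ 3 / 16 := by
    have := S.r_anti hε1 (Nat.zero_le j)
    rwa [S.r_zero] at this
  have hrr := (S.nxt j).r_le
  have hrle : S.r (j + 1) ≤ S.r j := by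
    have := mul_pos hr0 (n1.trans_le n2)
    linarith
  have hrθ' : 0 < S.r (j + 1) * th (S.h (j + 1)) := mul_pos hr0' n1
  have sm := (S.refe (j + 1)).smooth
  have sm' := (S.refe (j + 2)).smooth
  have gl : ∀ k ≤ 2, ∀ y, ‖iteratedFDeriv ℝ k (fun y => wr S (j + 1) y - wr S j y) y‖ ≤
      n * (S.r (j + 1) * (S.r (j + 1))⁻¹ ^ k * S.h (j + 1) ^ (1 / 2 - X.e)) := fun k hk y =>
    lift_diff F sm sm' fun a => (S.nxt (j + 1)).size a k (by unfold sW; omega) _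
  have ga : ∀ k ≤ 2, ∀ y, T.starProjection y ∈ ball (0:E)
      (S.r (j + 1) * (1 - 17 / 2 * th (S.h (j + 1)))) →
      ‖iteratedFDeriv ℝ k (fun y => wr S (j + 1) y - wr S j y) y‖ ≤
      n * (S.r (j + 1) * (S.r (j + 1))⁻¹ ^ k * S.h j ^ (1 / 2 + 2 * X.c)) := by
    intro k hk y hy
    have hx : ‖F.xc y‖ < S.r (j + 1) * (1 - 8 * th (S.h (j + 1))) := by
      rw [norm_xc]
      rw [mem_ball_zero_iff] at hy
      linarith
    exact lift_diff F sm sm' fun a => S.acc j a k (by omega) _ hx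
  have ad : ∀ h₁, 0 < h₁ → h₁ ≤ 1 / 16 → Adm T (wr S j) η (1 / 3) h₁ := fun h₁ h0 h1 =>
    adm_third F (S.refe (j + 1)) hη hεp.le p5 p6 h0 h1
  have ad' : ∀ h₁, 0 < h₁ → h₁ ≤ 1 / 16 → Adm T (wr S (j + 1)) η (1 / 3) h₁ := fun h₁ h0 h1 =>
    adm_third F (S.refe (j + 2)) hη hεp.le p5 p6 h0 h1
  have hloc := (hS.loc.int (3 / 8) (by norm_num) le_rfl).cyl
  have hexp : S.h (j + 1) ^ (1 / 2 + 2 * X.c) ≤ S.h j ^ (1 / 2 + 2 * X.c) :=
    Real.rpow_le_rpow hh0'.le hsucc (by linarith)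
  have hexp' : S.h (j + 1) ^ (1 / 2 + 2 * X.c) ≤ S.h (j + 1) ^ (1 / 2 - X.e) :=
    Real.rpow_le_rpow_of_exponent_ge hh0' (hsucc.trans hh1.le) (by linarith)
  have hw0 : wr S j 0 = wr S (j + 1) 0 := by rw [w0, w0']
  have hp1 : 0 ≤ S.h j ^ (1 / 2 + 2 * X.c) := Real.rpow_nonneg hh0.le _
  have hp2 : 0 ≤ S.h (j + 1) ^ (1 / 2 - X.e) := Real.rpow_nonneg hh0'.le _
  have hp4 : 0 ≤ S.h j ^ (2 / 5 : ℝ) := Real.rpow_nonneg hh0.le _
  have hacc : ∀ y, ‖wr S (j + 1) y - wr S j y‖ ≤ S.r j * S.h j ^ (2 / 5 : ℝ) := by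
    intro y
    have f2 := gl 0 (by norm_num) y
    rw [norm_iteratedFDeriv_zero, pow_zero, mul_one] at f2
    refine f2.trans ?_
    calc (n : ℝ) * (S.r (j + 1) * S.h (j + 1) ^ (1 / 2 - X.e))
        = S.r (j + 1) * (n * S.h (j + 1) ^ (1 / 2 - X.e)) := by ring
      _ ≤ S.r j * S.h j ^ (2 / 5 : ℝ) :=
        mul_le_mul hrle (le_trans (by linarith) n9) (by positivity) hr0.le
  have main := fun (τ : ℝ) => pair_final (τ := τ) ad ad' hw0 hr0 hr0' hr3 hrr n1 n2 n3 n4 n5 hp4 sl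
    hacc hloc cy
  have mi' : MinimalOver T (wr S (j + 1))
      (ball 0 (S.r (j + 1) * (1 - 17 / 2 * th (S.h (j + 1))))) := by
    intro y hy
    exact mi y (ball_subset_ball (by linarith) hy)
  by_cases h4 : S.h j ^ 4 ≤ S.h (j + 1)
  · obtain ⟨m1, m2, m3⟩ := n6 h4
    have hτ0 : 0 ≤ 4 * (n + 1 : ℝ) * S.h j ^ (1 / 2 + 2 * X.c) := by positivity
    refine ⟨4 * (n + 1 : ℝ) * S.h j ^ (1 / 2 + 2 * X.c), main _ hτ0 m1 ?_ ?_ ?_, mi', n4, m2,
      Or.inl ⟨h4, rfl, m3⟩⟩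
    · intro y hy k hk
      refine (ga k hk y hy).trans ?_
      have hpos : 0 ≤ S.r (j + 1) * (S.r (j + 1))⁻¹ ^ k := by positivity
      calc _ = (S.r (j + 1) * (S.r (j + 1))⁻¹ ^ k) * (n * S.h j ^ (1 / 2 + 2 * X.c)) := by ring
        _ ≤ _ := mul_le_mul_of_nonneg_left (by linarith [mul_nonneg hn hp1]) hpos
    · linarith [mul_nonneg hn hp1]
    · have := mul_le_mul_of_nonneg_left hexp hn
      linarith [mul_nonneg hn hp1]
  · rw [not_le] at h4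
    have hτ0 : 0 ≤ 4 * (n + 1 : ℝ) * S.h (j + 1) ^ (1 / 2 - X.e) := by positivity
    refine ⟨4 * (n + 1 : ℝ) * S.h (j + 1) ^ (1 / 2 - X.e), main _ hτ0 n7 ?_ ?_ ?_, mi', n4, n8,
      Or.inr ⟨h4, rfl⟩⟩
    · intro y hy k hk
      refine (gl k hk y).trans ?_
      have hpos : 0 ≤ S.r (j + 1) * (S.r (j + 1))⁻¹ ^ k := by positivity
      calc _ = (S.r (j + 1) * (S.r (j + 1))⁻¹ ^ k) * (n * S.h (j + 1) ^ (1 / 2 - X.e)) := by ring
        _ ≤ _ := mul_le_mul_of_nonneg_left (by linarith [mul_nonneg hn hp2]) hpos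
    · linarith [mul_nonneg hn hp2]
    · have := mul_le_mul_of_nonneg_left hexp' hn
      linarith [mul_nonneg hn hp2]

end

end Vale.Agent.P214.INST
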