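import Vale.Agent.P214.INST.Vis

/-!
# P214, block INST: `SwDat` for the chain of a good point (helper700)
-/

open Set Filter Topology MeasureTheory Metric
open scoped RealInnerProductSpace ContDiff

set_option linter.all false

namespace Vale.Agent.P214.INST

open WIN WSEQ FM

variable {m n Q : ℕ} {E : Type*} [NormedAddCommGroup E] [InnerProductSpace ℝ E]
  [FiniteDimensional ℝ E] [MeasurableSpace E] [BorelSpace E]

/-- smallness of one height, for the lower bounds -/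
structure SmV (m : ℕ) (X : Exps) (C c₀ C₀ cB h : ℝ) : Prop where
  q1 : 2 ^ m * 4 * C * (h ^ (1 / 4 : ℝ) * h ^ (1 - X.e)) ≤ h ^ (1 + X.c)
  q2 : c₀ * h ≤ cB * th h ^ (m + 2)
  q3 : ∀ ρ : ℝ, 0 < ρ → ρ ≤ h ^ (1 / 4 : ℝ) →
    120 * ρ * ((m + 8) * Real.log ρ⁻¹) ^ 6 ≤ 1 ∧ ρ ≤ cB
  q4 : C₀ * h ^ (1 + X.c) ≤ 1 / 2

lemma exists_smV (m : ℕ) (X : Exps) (C : ℝ) {c₀ C₀ cB : ℝ} (hc₀ : 0 < c₀) (hC₀ : 1 ≤ C₀)
    (hcB : 0 < cB) (hX : X.OK m) :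
    ∃ b : ℝ, 0 < b ∧ b ≤ 1 ∧ ∀ h : ℝ, 0 < h → h ≤ b → SmV m X C c₀ C₀ cB h := by
  have hc := hX.c_pos
  have hc1 := hX.c_le
  have he := hX.e_le
  have he0 := hX.e_pos
  have a1 := ev_small (δ := 1 / 8) (by norm_num) 0
    (η := 1 / (2 ^ m * 4 * |C| + 1)) (by positivity)
  have a2 := ev_small (δ := 1) (by norm_num) (m + 2) (η := cB / c₀) (by positivity)
  have a4 := ev_small (δ := 1) (by norm_num) 0 (η := 1 / (2 * C₀)) (by positivity)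
  -- the numbers `ρ`
  have a3 : ∀ᶠ ρ in 𝓝[>] (0:ℝ), 120 * ρ * ((m + 8) * Real.log ρ⁻¹) ^ 6 ≤ 1 ∧ ρ ≤ cB := by
    have h1 : Tendsto (fun ρ : ℝ => 120 * ((m:ℝ) + 8) ^ 6 * (ρ ^ (1:ℝ) * (Real.log ρ⁻¹) ^ 6))
        (𝓝[>] 0) (𝓝 (120 * ((m:ℝ) + 8) ^ 6 * 0)) :=
      (tendsto_rpow_div 1 one_pos 6).const_mul _
    rw [mul_zero] at h1
    filter_upwards [h1.eventually (gt_mem_nhds one_pos), Ioo_mem_nhdsGT hcB] with ρ h2 h3
    refine ⟨?_, h3.2.le⟩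
    rw [Real.rpow_one] at h2
    calc 120 * ρ * ((m + 8) * Real.log ρ⁻¹) ^ 6 =
          120 * ((m:ℝ) + 8) ^ 6 * (ρ * (Real.log ρ⁻¹) ^ 6) := by ring
      _ ≤ 1 := h2.le
  rw [eventually_nhdsWithin_iff, Metric.eventually_nhds_iff] at a3
  obtain ⟨ρ₀, hρ₀, a3⟩ := a3
  have a5 : ∀ᶠ h in 𝓝[>] (0:ℝ), h ^ (1 / 4 : ℝ) < ρ₀ := by
    have h1 : Tendsto (fun h : ℝ => h ^ (1 / 4 : ℝ) * Real.log h⁻¹ ^ 0) (𝓝[>] 0) (𝓝 0) :=
      tendsto_rpow_div (1 / 4) (by norm_num) 0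
    simp only [pow_zero, mul_one] at h1
    exact h1.eventually (gt_mem_nhds hρ₀)
  have a6 : ∀ᶠ h in 𝓝[>] (0:ℝ), h ≤ 1 := by
    filter_upwards [Ioo_mem_nhdsGT (show (0:ℝ) < 1 by norm_num)] with h hh using hh.2.le
  have key : ∀ᶠ h in 𝓝[>] (0:ℝ), SmV m X C c₀ C₀ cB h := by
    filter_upwards [a1, a2, a4, a5, a6, self_mem_nhdsWithin] with h b1 b2 b4 b5 b6 hpos
    have hp : (0:ℝ) < h := hpos
    refine ⟨?_, ?_, fun ρ h0 h1 => a3 (by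
      rw [dist_zero_right, Real.norm_eq_abs, abs_of_pos h0]
      exact h1.trans_lt b5) h0, ?_⟩
    · rw [pow_zero, mul_one] at b1
      have e1 : h ^ (1 / 4 : ℝ) * h ^ (1 - X.e) = h ^ (5 / 4 - X.e) := by
        rw [← Real.rpow_add hp]; congr 1; ring
      have e2 : h ^ (5 / 4 - X.e) ≤ h ^ ((1 / 8 : ℝ) + (1 + X.c)) :=
        Real.rpow_le_rpow_of_exponent_ge hp b6 (by linarith)
      rw [Real.rpow_add hp] at e2
      rw [e1]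
      have hp2 : 0 < h ^ (1 + X.c) := Real.rpow_pos_of_pos hp _
      have hp3 : 0 < h ^ (5 / 4 - X.e) := Real.rpow_pos_of_pos hp _
      calc 2 ^ m * 4 * C * h ^ (5 / 4 - X.e) ≤ (2 ^ m * 4 * |C| + 1) * h ^ (5 / 4 - X.e) := by
            have : 2 ^ m * 4 * C ≤ 2 ^ m * 4 * |C| := by
              have := le_abs_self C
              gcongr
            nlinarith
        _ ≤ (2 ^ m * 4 * |C| + 1) * (h ^ (1 / 8 : ℝ) * h ^ (1 + X.c)) := by gcongr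
        _ ≤ (2 ^ m * 4 * |C| + 1) * (1 / (2 ^ m * 4 * |C| + 1) * h ^ (1 + X.c)) := by gcongr
        _ = h ^ (1 + X.c) := by field_simp
    · rw [Real.rpow_one] at b2
      have e1 : thI h = th h := rfl
      rw [e1] at b2
      calc c₀ * h ≤ c₀ * (cB / c₀ * th h ^ (m + 2)) := by gcongr
        _ = _ := by field_simp
    · rw [Real.rpow_one, pow_zero, mul_one] at b4
      have : h ^ (1 + X.c) ≤ h := by
        calc h ^ (1 + X.c) ≤ h ^ (1:ℝ) :=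
              Real.rpow_le_rpow_of_exponent_ge hp b6 (by linarith)
          _ = h := Real.rpow_one _
      calc C₀ * h ^ (1 + X.c) ≤ C₀ * (1 / (2 * C₀)) := by
            gcongr
            exact this.trans b4
        _ = 1 / 2 := by field_simp
  rw [eventually_nhdsWithin_iff, Metric.eventually_nhds_iff] at key
  obtain ⟨ε, hε, h⟩ := key
  refine ⟨min (ε / 2) 1, by positivity, min_le_right _ _, fun x hx hxε => h ?_ hx⟩
  rw [dist_zero_right, Real.norm_eq_abs, abs_of_pos hx]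
  linarith [min_le_left (ε / 2) 1]

variable {T : Submodule ℝ E} {F : Frame m n T} {ν : Measure E} {P : E → E →L[ℝ] E} {Kp : Set E}
  {δ : ℝ → ℝ} {X : Exps} {C C₅ ε : ℝ}
variable {S : WSeq m n Q T F ν P Kp δ X C C₅ ε} {j : ℕ} {η t d B : ℝ} {k k' K : ℝ → ℝ}

/-- division by the square of the radius -/
lemma div_sq_ge {R y a H : ℝ} (hR : 0 < R) (hy : R ≤ y) (hy2 : y ≤ 2 * R) (ha : 0 ≤ a)
    (h : R ^ 2 * a ≤ H) : a / 4 ≤ H / y ^ 2 := by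
  have hy0 : 0 < y := hR.trans_le hy
  rw [le_div_iff₀ (by positivity)]
  calc a / 4 * y ^ 2 ≤ a / 4 * (2 * R) ^ 2 := by gcongr
    _ = R ^ 2 * a := by ring
    _ ≤ H := h

/-- case B, real analysis -/
lemma caseB_real {f : ℝ → ℝ} {R T₁ θ θ' h h' ρ c c₀ A cB : ℝ} {m : ℕ} (hR : 0 < R)
    (hmid : ∀ Y b, R ≤ Y → Y ≤ R * (1 + θ) → b ≤ f Y → b ≤ A →
      ∃ y, T₁ ≤ y ∧ y ≤ Y ∧ b ≤ f y ∧ f y ≤ A)
    (hh : 0 < h) (hh1 : h ≤ 1) (hc1 : c ≤ 1) (hcB : 0 < cB) (hA : h ^ (1 + c) ≤ A)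
    (hA2 : A ≤ 1 / 2) (hθ'0 : 0 < θ')
    (hρ0 : 0 < ρ) (hρ1 : ρ ≤ h ^ (1 / 4 : ℝ)) (hρ2 : θ' ≤ ρ) (hq : h ^ (1 / 4 : ℝ) ≤ 1 / 16 * θ)
    (hρ3 : ρ ≤ 1 / 16) (q3a : 120 * ρ * ((m + 8) * Real.log ρ⁻¹) ^ 6 ≤ 1) (q3b : ρ ≤ cB)
    (q2 : c₀ * h' ≤ cB * θ' ^ (m + 2)) (hBA : c₀ * θ' ^ 3 * h' ≤ A)
    (h3 : cB * ρ ^ (m + 5) ≤ f (R * (1 + 4 * ρ))) :
    ∃ y, T₁ ≤ y ∧ y ≤ R * (1 + θ) ∧ 30 * (y / R - 1) ≤ ((Real.log (f y)⁻¹)⁻¹) ^ 6 ∧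
      c₀ * θ' ^ 3 * h' ≤ f y ∧ f y ≤ A := by
  have h4ρ : 4 * ρ ≤ θ := by linarith
  -- level
  obtain ⟨y, y1, y2, y3, y4⟩ := hmid (R * (1 + 4 * ρ)) (min (cB * ρ ^ (m + 5)) A)
    (by nlinarith) (by gcongr) ((min_le_left _ _).trans h3) (min_le_right _ _)
  -- the level is at least a power of `ρ`
  have hbρ : ρ ^ (m + 8) ≤ min (cB * ρ ^ (m + 5)) A := by
    refine le_min ?_ ?_
    · calc ρ ^ (m + 8) = ρ ^ 2 * (ρ * ρ ^ (m + 5)) := by ring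
        _ ≤ 1 * (cB * ρ ^ (m + 5)) := by
            gcongr
            exact pow_le_one₀ hρ0.le (by linarith)
        _ = _ := one_mul _
    · have e1 : ρ ^ 4 ≤ h := by
        calc ρ ^ 4 ≤ (h ^ (1 / 4 : ℝ)) ^ 4 := by gcongr
          _ = h := by
              rw [← Real.rpow_natCast, ← Real.rpow_mul hh.le]; norm_num
      have e2 : h ^ (2:ℕ) ≤ h ^ (1 + c) := by
        rw [← Real.rpow_natCast]
        exact Real.rpow_le_rpow_of_exponent_ge hh hh1 (by push_cast; linarith)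
      calc ρ ^ (m + 8) = ρ ^ m * (ρ ^ 4) ^ 2 := by ring
        _ ≤ 1 * h ^ 2 := by
            gcongr
            exact pow_le_one₀ hρ0.le (by linarith)
        _ = h ^ 2 := one_mul _
        _ ≤ A := e2.trans hA
  have hbθ : c₀ * θ' ^ 3 * h' ≤ min (cB * ρ ^ (m + 5)) A := by
    refine le_min ?_ hBA
    calc c₀ * θ' ^ 3 * h' = θ' ^ 3 * (c₀ * h') := by ring
      _ ≤ θ' ^ 3 * (cB * θ' ^ (m + 2)) := by gcongr
      _ = cB * θ' ^ (m + 5) := by ring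
      _ ≤ _ := by gcongr
  refine ⟨y, y1, y2.trans (by gcongr), ?_, hbθ.trans y3, y4⟩
  -- the adaptive collar
  have hρp : ρ ^ (m + 8) ≤ f y := hbρ.trans y3
  generalize f y = p at *
  have hp0 : 0 < p := lt_of_lt_of_le (pow_pos hρ0 _) hρp
  have hp1 : p ≤ 1 / 2 := y4.trans hA2
  have hlog : Real.log p⁻¹ ≤ (m + 8) * Real.log ρ⁻¹ := by
    have h5 : Real.log p⁻¹ ≤ Real.log (ρ ^ (m + 8))⁻¹ :=
      Real.log_le_log (inv_pos.2 hp0) (inv_anti₀ (pow_pos hρ0 _) hρp)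
    rw [← inv_pow, Real.log_pow] at h5
    push_cast at h5
    exact h5
  have hlog0 : 0 < Real.log p⁻¹ := Real.log_pos (by
    rw [one_lt_inv₀ hp0]; linarith)
  have h6 : (((m:ℝ) + 8) * Real.log ρ⁻¹)⁻¹ ^ 6 ≤ ((Real.log p⁻¹)⁻¹) ^ 6 :=
    pow_le_pow_left₀ (inv_nonneg.2 (hlog0.le.trans hlog)) (inv_anti₀ hlog0 hlog) 6
  refine le_trans ?_ h6
  have h7 : 0 < ((m:ℝ) + 8) * Real.log ρ⁻¹ := hlog0.trans_le hlog
  have h8 : y / R ≤ 1 + 4 * ρ := by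
    rw [div_le_iff₀ hR]; linarith
  rw [inv_pow]
  calc 30 * (y / R - 1) ≤ 120 * ρ := by linarith
    _ = 120 * ρ * ((m + 8) * Real.log ρ⁻¹) ^ 6 * (((m + 8) * Real.log ρ⁻¹) ^ 6)⁻¹ := by
        rw [mul_assoc, mul_inv_cancel₀ (pow_pos h7 6).ne', mul_one]
    _ ≤ 1 * (((m + 8) * Real.log ρ⁻¹) ^ 6)⁻¹ := by gcongr
    _ = _ := one_mul _

/-- case A, real analysis -/
lemma caseA_real {f : ℝ → ℝ} {R T₁ θ θ' h' c c₀ A C₁ : ℝ} (hR : 0 < R)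
    (hmid : ∀ Y b, R ≤ Y → Y ≤ R * (1 + θ) → b ≤ f Y → b ≤ A →
      ∃ y, T₁ ≤ y ∧ y ≤ Y ∧ b ≤ f y ∧ f y ≤ A)
    (hA2 : A ≤ 1 / 2) (hθ'0 : 0 < θ') (hθθ : θ' ≤ θ) (hc : 0 < c) (hc₀ : 0 < c₀)
    (hS' : Sm c C₁ c₀ h') (hθ' : θ' = thI h') (hBA : c₀ * θ' ^ 3 * h' ≤ A)
    (h3 : c₀ * θ' ^ 3 * h' ≤ f (R * (1 + θ'))) :
    ∃ y, T₁ ≤ y ∧ y ≤ R * (1 + θ) ∧ 30 * (y / R - 1) ≤ ((Real.log (f y)⁻¹)⁻¹) ^ 6 ∧
      c₀ * θ' ^ 3 * h' ≤ f y ∧ f y ≤ A := by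
  have hh' := hS'.pos
  obtain ⟨y, y1, y2, y3, y4⟩ := hmid _ _ (by nlinarith) (by gcongr) h3 hBA
  refine ⟨y, y1, y2.trans (by gcongr), ?_, y3, y4⟩
  have h6 : y / R ≤ 1 + θ' := by
    rw [div_le_iff₀ hR]; linarith
  have h7 := hS'.collar (p := f y) (hS'.s7.trans (le_trans ?_ y3)) (y4.trans hA2)
  · rw [← hθ'] at h7
    linarith
  · rw [← hθ']
    have h8 : h' ^ (1 + c) ≤ h' := by
      calc h' ^ (1 + c) ≤ h' ^ (1:ℝ) :=
            Real.rpow_le_rpow_of_exponent_ge hh' hS'.le_one (by linarith)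
        _ = _ := Real.rpow_one _
    gcongr

/-- a stray support point gives a lower bound -/
lemma Wd.stray_point (W : Wd S η j) (H : End S j) (hkb : ODEW.KB k k' K B)
    (hk3 : ∀ s, 0 ≤ s → s ≤ 1 → (1 - s) ^ 3 ≤ k s) {δ' H' : ℝ}
    (hI : Skel.IntCyl m Q T 0 (3 / 8) H' δ' ν P)
    (hA : ¬ ∀ᵐ y ∂ν, ‖T.starProjection y‖ < S.r (j + 1) →
      ‖FV.co T y - wr S j y‖ ≤ th (S.h (j + 1)) * S.r (j + 1)) :
    ∃ ρ, 0 < ρ ∧ ρ ≤ S.h j ^ (1 / 4 : ℝ) ∧ th (S.h (j + 1)) ≤ ρ ∧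
      cg m * (8 ^ m)⁻¹ / 4 * ρ ^ (m + 5) ≤
        Hw m T ν k (tube S j) (wr S j) (S.r (j + 1) * (1 + 4 * ρ)) /
          (S.r (j + 1) * (1 + 4 * ρ)) ^ 2 := by
  have N := W.num
  have N' := H.num'
  have hr := N'.rpos
  have hθ' := N'.th_pos
  have hθ := N.th_pos
  have hfreq : ∃ᶠ y in ae ν, ¬(‖T.starProjection y‖ < S.r (j + 1) →
    ‖FV.co T y - wr S j y‖ ≤ th (S.h (j + 1)) * S.r (j + 1)) := not_eventually.1 hA
  have hsp : ∀ᵐ y ∂ν, y ∈ ν.support := Measure.support_mem_ae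
  obtain ⟨y₀, hy₀, hys, hysup⟩ := (hfreq.and_eventually (hsp.and W.sup)).exists
  simp only [Classical.not_imp, not_le] at hy₀
  obtain ⟨hy1, hy2⟩ := hy₀
  have hrj : S.r (j + 1) ≤ S.r j * (1 - 17 / 2 * th (S.h j)) := by
    refine H.r_le.trans ?_
    nlinarith [mul_pos N.rpos hθ]
  have h1 := hysup (mem_ball_zero_iff.2 (hy1.trans_le hrj))
  obtain ⟨a, ha⟩ : ∃ a, a = ‖FV.co T y₀ - wr S j y₀‖ := ⟨_, rfl⟩
  rw [← ha] at hy2 h1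
  have ha0 : 0 < a := lt_trans (by positivity) hy2
  have ha1 : a ≤ S.r (j + 1) * S.h j ^ (1 / 4 : ℝ) := h1.trans (W.disp_end H)
  have h2 := W.low_B H hkb hk3 hI hys hy1 ha ha0 ha1
  have hρ0 : 0 < a / S.r (j + 1) := by positivity
  have hρ1 : a / S.r (j + 1) ≤ S.h j ^ (1 / 4 : ℝ) := by
    rw [div_le_iff₀ hr]; linarith
  have hρ2 : th (S.h (j + 1)) ≤ a / S.r (j + 1) := by
    rw [le_div_iff₀ hr]; exact hy2.le
  have hq : S.h j ^ (1 / 4 : ℝ) ≤ 1 / 16 * th (S.h j) := N.quart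
  have hYe : S.r (j + 1) + 4 * a = S.r (j + 1) * (1 + 4 * (a / S.r (j + 1))) := by
    field_simp
  rw [hYe] at h2
  refine ⟨a / S.r (j + 1), hρ0, hρ1, hρ2, ?_⟩
  have hρ3 : a / S.r (j + 1) ≤ 1 / 16 := by linarith [N.th_le]
  have hcg := cg_pos m
  have h3 := div_sq_ge hr (y := S.r (j + 1) * (1 + 4 * (a / S.r (j + 1)))) (by nlinarith)
    (by nlinarith) (by positivity) h2
  refine le_trans (le_of_eq ?_) h3
  ring

/-- **the lower bound by the next height** -/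
theorem Wd.low {c₀ C₀ cB : ℝ} (W : Wd S η j) (H : End S j) (hkb : ODEW.KB k k' K B)
    (hk3 : ∀ s, 0 ≤ s → s ≤ 1 → (1 - s) ^ 3 ≤ k s) {δ' H' : ℝ}
    (hI : Skel.IntCyl m Q T 0 (3 / 8) H' δ' ν P) (hc : 0 < X.c) (hc1 : X.c ≤ 1)
    (hθθ : th (S.h (j + 1)) ≤ th (S.h j)) (hnext : S.h (j + 1) ≤ S.h j ^ (1 + X.c))
    (V : SmV m X C c₀ C₀ cB (S.h j)) (V' : SmV m X C c₀ C₀ cB (S.h (j + 1)))
    (hc₀ : 0 < c₀) (hc₀1 : c₀ ≤ (512 * 2 ^ m)⁻¹) (hC₀ : 1 ≤ C₀) (hcB : cB = cg m * (8 ^ m)⁻¹ / 4)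
    (hS' : Sm X.c (max C₀ c₀) c₀ (S.h (j + 1)))
    (hcont : ContinuousOn (fun t => Hw m T ν k (tube S j) (wr S j) t / t ^ 2)
      (Icc (Tr S (j + 1)) (Tr S j)))
    (hup : Hw m T ν k (tube S j) (wr S j) (Tr S (j + 1)) / Tr S (j + 1) ^ 2 ≤
      C₀ * S.h j ^ (1 + X.c)) :
    ∃ y, Tr S (j + 1) ≤ y ∧ y ≤ S.r (j + 1) * (1 + th (S.h j)) ∧
      30 * (y / S.r (j + 1) - 1) ≤
        ((Real.log (Hw m T ν k (tube S j) (wr S j) y / y ^ 2)⁻¹)⁻¹) ^ 6 ∧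
      c₀ * th (S.h (j + 1)) ^ 3 * S.h (j + 1) ≤ Hw m T ν k (tube S j) (wr S j) y / y ^ 2 ∧
      Hw m T ν k (tube S j) (wr S j) y / y ^ 2 ≤ C₀ * S.h j ^ (1 + X.c) := by
  have N := W.num
  have N' := H.num'
  have hr := N'.rpos
  have hθ' := N'.th_pos
  have hθ1' := N'.th_le
  have hθ := N.th_pos
  have hθ1 := N.th_le
  have hh' := N'.hpos
  have hh := N.hpos
  have hpw : 0 < S.h j ^ (1 + X.c) := Real.rpow_pos_of_pos hh _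
  have hTR : Tr S (j + 1) ≤ S.r (j + 1) := by
    unfold Tr; nlinarith
  have hRT : S.r (j + 1) * (1 + th (S.h j)) ≤ Tr S j := by
    refine (W.r_le_end H).trans ?_
    unfold Tr
    nlinarith [mul_pos N.rpos hθ]
  have hc₀2 : c₀ ≤ 1 := hc₀1.trans (inv_le_one_of_one_le₀ (by
    have : (1:ℝ) ≤ 2 ^ m := one_le_pow₀ (by norm_num)
    linarith))
  have hθ3 : th (S.h (j + 1)) ^ 3 ≤ 1 := pow_le_one₀ hθ'.le (by linarith)
  -- the lower number is below the upper number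
  have hBA : c₀ * th (S.h (j + 1)) ^ 3 * S.h (j + 1) ≤ C₀ * S.h j ^ (1 + X.c) := by
    calc c₀ * th (S.h (j + 1)) ^ 3 * S.h (j + 1) ≤ 1 * 1 * S.h j ^ (1 + X.c) := by gcongr
      _ ≤ _ := by nlinarith
  -- a mid point at the radius `Y`
  have hmid : ∀ Y b, S.r (j + 1) ≤ Y → Y ≤ S.r (j + 1) * (1 + th (S.h j)) →
      b ≤ Hw m T ν k (tube S j) (wr S j) Y / Y ^ 2 → b ≤ C₀ * S.h j ^ (1 + X.c) →
      ∃ y, Tr S (j + 1) ≤ y ∧ y ≤ Y ∧ b ≤ Hw m T ν k (tube S j) (wr S j) y / y ^ 2 ∧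
        Hw m T ν k (tube S j) (wr S j) y / y ^ 2 ≤ C₀ * S.h j ^ (1 + X.c) := by
    intro Y b h1 h2 h3 h4
    obtain ⟨y, hy, a1, a2⟩ := exists_mid (f := fun t => Hw m T ν k (tube S j) (wr S j) t / t ^ 2)
      (hTR.trans h1) (hcont.mono (Icc_subset_Icc le_rfl (h2.trans hRT))) hup h3 h4
    exact ⟨y, hy.1, hy.2, a1, a2⟩
  by_cases hA : ∀ᵐ y ∂ν, ‖T.starProjection y‖ < S.r (j + 1) →
      ‖FV.co T y - wr S j y‖ ≤ th (S.h (j + 1)) * S.r (j + 1)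
  · -- case A
    have h1 := W.low_A H hkb hk3 hθθ hA
    have h2 := div_sq_ge hr (y := S.r (j + 1) * (1 + th (S.h (j + 1)))) (by nlinarith)
      (by nlinarith) (by positivity) h1
    refine caseA_real hr hmid V.q4 hθ' hθθ hc hc₀ hS' rfl hBA (le_trans ?_ h2)
    have h5 : c₀ ≤ (16 * 2 ^ m)⁻¹ / 4 := by
      refine hc₀1.trans ?_
      rw [mul_inv, mul_inv]
      have : 0 < ((2:ℝ) ^ m)⁻¹ := by positivity
      nlinarith
    calc c₀ * th (S.h (j + 1)) ^ 3 * S.h (j + 1) ≤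
          ((16 * 2 ^ m)⁻¹ / 4) * th (S.h (j + 1)) ^ 3 * S.h (j + 1) := by gcongr
      _ = _ := by ring
  · -- case B
    obtain ⟨ρ, hρ0, hρ1, hρ2, h3⟩ := W.stray_point H hkb hk3 hI hA
    obtain ⟨q3a, q3b⟩ := V.q3 ρ hρ0 hρ1
    have hcB0 : 0 < cB := by rw [hcB]; have := cg_pos m; positivity
    rw [← hcB] at h3
    exact caseB_real (c := X.c) hr hmid hh W.h_le_one hc1 hcB0 (by nlinarith) V.q4 hθ' hρ0 hρ1
      hρ2 N.quart (by linarith [N.quart]) q3a q3b V'.q2 hBA h3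

/-- upper bound at the switch radius, final form -/
lemma Wd.up {c₀ C₀ cB : ℝ} (W : Wd S η j) (H : End S j) (hkb : ODEW.KB k k' K B)
    (hC : 0 ≤ C) (V : SmV m X C c₀ C₀ cB (S.h j)) (hC₀ : 2 ^ m * 16 * B ≤ C₀) :
    Hw m T ν k (tube S j) (wr S j) (Tr S (j + 1)) / Tr S (j + 1) ^ 2 ≤
      C₀ * S.h j ^ (1 + X.c) := by
  have h1 := W.up_sw H hkb hC (e := X.e) (S.nxt j).top
  have N' := H.num'
  have hT : 0 < Tr S (j + 1) := mul_pos N'.rpos (by linarith [N'.th_le])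
  rw [div_le_iff₀ (by positivity)]
  refine h1.trans ?_
  have h2 : S.h (j + 1) ≤ S.h j ^ (1 + X.c) := S.h_succ j
  have h3 := V.q1
  have hB := hkb.one
  have hp : 0 < S.h j ^ (1 + X.c) := Real.rpow_pos_of_pos W.num.hpos _
  calc Tr S (j + 1) ^ 2 * (2 ^ m * 8 * B * (S.h (j + 1) +
        2 ^ m * 4 * C * (S.h j ^ (1 / 4 : ℝ) * S.h j ^ (1 - X.e)))) ≤
      Tr S (j + 1) ^ 2 * (2 ^ m * 8 * B * (S.h j ^ (1 + X.c) + S.h j ^ (1 + X.c))) := by gcongr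
    _ = Tr S (j + 1) ^ 2 * ((2 ^ m * 16 * B) * S.h j ^ (1 + X.c)) := by ring
    _ ≤ Tr S (j + 1) ^ 2 * (C₀ * S.h j ^ (1 + X.c)) := by gcongr
    _ = _ := by ring

/-- lower bound above the switch radius of a non-tiny window, final form -/
lemma Wd.fat {c₀ : ℝ} (W : Wd S η j) (H : End S j) (hkb : ODEW.KB k k' K B)
    (hk3 : ∀ s, 0 ≤ s → s ≤ 1 → (1 - s) ^ 3 ≤ k s) (hc₀1 : c₀ ≤ (512 * 2 ^ m)⁻¹)
    (hfat : S.r (j + 1) < S.r j * (1 - 12 * th (S.h j))) :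
    c₀ * th (S.h j) ^ 3 * S.h j ^ (1 + X.c) ≤
      Hw m T ν k (tube S j) (wr S j) (S.r (j + 1) * (1 + th (S.h j))) /
        (S.r (j + 1) * (1 + th (S.h j))) ^ 2 := by
  have h1 := W.low_fat H hkb hk3 hfat
  have hr := H.num'.rpos
  have hθ := W.num.th_pos
  have hθ1 := W.num.th_le
  have hp : 0 < S.h j ^ (1 + X.c) := Real.rpow_pos_of_pos W.num.hpos _
  have h2 := div_sq_ge hr (y := S.r (j + 1) * (1 + th (S.h j))) (by nlinarith)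
    (by nlinarith) (by positivity) h1
  refine le_trans ?_ h2
  have h5 : c₀ ≤ (128 * 2 ^ m)⁻¹ / 4 := by
    refine hc₀1.trans (le_of_eq ?_)
    rw [mul_inv, mul_inv]; ring
  calc c₀ * th (S.h j) ^ 3 * S.h j ^ (1 + X.c) ≤
        ((128 * 2 ^ m)⁻¹ / 4) * th (S.h j) ^ 3 * S.h j ^ (1 + X.c) := by gcongr
    _ = _ := by ring

/-- **`SwDat` for the chain of a good point**, together with the smallness conditions -/
theorem swDat' (hk : Ker k k' K B) (hR : RefsStmt E m n Q) (hC : CylStmt E m n Q)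
    (hSoft : SoftStmt E m n Q k K) {C₀ : ℝ} (hC₀ : 2 ^ m * 16 * B ≤ C₀) :
    Ev E m n Q fun T F ν P Kp δ X C C₅ ε S =>
      (∀ j, Sm X.c (max C₀ (512 * 2 ^ m)⁻¹) (512 * 2 ^ m)⁻¹ (S.h j)) ∧
      ∀ (k₀ : ℕ) (e : ℕ → ℝ) (κ : ℝ), Fat S k₀ →
        SwDat X.c C₀ (512 * 2 ^ m)⁻¹ ε (fun i => S.r (k₀ + i)) (fun i => S.h (k₀ + i))
          (chain k K κ e S k₀).h := by
  have hB := hk.kb.one
  have h2m : (1:ℝ) ≤ 2 ^ m := one_le_pow₀ (by norm_num)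
  have hC₀1 : 1 ≤ C₀ := by nlinarith
  have hc₀ : (0:ℝ) < (512 * 2 ^ m)⁻¹ := by positivity
  have hcB : 0 < cg m * (8 ^ m)⁻¹ / 4 := by have := cg_pos m; positivity
  intro X C C₅
  by_cases hX : X.OK m
  swap
  · exact ⟨1, one_pos, fun T F ν P Kp δ ε τ S hS _ => absurd hS.ok hX⟩
  obtain ⟨a, ha, h1⟩ := ((ev_wd eps0_pos le_rfl hR hC).and hSoft) X C C₅
  obtain ⟨b, hb, hb1, h2⟩ := exists_smV m X C hc₀ hC₀1 hcB hX
  obtain ⟨d, hd, hd1, h3⟩ := exists_Sm (c := X.c) (C₁ := max C₀ (512 * 2 ^ m)⁻¹)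
    (c₀ := (512 * 2 ^ m)⁻¹) hX.c_pos hX.c_le (lt_max_of_lt_right hc₀) hc₀
  refine ⟨min a (min b d), by positivity, fun T F ν P Kp δ ε τ S hS hε => ?_⟩
  have hεa : ε ≤ a := hε.trans (min_le_left _ _)
  have hεb : ε ≤ b := hε.trans ((min_le_right _ _).trans (min_le_left _ _))
  have hεd : ε ≤ d := hε.trans ((min_le_right _ _).trans (min_le_right _ _))
  obtain ⟨⟨-, hW⟩, hsoft⟩ := h1 T F ν P Kp δ ε τ S hS hεa
  have hSm : ∀ j, Sm X.c (max C₀ (512 * 2 ^ m)⁻¹) (512 * 2 ^ m)⁻¹ (S.h j) := fun j =>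
    h3 _ (S.h_pos j) ((S.h_le j).trans hεd)
  have hV : ∀ j, SmV m X C (512 * 2 ^ m)⁻¹ C₀ (cg m * (8 ^ m)⁻¹ / 4) (S.h j) := fun j =>
    h2 _ (S.h_pos j) ((S.h_le j).trans hεb)
  have hseq := seqIn S (le_refl ε)
  have hE : ∀ j, End S j := fun j => end_of hS (hW (j + 1)).num
  have hC0 : 0 ≤ C := zero_le_one.trans hS.C_one
  refine ⟨hSm, fun k₀ e κ hf => ?_⟩
  obtain ⟨-, -, -, -, hs5, -⟩ := hsoft k₀ e κ hf
  have hcont : ∀ i, ContinuousOn (fun t => Hw m T ν k (tube S (k₀ + i)) (wr S (k₀ + i)) t / t ^ 2)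
      (Icc (Tr S (k₀ + i + 1)) (Tr S (k₀ + i))) := by
    intro i t ht
    have h4 := (hs5 i t ht).1.continuousAt
    have hT : 0 < Tr S (k₀ + i + 1) :=
      mul_pos (S.r_pos _) (by linarith [(hW (k₀ + i + 1)).num.th_le])
    have ht0 : 0 < t := hT.trans_le ht.1
    exact (h4.div (continuousAt_id.pow 2) (pow_ne_zero 2 ht0.ne')).continuousWithinAt
  exact
    { r_pos := fun i => hseq.r_pos _
      h_pos := fun i => hseq.h_pos _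
      h_le := fun i => hseq.h_le _
      h_next := fun i => hseq.h_next (k₀ + i)
      r_le := fun i => hseq.r_le (k₀ + i)
      cont := fun i => hcont i
      up := fun i => (hW (k₀ + i)).up (hE _) hk.kb hC0 (hV _) hC₀
      low := fun i => by
        have hI := hS.loc.int (3 / 8) (by norm_num) le_rfl
        exact (hW (k₀ + i)).low (hE _) hk.kb hk.low hI hX.c_pos (by linarith [hX.c_le])
          (hseq.th_mono hX.c_pos hSm _) (S.h_succ _) (hV _) (hV _) hc₀ le_rfl hC₀1 rfl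
          (hSm _) (hcont i) ((hW (k₀ + i)).up (hE _) hk.kb hC0 (hV _) hC₀)
      low' := fun i hi => (hW (k₀ + i)).fat (hE _) hk.kb hk.low le_rfl hi }

/-- the form used by helper970 -/
theorem swDat (hk : Ker k k' K B) (hR : RefsStmt E m n Q) (hC : CylStmt E m n Q)
    (hSoft : SoftStmt E m n Q k K) :
    Ev E m n Q fun T F ν P Kp δ X C C₅ ε S => ∀ (k₀ : ℕ) (e : ℕ → ℝ) (κ : ℝ), Fat S k₀ →
        SwDat X.c (2 ^ m * 16 * B) (512 * 2 ^ m)⁻¹ ε (fun i => S.r (k₀ + i))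
          (fun i => S.h (k₀ + i)) (chain k K κ e S k₀).h :=
  (swDat' hk hR hC hSoft le_rfl).mono fun _ _ _ _ _ _ _ _ _ _ _ _ _ h => h.2

end Vale.Agent.P214.INST
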