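import Vale.Agent.P214.INTW.Win
import Vale.Agent.P214.R2.WinSk
import Vale.Agent.P214.R2.ExcBasic

/-!
# P214, block INST: the area excess is small when the planar excess and the slope are small

`area_lim`: at a scale `t` where planar excess, mass defect and slope of the reference are small,
`|∫ ψ(p y) dν - Q ∫_T ψ √g| ≤ η t^m` for all Borel `|ψ| ≤ 1` supported over `ball 0 t`.
-/

open MeasureTheory Set Filter Topology Metric
open scoped ENNReal NNReal RealInnerProductSpace ContDiff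

set_option linter.all false

namespace Vale.Agent.P214.INSTL

open Vale.Agent.P214 Vale.Agent.P214.FV Vale.Agent.P214.AREA Vale.Agent.P214.KMS
open Vale.Agent.P214.INTW

variable {E : Type*} [NormedAddCommGroup E] [InnerProductSpace ℝ E] [FiniteDimensional ℝ E]
  [MeasurableSpace E] [BorelSpace E] {m Q : ℕ} {T : Submodule ℝ E} {G : Set E} {h : ℝ}
  {ν : Measure E} {P : E → E →L[ℝ] E} {w : E → E}

/-- relative energy from the planar tilt -/
lemma ew_le_tilt {A : E →L[ℝ] E} (S : Submodule ℝ E) :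
    ew T A S.starProjection ≤ 2 * tilt T S.starProjection + 2 * ‖A‖ ^ 2 * Module.finrank ℝ S := by
  rw [← hs_co_comp, ← sum_norm_sq_star S, ew, hs, hs, Finset.mul_sum, Finset.mul_sum,
    ← Finset.sum_add_distrib]
  refine Finset.sum_le_sum fun k _ => ?_
  simp only [ContinuousLinearMap.comp_apply]
  set y := S.starProjection (stdOrthonormalBasis ℝ E k)
  have h1 : slp T A y = FV.co T y - A y := by rw [slp]; simp
  have h2 : ‖slp T A y‖ ≤ ‖FV.co T y‖ + ‖A‖ * ‖y‖ := by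
    rw [h1]
    exact (norm_sub_le _ _).trans (by gcongr; exact A.le_opNorm y)
  calc ‖slp T A y‖ ^ 2 ≤ (‖FV.co T y‖ + ‖A‖ * ‖y‖) ^ 2 := by gcongr
    _ ≤ _ := by nlinarith [sq_nonneg (‖FV.co T y‖ - ‖A‖ * ‖y‖)]

lemma sqrt_le_add {x s : ℝ} (hx : 0 ≤ x) (hs : 0 < s) : √x ≤ s + x / (4 * s) := by
  have h1 := Real.sqrt_nonneg x
  have h2 := Real.sq_sqrt hx
  rw [← sub_le_iff_le_add', le_div_iff₀ (by positivity)]
  nlinarith [sq_nonneg (√x - 2 * s)]

/-- integral bound of the error term from the planar excess -/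
lemma int_gsq_le (hC : FV.CylStat m T G h ν P) (hw : KMS.Ref T w) {C : Set E}
    (hmC : MeasurableSet C) {δ s a M : ℝ} (hδ0 : 0 < δ) (hδ1 : δ ≤ 1) (hs0 : 0 < s)
    (hDw : ∀ y ∈ C, ‖fderiv ℝ w y‖ ≤ δ) (he : ∫ y in C, tilt T (P y) ∂ν ≤ a)
    (hM : ν.real C ≤ M) :
    ∫ y in C, (gsq (rel T w) (P y) y + √(gsq (rel T w) (P y) y)) ∂ν ≤
      (1 + 1 / (4 * s)) * (2 * a + 2 * m * δ * M) + s * M := by
  haveI := hC.fin
  have hti : Integrable (fun y => tilt T (P y)) (ν.restrict C) :=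
    (R2.integrable_tilt' hC).integrableOn
  have hpt : ∀ᵐ y ∂ν, y ∈ C →
      gsq (rel T w) (P y) y + √(gsq (rel T w) (P y) y) ≤
        (1 + 1 / (4 * s)) * (2 * tilt T (P y) + 2 * m * δ) + s := by
    filter_upwards [hC.proj] with y hy hyC
    obtain ⟨L, hL, hPL⟩ := hy
    have h1 := hDw y hyC
    rw [hPL, hw.gsq_eq_ew]
    have h2 := ew_le_tilt (T := T) (A := fderiv ℝ w y) L
    rw [hL] at h2
    have h3 := ew_nonneg T (fderiv ℝ w y) L.starProjection
    have h4 : ‖fderiv ℝ w y‖ ^ 2 ≤ δ := by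
      calc ‖fderiv ℝ w y‖ ^ 2 ≤ δ ^ 2 := by gcongr
        _ ≤ δ := by nlinarith
    have h5 : ew T (fderiv ℝ w y) L.starProjection ≤
        2 * tilt T L.starProjection + 2 * m * δ := by
      refine h2.trans ?_
      have : (0:ℝ) ≤ m := by positivity
      nlinarith
    have h6 := sqrt_le_add h3 hs0
    calc _ ≤ ew T (fderiv ℝ w y) L.starProjection
          + (s + ew T (fderiv ℝ w y) L.starProjection / (4 * s)) := by gcongr
      _ = (1 + 1 / (4 * s)) * ew T (fderiv ℝ w y) L.starProjection + s := by ring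
      _ ≤ _ := by gcongr
  have i1 : Integrable (fun y => 2 * tilt T (P y)) (ν.restrict C) := hti.const_mul 2
  have i2 : Integrable (fun y => 2 * tilt T (P y) + 2 * m * δ) (ν.restrict C) :=
    i1.add (integrable_const _)
  have i3 : Integrable (fun y => (1 + 1 / (4 * s)) * (2 * tilt T (P y) + 2 * m * δ))
      (ν.restrict C) := i2.const_mul _
  have i4 : Integrable (fun y => (1 + 1 / (4 * s)) * (2 * tilt T (P y) + 2 * m * δ) + s)
      (ν.restrict C) := i3.add (integrable_const _)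
  have e3 : ∫ y in C, (gsq (rel T w) (P y) y + √(gsq (rel T w) (P y) y)) ∂ν ≤
      ∫ y in C, ((1 + 1 / (4 * s)) * (2 * tilt T (P y) + 2 * m * δ) + s) ∂ν := by
    refine integral_mono_of_nonneg ?_ i4 ?_
    · filter_upwards [ae_restrict_of_ae hC.proj] with y hy
      obtain ⟨L, hL, hPL⟩ := hy
      have h3 : 0 ≤ gsq (rel T w) (P y) y := by
        rw [hPL, hw.gsq_eq_ew]; exact ew_nonneg _ _ _
      show 0 ≤ gsq (rel T w) (P y) y + √(gsq (rel T w) (P y) y)
      positivity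
    · rw [EventuallyLE, ae_restrict_iff' hmC]
      exact hpt
  have e5 : ∫ y in C, ((1 + 1 / (4 * s)) * (2 * tilt T (P y) + 2 * m * δ) + s) ∂ν
      = (1 + 1 / (4 * s)) * (2 * ∫ y in C, tilt T (P y) ∂ν
        + 2 * m * δ * ν.real C) + s * ν.real C := by
    rw [integral_add i3 (integrable_const _), integral_const_mul,
      integral_add i1 (integrable_const _), integral_const_mul,
      integral_const, integral_const, measureReal_restrict_apply_univ, smul_eq_mul, smul_eq_mul]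
    ring
  refine e3.trans ?_
  rw [e5]
  gcongr

/-- **the area excess is small** -/
theorem area_lim (E : Type*) [NormedAddCommGroup E] [InnerProductSpace ℝ E]
    [FiniteDimensional ℝ E] [MeasurableSpace E] [BorelSpace E] (m Q : ℕ) (hm : 1 ≤ m) {η : ℝ}
    (hη : 0 < η) : ∃ δ : ℝ, 0 < δ ∧ ∀ (T : Submodule ℝ E) (h t : ℝ) (ν : Measure E)
      (P : E → E →L[ℝ] E), Skel.IntCyl m Q T 0 (8 * t) h δ ν P →
      Skel.exc T ν P 0 (8 * t) ≤ δ * (8 * t) ^ m →
      ∀ w : E → E, KMS.Ref T w → (∀ y, ‖T.starProjection y‖ < 2 * t → ‖fderiv ℝ w y‖ ≤ δ) →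
      ∀ ψ : E → ℝ, Measurable ψ → (∀ x, |ψ x| ≤ 1) → (∀ x, t ≤ ‖x‖ → ψ x = 0) →
      |∫ y, ψ (T.starProjection y) ∂ν - Q * ∫ x in (T : Set E), ψ x * FM.areaEl w x ∂μH[m]|
        ≤ η * t ^ m := by
  obtain ⟨δ₁, c, C, hδ₁, hc, hc1, hC, H⟩ := intW_win' E m Q
  obtain ⟨δ₂, hδ₂, HW⟩ := R2.win_top E m Q hm hδ₁ (c := 1 / 8) (by norm_num)
  have hom : 0 ≤ Skel.om m := ENNReal.toReal_nonneg
  -- mass bound
  obtain ⟨M, hM⟩ : ∃ M : ℝ, M = (Q * Skel.om m + 1) * 8 ^ m := ⟨_, rfl⟩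
  have hM0 : 0 < M := by rw [hM]; positivity
  -- choose `s`, then `δ`
  obtain ⟨s, hs⟩ : ∃ s : ℝ, s = η / (4 * C * M) := ⟨_, rfl⟩
  have hs0 : 0 < s := by rw [hs]; positivity
  obtain ⟨B, hB⟩ : ∃ B : ℝ, B = C * (1 + 1 / (4 * s)) * (2 * 8 ^ m + 2 * m * M) := ⟨_, rfl⟩
  have hB0 : 0 < B := by rw [hB]; positivity
  obtain ⟨δ, hδ⟩ : ∃ δ : ℝ, δ = min (min δ₂ c) (min 1 (η / (2 * B))) := ⟨_, rfl⟩
  have hδ0 : 0 < δ := by rw [hδ]; positivity
  have hδ2 : δ ≤ δ₂ := hδ.le.trans ((min_le_left _ _).trans (min_le_left _ _))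
  have hδc : δ ≤ c := hδ.le.trans ((min_le_left _ _).trans (min_le_right _ _))
  have hδ1 : δ ≤ 1 := hδ.le.trans ((min_le_right _ _).trans (min_le_left _ _))
  have hδη : δ ≤ η / (2 * B) := hδ.le.trans ((min_le_right _ _).trans (min_le_right _ _))
  clear hδ
  refine ⟨δ, hδ0, ?_⟩
  intro T h t ν P hI hexc w hw hDw ψ hψ hψ1 hψ0
  have hR := hI.pos
  have ht : 0 < t := by linarith
  haveI := hI.cyl.fin
  have h0T : (0:E) ∈ T := T.zero_mem
  obtain ⟨S, θ, -, -, -, hint⟩ := intCyl_of_skel hI (A := univ)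
    (Eventually.of_forall fun _ _ => mem_univ _)
  have hI2 : Skel.IntCyl m Q T 0 (8 * t) h δ₂ ν P :=
    { hI with mass := hI.mass.trans (by gcongr) }
  have hW := HW T 0 (8 * t) h ν P hI2 (hexc.trans (by gcongr)) 0 h0T t (by linarith)
    (by rw [sub_self, norm_zero]; linarith) S θ _ hint
  have hmem : ∀ y ∈ INT.cyl T 0 (2 * t), ‖T.starProjection y‖ < 2 * t := by
    intro y hy
    rw [R2.cyl_eq_cylSet h0T] at hy
    have h2 : T.starProjection y ∈ ball (0:E) (2 * t) := hy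
    rwa [mem_ball_zero_iff] at h2
  have key := H T _ h _ P S θ 0 t hW w hw (fun y hy => (hDw y (hmem y hy)).trans hδc) ψ 1 hψ
    (fun x _ => hψ1 x) (fun x _ hx => hψ0 x (by rwa [mem_ball_zero_iff, not_lt] at hx))
  -- the left side
  have hcs : INT.cyl T 0 (2 * t) ⊆ Skel.cylSet T 0 (8 * t) := by
    rw [R2.cyl_eq_cylSet h0T]
    exact fun y hy => ball_subset_ball (by linarith) hy
  have e1 : ∫ y, ψ (T.starProjection y) ∂(ν.restrict (Skel.cylSet T 0 (8 * t))) =
      ∫ y, ψ (T.starProjection y) ∂ν := by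
    refine setIntegral_eq_integral_of_forall_compl_eq_zero fun y hy => hψ0 _ ?_
    by_contra hc
    rw [not_le] at hc
    apply hy
    show T.starProjection y ∈ ball (0:E) (8 * t)
    rw [mem_ball_zero_iff]; linarith
  rw [e1] at key
  refine key.trans ?_
  -- the right side
  have hmC : MeasurableSet (INT.cyl T 0 (2 * t)) := INTM.isOpen_cyl.measurableSet
  rw [Measure.restrict_restrict hmC, inter_eq_left.2 hcs]
  have hmass : ν.real (Skel.cylSet T 0 (8 * t)) ≤ M * t ^ m := by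
    have h1 := (abs_le.1 hI.mass).2
    have h2 : (0:ℝ) < (8 * t) ^ m := by positivity
    calc ν.real (Skel.cylSet T 0 (8 * t)) ≤ Q * Skel.om m * (8 * t) ^ m + δ * (8 * t) ^ m := by
          linarith
      _ ≤ Q * Skel.om m * (8 * t) ^ m + 1 * (8 * t) ^ m := by gcongr
      _ = M * t ^ m := by rw [hM, mul_pow]; ring
  have hmass2 : ν.real (INT.cyl T 0 (2 * t)) ≤ M * t ^ m :=
    (measureReal_mono hcs).trans hmass
  have e4 : ∫ y in INT.cyl T 0 (2 * t), tilt T (P y) ∂ν ≤ δ * (8 * t) ^ m := by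
    refine le_trans ?_ hexc
    refine setIntegral_mono_set (R2.integrable_tilt' hI.cyl).integrableOn ?_ hcs.eventuallyLE
    filter_upwards [ae_restrict_of_ae hI.cyl.proj] with y hy
    obtain ⟨L, hL, hPL⟩ := hy
    show 0 ≤ tilt T (P y)
    rw [hPL]; exact FV.tilt_nonneg L T
  have e6 := int_gsq_le hI.cyl hw hmC hδ0 hδ1 hs0 (fun y hy => hDw y (hmem y hy)) e4 hmass2
  have htm : 0 < t ^ m := by positivity
  have hfin : C * (1 + 1 / (4 * s)) * (2 * (δ * (8 * t) ^ m) + 2 * m * δ * (M * t ^ m))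
      ≤ η / 2 * t ^ m := by
    calc _ = B * δ * t ^ m := by rw [hB, mul_pow]; ring
      _ ≤ B * (η / (2 * B)) * t ^ m := by gcongr
      _ = _ := by field_simp
  have hfin2 : C * (s * (M * t ^ m)) = η / 4 * t ^ m := by rw [hs]; field_simp
  calc C * 1 * ∫ y in INT.cyl T 0 (2 * t), (gsq (rel T w) (P y) y + √(gsq (rel T w) (P y) y)) ∂ν
      ≤ C * 1 * ((1 + 1 / (4 * s)) * (2 * (δ * (8 * t) ^ m) + 2 * m * δ * (M * t ^ m))
        + s * (M * t ^ m)) := by gcongr
    _ = C * (1 + 1 / (4 * s)) * (2 * (δ * (8 * t) ^ m) + 2 * m * δ * (M * t ^ m))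
        + C * (s * (M * t ^ m)) := by ring
    _ ≤ η / 2 * t ^ m + η / 4 * t ^ m := by rw [hfin2]; gcongr
    _ ≤ η * t ^ m := by nlinarith

end Vale.Agent.P214.INSTL
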