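import Vale.Agent.P214.INST.Props
import Vale.Agent.P214.RC2X.Fine
import Vale.Agent.P214.WSEQ.AccSum

/-!
# P214, block INST: coarse information at every scale of every window

From `Loc`, `WSeq`, `RefsStmt` and `CylStmt`: the cone property in Fermi coordinates (`cone_fermi`),
the configuration `LOCF.Conf` (`conf_of`), and `RC2X.Inp` for all windows and scales (`inp_of`).
-/

open Set Filter Topology MeasureTheory Metric
open scoped RealInnerProductSpace ContDiff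

set_option linter.all false

namespace Vale.Agent.P214.INST

open WIN WSEQ FM

noncomputable section

variable {m n Q : ℕ} {E : Type*} [NormedAddCommGroup E] [InnerProductSpace ℝ E]
  [FiniteDimensional ℝ E] [MeasurableSpace E] [BorelSpace E]
variable {T : Submodule ℝ E} {F : Frame m n T} {ν : Measure E} {P : E → E →L[ℝ] E} {Kp : Set E}
  {δ : ℝ → ℝ} {X : Exps} {C C₅ ε : ℝ}

/-- dyadic radii -/
lemma exists_dyadic {R x : ℝ} (hR : 0 < R) (hx : 0 < x) (hxR : x < R) :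
    ∃ i : ℕ, x < R * (1 / 2) ^ i ∧ R * (1 / 2) ^ i ≤ 2 * x := by
  have h1 : Tendsto (fun i : ℕ => R * (1 / 2 : ℝ) ^ i) atTop (𝓝 (R * 0)) :=
    (tendsto_pow_atTop_nhds_zero_of_lt_one (by norm_num) (by norm_num)).const_mul R
  rw [mul_zero] at h1
  have h2 : ∃ i : ℕ, R * (1 / 2 : ℝ) ^ i ≤ x := by
    obtain ⟨i, hi⟩ := (h1.eventually_lt_const hx).exists
    exact ⟨i, hi.le⟩
  classical
  set i := Nat.find h2 with hi
  have hi0 : i ≠ 0 := by
    intro h0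
    have := Nat.find_spec h2
    rw [← hi, h0, pow_zero, mul_one] at this
    linarith
  obtain ⟨j, hj⟩ := Nat.exists_eq_succ_of_ne_zero hi0
  refine ⟨j, ?_, ?_⟩
  · have := Nat.find_min h2 (m := j) (by rw [← hi, hj]; exact Nat.lt_succ_self j)
    exact not_le.1 this
  · have := Nat.find_spec h2
    rw [← hi, hj, pow_succ] at this
    linarith

/-- **the cone property**: a.e. point over `ball 0 (3/8)` lies in the cone of slope `2 τ`. -/
theorem cone {τ : ℝ} (hτ : 0 < τ) (hL : Loc m Q T ν P Kp δ τ) :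
    ∀ᵐ y ∂ν, ‖T.starProjection y‖ < 3 / 8 → ‖FV.co T y‖ ≤ 2 * τ * ‖T.starProjection y‖ := by
  have h1 : ∀ i : ℕ, ∀ᵐ y ∂ν, ‖T.starProjection y‖ < 3 / 8 * (1 / 2) ^ i →
      ‖FV.co T y‖ ≤ τ * (3 / 8 * (1 / 2) ^ i) := by
    intro i
    have h2 : (0:ℝ) < 3 / 8 * (1 / 2) ^ i := by positivity
    have h3 : (3:ℝ) / 8 * (1 / 2) ^ i ≤ 3 / 8 := by
      have : (1 / 2 : ℝ) ^ i ≤ 1 := pow_le_one₀ (by norm_num) (by norm_num)
      nlinarith
    filter_upwards [(hL.int _ h2 h3).cyl.slab] with y hy hlt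
    rw [FV.co_apply]
    exact hy (by rw [mem_ball, dist_zero_right]; exact hlt)
  filter_upwards [ae_all_iff.2 h1] with y hy hlt
  rcases (norm_nonneg (T.starProjection y)).eq_or_lt with h0 | h0
  · -- the fibre over the centre
    rw [← h0, mul_zero]
    have h2 : Tendsto (fun i : ℕ => τ * (3 / 8 * (1 / 2 : ℝ) ^ i)) atTop (𝓝 (τ * (3 / 8 * 0))) :=
      ((tendsto_pow_atTop_nhds_zero_of_lt_one (by norm_num) (by norm_num)).const_mul _).const_mul _
    rw [mul_zero, mul_zero] at h2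
    refine ge_of_tendsto' h2 fun i => hy i ?_
    rw [← h0]; positivity
  · obtain ⟨i, hi, hi'⟩ := exists_dyadic (by norm_num : (0:ℝ) < 3 / 8) h0 hlt
    refine (hy i hi).trans ?_
    calc τ * (3 / 8 * (1 / 2) ^ i) ≤ τ * (2 * ‖T.starProjection y‖) := by gcongr
      _ = _ := by ring

/-- **the cone property in Fermi coordinates** -/
theorem cone_fermi {τ η κ h₁ : ℝ} {w : E → E} (hτ : 0 < τ) (hτη : τ ≤ η) (hη : η ≤ 1 / 64)
    (hh : h₁ ≤ 1 / 16) (hL : Loc m Q T ν P Kp δ τ) (H : Adm T w η κ h₁) (hw0 : w 0 = 0) :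
    ∀ᵐ Y ∂(fmeas T w h₁ ν), ‖ODE.bx T 0 Y‖ < 1 / 4 → ‖FV.co T Y‖ ≤ 4 * η * ‖ODE.bx T 0 Y‖ := by
  have hη0 : 0 < η := hτ.trans_le hτη
  filter_upwards [H.ae_fmeas (cone hτ hL)] with Y hY hlt
  have hbx : ODE.bx T 0 Y = T.starProjection Y := by
    rw [ODE.bx_eq, map_zero, sub_zero]
  rw [hbx] at hlt ⊢
  have h1' := H.ref.norm_star_Psi_sub_le H.hpos Y
  have h2 : ‖T.starProjection (Psi T w h₁ Y)‖ < 3 / 8 := by
    have h3 : ‖T.starProjection (Psi T w h₁ Y)‖ ≤ ‖T.starProjection Y‖ +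
        ‖T.starProjection (Psi T w h₁ Y) - T.starProjection Y‖ := by
      calc _ = ‖T.starProjection Y + (T.starProjection (Psi T w h₁ Y) - T.starProjection Y)‖ := by
            congr 1; abel
        _ ≤ _ := norm_add_le _ _
    have h4 : 2 * η * h₁ ≤ 1 / 16 := by
      have := H.hpos
      nlinarith
    linarith
  have h3 := hY h2
  rw [H.ref.co_Psi] at h3
  have h4 := H.ref.norm_star_Psi_sub_le' h₁ Y
  have h5 : ‖T.starProjection (Psi T w h₁ Y)‖ ≤ ‖T.starProjection Y‖ + η * ‖FV.co T Y‖ := by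
    calc _ = ‖T.starProjection Y + (T.starProjection (Psi T w h₁ Y) - T.starProjection Y)‖ := by
          congr 1; abel
      _ ≤ _ := (norm_add_le _ _).trans (by gcongr)
  have h6 : ‖w Y‖ ≤ η * ‖T.starProjection Y‖ := by
    have := H.ref.norm_w_sub_le 0 Y
    rw [hw0, sub_zero, hbx] at this
    exact this
  have h7 : ‖FV.co T Y‖ ≤ ‖FV.co T Y + w Y‖ + ‖w Y‖ := by
    calc ‖FV.co T Y‖ = ‖(FV.co T Y + w Y) - w Y‖ := by congr 1; abel
      _ ≤ _ := norm_sub_le _ _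
  have h8 : ‖FV.co T Y‖ ≤ 2 * τ * (‖T.starProjection Y‖ + η * ‖FV.co T Y‖) +
      η * ‖T.starProjection Y‖ := by
    have : 2 * τ * ‖T.starProjection (Psi T w h₁ Y)‖ ≤
        2 * τ * (‖T.starProjection Y‖ + η * ‖FV.co T Y‖) := by gcongr
    linarith
  have h9 : 2 * τ * (‖T.starProjection Y‖ + η * ‖FV.co T Y‖) ≤
      2 * η * (‖T.starProjection Y‖ + η * ‖FV.co T Y‖) := by gcongr
  have h10 : 0 ≤ ‖T.starProjection Y‖ := norm_nonneg _
  have h11 : 0 ≤ ‖FV.co T Y‖ := norm_nonneg _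
  have h12 : 2 * η * (η * ‖FV.co T Y‖) ≤ 1 / 4 * ‖FV.co T Y‖ := by
    have : 2 * η * η ≤ 1 / 4 := by nlinarith
    nlinarith
  nlinarith

/-- the configuration at the scale `t` -/
theorem conf_of {τ η h₁ δ₀ t : ℝ} {w : E → E} (hτ : 0 < τ) (hL : Loc m Q T ν P Kp δ τ)
    (H : Adm T w η 1 h₁) (hw0 : w 0 = 0) (hη0 : 0 ≤ η) (hη : 8 * η ≤ δ₀) (hτδ : 8 * 4 ^ m * τ ≤ δ₀)
    (hδ₀ : δ₀ ≤ 1) (ht : 0 < t) (htδ : t ≤ δ₀) (ht2 : t ≤ 1 / 32) :
    LOCF.Conf m Q T w η 1 h₁ 0 t (τ * (4 * t)) δ₀ ν P := by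
  have h4 : (1:ℝ) ≤ 4 ^ m := one_le_pow₀ (by norm_num)
  have h4t : (0:ℝ) < 4 * t := by positivity
  have h4t' : 4 * t ≤ 3 / 8 := by linarith
  have hτδ' : 8 * τ ≤ δ₀ := by nlinarith
  have hI := hL.int (4 * t) h4t h4t'
  refine ⟨H, ht, ⟨hI.cyl, hI.mem, hI.pos, hI.int, hI.mass.trans ?_⟩, ?_, by linarith, by linarith,
    ?_⟩
  · gcongr
    linarith
  · refine (hL.exc (4 * t) h4t h4t').trans ?_
    rw [mul_pow]
    have : 0 < t ^ m := by positivity
    nlinarith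
  · filter_upwards [hI.cyl.slab] with y hy hyb
    have h5 : ‖FV.co T y‖ ≤ τ * (4 * t) := by rw [FV.co_apply]; exact hy hyb
    have h6 : ‖w y‖ ≤ η * ‖T.starProjection y‖ := by
      have := H.ref.norm_w_sub_le 0 y
      rw [hw0, sub_zero, ODE.bx_eq, map_zero, sub_zero] at this
      exact this
    rw [mem_ball, dist_zero_right] at hyb
    have h7 : η * ‖T.starProjection y‖ ≤ η * (4 * t) := by gcongr
    calc ‖FV.co T y - w y‖ ≤ ‖FV.co T y‖ + ‖w y‖ := norm_sub_le _ _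
      _ ≤ τ * (4 * t) + η * (4 * t) := by linarith
      _ ≤ δ₀ * t := by nlinarith

lemma thC_pos {h : ℝ} (h0 : 0 < h) (h1 : h < 1) : 0 < th h := by
  unfold th
  have : 0 < Real.log h⁻¹ := Real.log_pos ((one_lt_inv₀ h0).2 h1)
  positivity

lemma tubeC_pos (S : WSeq m n Q T F ν P Kp δ X C C₅ ε) (hε : ε < 1) (j : ℕ) : 0 < tube S j :=
  mul_pos (S.r_pos j) (thC_pos (S.h_pos j) ((S.h_le j).trans_lt hε))

lemma tubeC_le (S : WSeq m n Q T F ν P Kp δ X C C₅ ε) (hε : ε ≤ 1) (j : ℕ) : tube S j ≤ 1 / 16 := by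
  have h1 : S.r j ≤ 3 / 16 := by
    have := S.r_anti hε (Nat.zero_le j)
    rwa [S.r_zero] at this
  have h2 := S.th_le j
  have h3 := S.th_nn hε j
  have h4 := S.r_pos j
  unfold tube
  nlinarith

/-- **`RC2X.Inp` for all windows and scales.** -/
theorem inp_of (hR : RefsStmt E m n Q) (hC : CylStmt E m n Q) {δ₀ : ℝ} (hδ₀ : 0 < δ₀)
    (hδ₀1 : δ₀ ≤ 1 / 8) (hδ₀2 : δ₀ ≤ 8 * eps0) :
    Ev E m n Q fun T F ν P Kp δ X C C₅ ε S => ∀ (k : ℝ → ℝ) (j : ℕ) (t d s : ℝ),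
      0 < t → t ≤ δ₀ → t ≤ 1 / 32 → 0 < d → d ≤ 1 / 2 →
      (1 + 2 * d) * t < S.r j * (1 - 9 * th (S.h j)) → 0 < s →
      Hw m T ν k (tube S j) (wr S j) ((1 + 2 * d) * t) ≤ s * t ^ 2 →
      s ^ (1 / 4 : ℝ) * t ≤ tube S j →
      ∃ h, RC2X.Inp m Q T (wr S j) (δ₀ / 8) 1 (tube S j) 0 t d s k h δ₀
        (Gr S j) (2 * (S.r j * S.h j ^ (2 / 5 : ℝ))) ν P := by
  intro X C C₅
  obtain ⟨ε₁, hε₁, hmain⟩ := hR (δ₀ / 8) (by positivity) (by linarith) X C C₅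
  obtain ⟨ε₂, hε₂, hmain2⟩ := hC (δ₀ / 8) (by positivity) (by linarith) X C C₅
  refine ⟨min (min ε₁ ε₂) (min (δ₀ / (8 * 4 ^ m)) (1 / 2)), by positivity, ?_⟩
  intro T F ν P Kp δ ε τ S hctx hε k j t d s ht htδ ht2 hd hd2 hball hs hH htube
  have hε1 : ε ≤ ε₁ := hε.trans ((min_le_left _ _).trans (min_le_left _ _))
  have hε2 : ε ≤ ε₂ := hε.trans ((min_le_left _ _).trans (min_le_right _ _))
  have hε3 : ε ≤ δ₀ / (8 * 4 ^ m) := hε.trans ((min_le_right _ _).trans (min_le_left _ _))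
  have hε4 : ε ≤ 1 / 2 := hε.trans ((min_le_right _ _).trans (min_le_right _ _))
  obtain ⟨hadm, hw0, hmin, -⟩ := hmain T F ν P Kp δ ε τ S hctx hε1 j
  obtain ⟨-, hcyl, -⟩ := hmain2 T F ν P Kp δ ε τ S hctx hε2 j
  have htp := tubeC_pos S (by linarith) j
  have htl := tubeC_le S (by linarith) j
  have hadm := hadm _ htp htl
  have hτ := hctx.τ_pos
  have h4 : (1:ℝ) ≤ 4 ^ m := one_le_pow₀ (by norm_num)
  have hτδ : 8 * 4 ^ m * τ ≤ δ₀ := by
    have h5 := hctx.τ_le.trans hε3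
    rw [le_div_iff₀ (by positivity)] at h5
    linarith
  have hτη : τ ≤ δ₀ / 8 := by nlinarith
  refine ⟨τ * (4 * t), ?_⟩
  refine ⟨conf_of hτ hctx.loc hadm hw0 (by positivity) (by linarith) hτδ (by linarith) ht htδ ht2,
    hcyl, ?_, ?_, ?_, by linarith, hs, hd, hd2, hH, htube⟩
  · intro x hx hx2
    rw [map_zero, sub_zero] at hx2
    rw [Gr, mem_ball, dist_zero_right]
    exact hx2.trans_lt hball
  · intro y hy
    refine hmin y ?_
    rw [Gr, mem_ball, dist_zero_right] at hy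
    rw [mem_ball, dist_zero_right]
    refine hy.trans_le ?_
    have h5 := S.th_nn (by linarith) j
    have h6 := S.r_pos j
    nlinarith
  · filter_upwards [cone_fermi hτ hτη (by linarith) htl hctx.loc hadm hw0] with Y hY h5
    have h6 : ‖ODE.bx T 0 Y‖ < 2 * t := RC2X.lt_of_aX (w := wr S j) (by positivity) h5
    refine (hY (by linarith)).trans ?_
    nlinarith [norm_nonneg (ODE.bx T 0 Y)]

end

end Vale.Agent.P214.INST
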