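import Vale.Agent.P214.INST.KerProps
import Vale.Agent.P214.WSEQ.One
import Vale.Agent.P214.WSEQ.AccSum
import Vale.Agent.P214.W5.Lam
import Vale.Agent.P214.W5.DecAbs

/-!
# P214, block INST: the field `decay`
-/

open Set Filter Topology MeasureTheory Metric
open scoped RealInnerProductSpace ContDiff

set_option linter.all false

namespace Vale.Agent.P214.INST

open WIN WSEQ FM STR

variable {m n Q : ℕ} {E : Type*} [NormedAddCommGroup E] [InnerProductSpace ℝ E]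
  [FiniteDimensional ℝ E] [MeasurableSpace E] [BorelSpace E]
variable {T : Submodule ℝ E} {F : Frame m n T} {ν : Measure E} {P : E → E →L[ℝ] E} {Kp : Set E}
  {δ : ℝ → ℝ} {X : Exps} {C C₅ ε τ : ℝ}

/-- smallness of one height -/
structure SmH (X : Exps) (h : ℝ) : Prop where
  lt_one : h < 1
  th_pos : 0 < th h
  th_le : th h ≤ 1 / 120
  p4 : h ^ (1 / 4 : ℝ) ≤ th h
  p5 : 4 * h ^ (1 / 4 : ℝ) ≤ h ^ (1 / 5 : ℝ)
  pc : 2 * h ^ (2 * X.c₅) ≤ h ^ X.c₅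

lemma exists_smH (hX : X.OK m) : ∃ ε : ℝ, 0 < ε ∧ ∀ h, 0 < h → h ≤ ε → SmH X h := by
  obtain ⟨ε₁, hε₁, hε₁1, h1⟩ := exists_th (a := 1 / 4) (b := 1 / 120) (by norm_num) (by norm_num)
  obtain ⟨ε₂, hε₂, h2⟩ := W5.exists_pow_small (a := 1 / 4) (b := 1 / 5) 4 (by norm_num)
  obtain ⟨ε₃, hε₃, h3⟩ := W5.exists_pow_small (a := 2 * X.c₅) (b := X.c₅) 2
    (by linarith [hX.c₅_pos])
  refine ⟨min (1 / 2) (min ε₁ (min ε₂ ε₃)), by positivity, fun h hh hhe => ?_⟩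
  have k0 := hhe.trans (min_le_left _ _)
  have k1 := hhe.trans ((min_le_right _ _).trans (min_le_left _ _))
  have k2 := hhe.trans ((min_le_right _ _).trans ((min_le_right _ _).trans (min_le_left _ _)))
  have k3 := hhe.trans ((min_le_right _ _).trans ((min_le_right _ _).trans (min_le_right _ _)))
  obtain ⟨a1, a2, a3⟩ := h1 h hh k1
  exact ⟨by linarith, a2, a3, a1, h2 h hh k2, h3 h hh k3⟩

section
variable (S : WSeq m n Q T F ν P Kp δ X C C₅ ε) (hsm : ∀ j, SmH X (S.h j))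

include hsm

/-- lower end of the windows -/
lemma low_range (j : ℕ) {y : ℝ} (hy : Tr S (j + 1) ≤ y) :
    0 < y ∧ S.r j * S.h j ^ (2 * X.c₅) ≤ 3 / 4 * y := by
  have h1 := (hsm (j + 1)).th_le
  have h2 := S.r_pos (j + 1)
  have h3 := (S.nxt j).r_ge
  have h4 := (hsm j).pc
  have h5 := S.r_pos j
  have h6 : 0 < S.h j ^ (2 * X.c₅) := Real.rpow_pos_of_pos (S.h_pos j) _
  have h7 : 11 / 12 * S.r (j + 1) ≤ Tr S (j + 1) := by
    unfold Tr
    nlinarith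
  have h8 : 2 * (S.r j * S.h j ^ (2 * X.c₅)) ≤ S.r j * S.h j ^ X.c₅ := by
    calc 2 * (S.r j * S.h j ^ (2 * X.c₅)) = S.r j * (2 * S.h j ^ (2 * X.c₅)) := by ring
      _ ≤ _ := by gcongr
  constructor
  · nlinarith
  · nlinarith [mul_pos h5 h6]

lemma top_range (j : ℕ) {y : ℝ} (hy0 : 0 < y) (hy : y ≤ Tr S j) :
    y * (1 + th (S.h j)) ≤ S.r j * (1 - 9 * th (S.h j)) := by
  have h1 := (hsm j).th_le
  have h2 := (hsm j).th_pos
  have h3 := S.r_pos j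
  calc y * (1 + th (S.h j)) ≤ Tr S j * (1 + th (S.h j)) := by gcongr
    _ = S.r j * ((1 - 10 * th (S.h j)) * (1 + th (S.h j))) := by unfold Tr; ring
    _ ≤ _ := by
        gcongr
        nlinarith

omit hsm in
lemma wr_cont (j : ℕ) : Continuous (KMS.rel T (wr S j)) :=
  (KMS.ref_lift (F := F) (S.refe (j + 1)).smooth).contDiff_rel.continuous

omit hsm in
/-- monotonicity of the heights over cylinders -/
lemma mono_of {H δ' : ℝ} (hI : Skel.IntCyl m Q T 0 (3 / 8) H δ' ν P) (j : ℕ) {s t : ℝ}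
    (hs : 0 < s) (hst : s ≤ t) (ht4 : t ≤ 4 * s) (ht : t ≤ 3 / 8) :
    hN m T (F.lift (S.u (j + 1))) ν s ≤ 4 ^ (m + 2) * hN m T (F.lift (S.u (j + 1))) ν t :=
  W5.hV_le_of_le hI.cyl (ball_subset_ball ht) (wr_cont S j) hs hst ht4

omit hsm in
lemma r_le_316 (hε : ε ≤ 1) (j : ℕ) : S.r j ≤ 3 / 16 := by
  have := S.r_anti hε (Nat.zero_le j)
  rwa [S.r_zero] at this

/-- `K1` -/
lemma k1_of (hε : ε ≤ 1) {H δ' : ℝ} (hI : Skel.IntCyl m Q T 0 (3 / 8) H δ' ν P) {k : ℝ → ℝ}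
    {Ck : ℝ} (hCk : 1 ≤ Ck) (j : ℕ) {y : ℝ} (hy1 : Tr S (j + 1) ≤ y) (hy2 : y ≤ Tr S j)
    (hK : ∀ t, S.r j * S.h j ^ (2 * X.c₅) ≤ t → t ≤ S.r j * (1 - 9 * th (S.h j)) →
      Hw m T ν k (tube S j) (wr S j) t
        ≤ Ck * t ^ 2 * hN m T (wr S j) ν (t * (1 + S.h j ^ (1 / 4 : ℝ)))) :
    Hw m T ν k (tube S j) (wr S j) y / y ^ 2
      ≤ Ck * 4 ^ (m + 2) * hN m T (F.lift (S.u (j + 1))) ν (y * (1 + th (S.h j))) := by
  obtain ⟨hy0, hlow⟩ := low_range S hsm j hy1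
  have htop := top_range S hsm j hy0 hy2
  have h1 := (hsm j).th_le
  have h2 := (hsm j).th_pos
  have h3 := S.r_pos j
  have h4 := (hsm j).p4
  have hp : 0 < S.h j ^ (1 / 4 : ℝ) := Real.rpow_pos_of_pos (S.h_pos j) _
  have h5 : y * (1 + S.h j ^ (1 / 4 : ℝ)) ≤ y * (1 + th (S.h j)) := by gcongr
  have h7 := hK y (by linarith) (le_trans (by nlinarith) htop)
  have h8 : hN m T (wr S j) ν (y * (1 + S.h j ^ (1 / 4 : ℝ)))
      ≤ 4 ^ (m + 2) * hN m T (F.lift (S.u (j + 1))) ν (y * (1 + th (S.h j))) := by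
    refine mono_of S hI j (by positivity) h5 ?_ ?_
    · have e1 : y * (1 + th (S.h j)) ≤ 4 * y := by nlinarith
      have e2 : 4 * y ≤ 4 * (y * (1 + S.h j ^ (1 / 4 : ℝ))) := by nlinarith
      exact e1.trans e2
    · have := r_le_316 S hε j
      nlinarith
  rw [div_le_iff₀ (by positivity)]
  calc Hw m T ν k (tube S j) (wr S j) y
      ≤ Ck * y ^ 2 * hN m T (wr S j) ν (y * (1 + S.h j ^ (1 / 4 : ℝ))) := h7
    _ ≤ Ck * y ^ 2 * (4 ^ (m + 2) * hN m T (F.lift (S.u (j + 1))) ν (y * (1 + th (S.h j)))) := by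
        gcongr
    _ = _ := by ring

/-- `K2` -/
lemma k2_of {k : ℝ → ℝ} {Ck : ℝ} (hCk : 1 ≤ Ck) (j : ℕ) {y : ℝ} (hy1 : Tr S (j + 1) ≤ y)
    (hy2 : y ≤ Tr S j) (hpos : 0 < Hw m T ν k (tube S j) (wr S j) y)
    (hK : ∀ t, S.r j * S.h j ^ (2 * X.c₅) ≤ t →
      ∀ d, 4 * S.h j ^ (1 / 4 : ℝ) ≤ d → d ≤ 1 / 2 →
      t * (1 + d) ≤ S.r j * (1 - 17 / 2 * th (S.h j)) →
      hN m T (wr S j) ν t
        ≤ Ck * d⁻¹ ^ 3 * (t ^ 2)⁻¹ * Hw m T ν k (tube S j) (wr S j) (t * (1 + d)))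
    {d : ℝ} (hd : S.h j ^ (1 / 5 : ℝ) ≤ d) (hd4 : d ≤ 1 / 4) :
    hN m T (F.lift (S.u (j + 1))) ν (y * (1 - d))
      ≤ 2 * Ck * d⁻¹ ^ 3 * (Hw m T ν k (tube S j) (wr S j) y / y ^ 2) := by
  obtain ⟨hy0, hlow⟩ := low_range S hsm j hy1
  have h1 := (hsm j).th_le
  have h2 := (hsm j).th_pos
  have h3 := S.r_pos j
  have h4 := (hsm j).p5
  have hp : 0 < S.h j ^ (1 / 5 : ℝ) := Real.rpow_pos_of_pos (S.h_pos j) _
  have hd0 : 0 < d := hp.trans_le hd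
  have h1d : 0 < 1 - d := by linarith
  have hdd : d ≤ d / (1 - d) := by
    rw [le_div_iff₀ h1d]; nlinarith
  have hd2 : d / (1 - d) ≤ 1 / 2 := by
    rw [div_le_iff₀ h1d]; linarith
  have e1 : y * (1 - d) * (1 + d / (1 - d)) = y := by field_simp; ring
  have h5 := hK (y * (1 - d)) (by nlinarith) (d / (1 - d)) (by linarith) hd2 (by
    rw [e1]
    refine hy2.trans ?_
    unfold Tr
    gcongr
    linarith)
  rw [e1] at h5
  refine h5.trans ?_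
  have h6 : (d / (1 - d))⁻¹ ^ 3 ≤ d⁻¹ ^ 3 := by
    have : (d / (1 - d))⁻¹ ≤ d⁻¹ := inv_anti₀ hd0 hdd
    have h0 : 0 ≤ (d / (1 - d))⁻¹ := by positivity
    gcongr
  have h7 : ((y * (1 - d)) ^ 2)⁻¹ ≤ 2 * (y ^ 2)⁻¹ := by
    have h8 : y ^ 2 ≤ 2 * (y * (1 - d)) ^ 2 := by
      have : (9:ℝ) / 16 ≤ (1 - d) ^ 2 := by nlinarith
      rw [mul_pow]
      nlinarith [sq_nonneg y]
    rw [← div_eq_mul_inv, le_div_iff₀ (by positivity), inv_mul_le_iff₀ (by positivity)]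
    linarith
  calc Ck * (d / (1 - d))⁻¹ ^ 3 * ((y * (1 - d)) ^ 2)⁻¹ * Hw m T ν k (tube S j) (wr S j) y
      ≤ Ck * d⁻¹ ^ 3 * (2 * (y ^ 2)⁻¹) * Hw m T ν k (tube S j) (wr S j) y := by
        gcongr
    _ = _ := by rw [div_eq_mul_inv]; ring

/-- `dec` -/
lemma dec_of {τ₂ C₂ C₆ ε₅ : ℝ} (hε : ε ≤ 1) (hX : X.OK m) (hL : Loc m Q T ν P Kp δ τ)
    (hQ : 1 ≤ Q) (hτ : τ ≤ ε) (hC₂ : 1 ≤ C₂) (hC₆ : 0 ≤ C₆)
    (hdec : ∀ (T : Submodule ℝ E) (ν : Measure E)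
      (P : E → E →L[ℝ] E) (v : E → E) (K Bad : Set E) (δ : ℝ → ℝ) (σ β M C₅ r R : ℝ),
      W5.Dat m Q T ν P K δ M τ₂ r → W5.BadS m T ν P Bad β τ₂ r R → Continuous v →
      (∀ z ∈ K, ‖T.starProjection z‖ < R → T.starProjection z ∉ Bad → ‖v z‖ ≤ σ) → 0 ≤ C₅ →
      ∀ t, 0 < t → 7 / 5 * t ≤ R →
        (∀ y ∈ ν.support, ‖T.starProjection y‖ < t →
          ‖v y‖ ^ 2 ≤ C₅ * (t ^ m)⁻¹ * ∫ y in Skel.cylSet T 0 (7 / 5 * t), ‖v y‖ ^ 2 ∂ν) →
        W5.hV m T v ν t ≤ C₂ * C₅ * (δ t + β * (r / t) ^ m) * W5.hV m T v ν (7 / 5 * t)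
          + M * (σ / t) ^ 2)
    (hsup : ∀ (T : Submodule ℝ E) (F : Frame m n T)
      (u : Fin n → REF.E m → ℝ) (Q : ℕ) (r θ h δ : ℝ) (ν : Measure E) (P : E → E →L[ℝ] E),
      Refe ε₅ r u → r ≤ 3 / 16 → 0 < θ → θ < r → Skel.IntCyl m Q T 0 r h δ ν P →
        ∀ y ∈ ν.support, ‖T.starProjection y‖ ≤ r - θ →
          ‖KMS.rel T (F.lift u) y‖ ^ 2 ≤ C₆ * θ⁻¹ ^ m * hE T (F.lift u) ν r)
    (hετ : ε ≤ τ₂) (hε5 : ε ≤ ε₅) (j : ℕ) {t : ℝ} (hat : S.r j * S.h j ^ X.c₅ ≤ 2 * t)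
    (htR : 7 / 5 * t ≤ S.r j * (1 - 8 * th (S.h j))) :
    hN m T (F.lift (S.u (j + 1))) ν t
      ≤ (C₂ * (C₆ * (5 / 2) ^ m) * 2 ^ m + 4 * (Q * Skel.om m + 1)) * (δ t + S.h j ^ (X.c₀ / 2))
        * hN m T (F.lift (S.u (j + 1))) ν (7 / 5 * t)
      + (C₂ * (C₆ * (5 / 2) ^ m) * 2 ^ m + 4 * (Q * Skel.om m + 1)) * (S.r j / t) ^ 2
        * S.h j ^ (1 + 2 * X.c') := by
  have hr := S.r_pos j
  have hh := S.h_pos j
  have hh1 : S.h j ≤ 1 := (hsm j).lt_one.le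
  have hr3 := r_le_316 S hε j
  have hthp := (hsm j).th_pos
  have hD := hL.dat hQ (hτ.trans hετ) (hτ.trans hε) hr hr3
  obtain ⟨Bad, hB, hv⟩ := (S.nxt j).bad
  have hhc : 0 < S.h j ^ X.c₅ := by positivity
  have ht0 : 0 < t := by
    have : 0 < S.r j * S.h j ^ X.c₅ := by positivity
    linarith
  have hM0 : 0 ≤ (Q:ℝ) * Skel.om m + 1 := by
    have := hD.mass t ht0 (by nlinarith)
    have h2 : 0 ≤ ((Q:ℝ) * Skel.om m + 1) * t ^ m := measureReal_nonneg.trans this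
    have h3 : 0 < t ^ m := by positivity
    exact nonneg_of_mul_nonneg_left h2 h3
  have hBS : W5.BadS m T ν P Bad (S.h j ^ X.c₀) τ₂ (S.r j) (S.r j * (1 - 8 * th (S.h j))) :=
    ⟨hB.R_le, hB.le_R, hB.meas, hB.small, fun x hx hxB s hs hxs =>
      (hB.good x hx hxB s hs hxs).trans (by gcongr)⟩
  have href : Refe ε₅ (S.r j * (1 - 8 * th (S.h j))) (S.u (j + 1)) :=
    W5.refe_mono (S.nxt j).refe hε5 (by gcongr; linarith)
  have h1 := hdec T ν P (KMS.rel T (F.lift (S.u (j + 1)))) Kp Bad δ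
    (2 * S.r j * S.h j ^ (1 / 2 + X.c')) (S.h j ^ X.c₀) (Q * Skel.om m + 1) (C₆ * (5 / 2) ^ m)
    (S.r j) (S.r j * (1 - 8 * th (S.h j))) hD hBS hv.cont hv.pts (by positivity) t ht0 htR
    (fun y hy hyt => W5.sup_of_refe' hsup (hL.int (3 / 8) (by norm_num) le_rfl)
      (by nlinarith) (by nlinarith) F href t ht0 htR y hy hyt)
  have c2 : 0 ≤ W5.hV m T (KMS.rel T (F.lift (S.u (j + 1)))) ν (7 / 5 * t) :=
    W5.hV_nonneg (by positivity)
  have c3 : 0 ≤ δ t := hL.δ_nn t ht0 (by nlinarith)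
  have c4 : S.h j ^ X.c₀ * (S.r j / t) ^ m ≤ 2 ^ m * S.h j ^ (X.c₀ / 2) := by
    have d1 := W5.coef_bad (m := m) (c₀ := X.c₀) (c₅ := X.c₅) (t := 2 * t) hr hh hh1 hX.m_c₅ hat
    have d2 : (S.r j / t) ^ m = 2 ^ m * (S.r j / (2 * t)) ^ m := by
      rw [← mul_pow]; congr 1; field_simp
    calc S.h j ^ X.c₀ * (S.r j / t) ^ m = 2 ^ m * (S.h j ^ X.c₀ * (S.r j / (2 * t)) ^ m) := by
          rw [d2]; ring
      _ ≤ 2 ^ m * S.h j ^ (X.c₀ / 2) := by gcongr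
  have e1 : (Q * Skel.om m + 1) * (2 * S.r j * S.h j ^ (1 / 2 + X.c') / t) ^ 2
      = 4 * (Q * Skel.om m + 1) * (S.r j / t) ^ 2 * S.h j ^ (1 + 2 * X.c') := by
    rw [show 2 * S.r j * S.h j ^ (1 / 2 + X.c') / t
      = 2 * (S.r j / t) * S.h j ^ (1 / 2 + X.c') by ring, mul_pow,
      W5.rpow_sq hh, mul_pow, show 2 * (1 / 2 + X.c') = 1 + 2 * X.c' by ring]
    ring
  rw [e1] at h1
  refine h1.trans ?_
  rw [← W5.hV_eq_hN (F.lift (S.u (j + 1))) (7 / 5 * t)]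
  generalize W5.hV m T (KMS.rel T (F.lift (S.u (j + 1)))) ν (7 / 5 * t) = V at *
  have hA0 : 0 ≤ C₂ * (C₆ * (5 / 2) ^ m) := by positivity
  have hp2 : 0 < S.h j ^ (X.c₀ / 2) := by positivity
  have f1 : C₂ * (C₆ * (5 / 2) ^ m) * (δ t + S.h j ^ X.c₀ * (S.r j / t) ^ m)
      ≤ (C₂ * (C₆ * (5 / 2) ^ m) * 2 ^ m + 4 * (Q * Skel.om m + 1))
        * (δ t + S.h j ^ (X.c₀ / 2)) := by
    have g1 : (1:ℝ) ≤ 2 ^ m := one_le_pow₀ (by norm_num)
    have g2 : δ t + S.h j ^ X.c₀ * (S.r j / t) ^ m ≤ 2 ^ m * (δ t + S.h j ^ (X.c₀ / 2)) := by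
      nlinarith
    calc C₂ * (C₆ * (5 / 2) ^ m) * (δ t + S.h j ^ X.c₀ * (S.r j / t) ^ m)
        ≤ C₂ * (C₆ * (5 / 2) ^ m) * (2 ^ m * (δ t + S.h j ^ (X.c₀ / 2))) := by gcongr
      _ = (C₂ * (C₆ * (5 / 2) ^ m) * 2 ^ m) * (δ t + S.h j ^ (X.c₀ / 2)) := by ring
      _ ≤ _ := by
          gcongr
          linarith
  have f2 : 4 * (Q * Skel.om m + 1)
      ≤ C₂ * (C₆ * (5 / 2) ^ m) * 2 ^ m + 4 * (Q * Skel.om m + 1) := by
    have : 0 ≤ C₂ * (C₆ * (5 / 2) ^ m) * 2 ^ m := by positivity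
    linarith
  have hp3 : 0 < S.h j ^ (1 + 2 * X.c') := by positivity
  gcongr

end

lemma thN_eq (h : ℝ) : W5.thN h = th h := rfl

/-- **the field `decay`** -/
theorem decayStmt {k K : ℝ → ℝ} (hker : KerStmt E m n Q k) (hsoft : SoftStmt E m n Q k K) :
    DecayStmt E m n Q k K := by
  obtain ⟨Ck, hCk, hker⟩ := hker
  intro X C C₅
  by_cases hX : X.OK m
  swap
  · exact ⟨1, one_pos, fun T F ν P Kp δ ε τ S hS _ => absurd hS.ok hX⟩
  by_cases hm : 1 ≤ m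
  swap
  · exact ⟨1, one_pos, fun T F ν P Kp δ ε τ S hS _ => absurd hS.m_pos hm⟩
  obtain ⟨ε₁, hε₁, h1⟩ := hker X C C₅
  obtain ⟨ε₂, hε₂, h2⟩ := hsoft X C C₅
  obtain ⟨ε₃, hε₃, hε₃1, h3⟩ := hN_acc hX
  obtain ⟨τ₂, C₂, hτ₂, hC₂, hdec⟩ := W5.decay_lam E m Q hm
  obtain ⟨ε₅, C₆, hε₅, hC₆, hsup⟩ := HSW.supStmt E m n
  obtain ⟨ε₆, hε₆, h6⟩ := exists_smH hX
  refine ⟨min (min ε₁ ε₂) (min (min ε₃ τ₂) (min ε₅ ε₆)), by positivity, ?_⟩
  intro T F ν P Kp δ ε τ S hS hε k₀ e κ hfat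
  have k1 : ε ≤ ε₁ := hε.trans ((min_le_left _ _).trans (min_le_left _ _))
  have k2 : ε ≤ ε₂ := hε.trans ((min_le_left _ _).trans (min_le_right _ _))
  have k3 : ε ≤ ε₃ := hε.trans ((min_le_right _ _).trans ((min_le_left _ _).trans (min_le_left _ _)))
  have k4 : ε ≤ τ₂ := hε.trans ((min_le_right _ _).trans ((min_le_left _ _).trans (min_le_right _ _)))
  have k5 : ε ≤ ε₅ := hε.trans ((min_le_right _ _).trans ((min_le_right _ _).trans (min_le_left _ _)))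
  have k6 : ε ≤ ε₆ := hε.trans ((min_le_right _ _).trans ((min_le_right _ _).trans (min_le_right _ _)))
  have hε1 : ε ≤ 1 := k3.trans hε₃1
  have hsm : ∀ j, SmH X (S.h j) := fun j => h6 _ (S.h_pos j) ((S.h_le j).trans k6)
  have hK := h1 T F ν P Kp δ ε τ S hS k1
  obtain ⟨-, -, -, -, hW, -⟩ := h2 T F ν P Kp δ ε τ S hS k2 k₀ e κ hfat
  have hL := hS.loc
  have hQ := hS.Q_pos
  have hI := hL.int (3 / 8) (by norm_num) le_rfl
  have hom : 0 ≤ (Q:ℝ) * Skel.om m + 1 := by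
    have h := (hL.dat hQ (τ' := 1) (hS.τ_le.trans hε1) (hS.τ_le.trans hε1) (r := 3 / 16)
      (by norm_num) le_rfl).mass (3 / 16) (by norm_num) le_rfl
    exact nonneg_of_mul_nonneg_left (measureReal_nonneg.trans h) (by positivity)
  set M : ℝ := (Q:ℝ) * Skel.om m + 1 with hM
  set CD : ℝ := C₂ * (C₆ * (5 / 2) ^ m) * 2 ^ m + 4 * M with hCD
  have hCD0 : 0 ≤ CD := by positivity
  set CN : ℝ := Ck * 4 ^ (m + 2) + 2 * Ck + CD + 8 * n ^ 2 * M with hCN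
  have h4 : (1:ℝ) ≤ 4 ^ (m + 2) := one_le_pow₀ (by norm_num)
  have hA1 : Ck * 4 ^ (m + 2) ≤ CN := by
    have : 0 ≤ 8 * (n:ℝ) ^ 2 * M := by positivity
    linarith
  have hA2 : 2 * Ck ≤ CN := by
    have : 0 ≤ 8 * (n:ℝ) ^ 2 * M := by positivity
    have : 0 ≤ Ck * 4 ^ (m + 2) := by positivity
    linarith
  have hA3 : CD ≤ CN := by
    have : 0 ≤ 8 * (n:ℝ) ^ 2 * M := by positivity
    have : 0 ≤ Ck * 4 ^ (m + 2) := by positivity
    linarith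
  have hA4 : 8 * (n:ℝ) ^ 2 * M ≤ CN := by
    have : 0 ≤ Ck * 4 ^ (m + 2) := by positivity
    linarith
  have hA5 : (4:ℝ) ^ (m + 2) ≤ CN := by
    have : (4:ℝ) ^ (m + 2) ≤ Ck * 4 ^ (m + 2) := le_mul_of_one_le_left (by positivity) hCk
    linarith
  have hN : W5.Num X.c X.c' X.c₅ X.c₀ CN 3 (fun j => S.r (k₀ + j)) (fun j => S.h (k₀ + j)) δ
      (fun j t => hN m T (F.lift (S.u (k₀ + j))) ν t) (fun j y => (chain k K κ e S k₀).h j y) :=
    { C_ge := by linarith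
      c_pos := hX.c_pos
      c_le := hX.c_le
      gap := by
        have e1 := hX.c'_eq
        have e2 := hX.c₅_le
        have e3 := hX.c_pos
        rw [e1]; linarith
      c₅_nn := hX.c₅_pos.le
      c₀_pos := hX.c₀_pos
      r_pos := fun j => S.r_pos _
      r_lim := S.r_lim.comp (tendsto_add_atTop_nat k₀ |>.congr fun j => add_comm _ _)
      h_pos := fun j => S.h_pos _
      h_lt := fun j => (hsm _).lt_one
      h_lim := by
        refine squeeze_zero (fun j => (S.h_pos _).le) (g := fun j => S.r (k₀ + j)) (fun j => ?_)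
          (S.r_lim.comp (tendsto_add_atTop_nat k₀ |>.congr fun j => add_comm _ _))
        refine (S.h_pow _).trans ?_
        have h5 := r_le_316 S hε1 (k₀ + j)
        calc S.r (k₀ + j) ^ (8 * sW m) ≤ S.r (k₀ + j) ^ 1 :=
              pow_le_pow_of_le_one (S.r_pos _).le (by linarith) (by unfold sW; omega)
          _ = S.r (k₀ + j) := pow_one _
      succ := fun j => S.h_succ _
      th_le := fun j => (hsm _).th_le
      r_ge := fun j => (S.nxt _).r_ge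
      r_le := fun j => (S.nxt _).r_le
      gt := fun j t h5 h6 => (S.nxt (k₀ + j)).h_gt t h5 h6
      nn := fun j t ht => hN_nonneg ht
      dec := fun j t h5 h6 => by
        refine (dec_of S hsm hε1 hX hL hQ hS.τ_le hC₂ hC₆ hdec hsup k4 k5 (k₀ + j) h5 h6).trans ?_
        have ht0 : 0 < t := by
          have h7 : 0 < S.r (k₀ + j) * S.h (k₀ + j) ^ X.c₅ :=
            mul_pos (S.r_pos _) (Real.rpow_pos_of_pos (S.h_pos _) _)
          linarith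
        have h8 : 0 ≤ δ t := by
          refine hL.δ_nn t ht0 ?_
          have h9 := r_le_316 S hε1 (k₀ + j)
          have h10 := (hsm (k₀ + j)).th_pos
          have h11 := S.r_pos (k₀ + j)
          have h12 : S.r (k₀ + j) * (1 - 8 * th (S.h (k₀ + j))) ≤ S.r (k₀ + j) :=
            mul_le_of_le_one_right h11.le (by linarith)
          have h6' : 7 / 5 * t ≤ S.r (k₀ + j) * (1 - 8 * th (S.h (k₀ + j))) := h6
          linarith
        have h13 : 0 ≤ hN m T (F.lift (S.u (k₀ + (j + 1)))) ν (7 / 5 * t) :=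
          hN_nonneg (by positivity)
        have h14 : 0 < S.h (k₀ + j) ^ (X.c₀ / 2) := Real.rpow_pos_of_pos (S.h_pos _) _
        have h15 : 0 < S.h (k₀ + j) ^ (1 + 2 * X.c') := Real.rpow_pos_of_pos (S.h_pos _) _
        rw [show k₀ + j + 1 = k₀ + (j + 1) by ring]
        show _ ≤ CN * (δ t + S.h (k₀ + j) ^ (X.c₀ / 2))
          * hN m T (F.lift (S.u (k₀ + (j + 1)))) ν (7 / 5 * t)
          + CN * (S.r (k₀ + j) / t) ^ 2 * S.h (k₀ + j) ^ (1 + 2 * X.c')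
        gcongr
      acc := fun j i hji t ht htr => by
        have h5 : t ≤ 3 / 8 := by
          have h9 := r_le_316 S hε1 (k₀ + i)
          have h10 := (hsm (k₀ + i)).th_pos
          have h11 := S.r_pos (k₀ + i)
          have h12 : S.r (k₀ + i) * (1 - 8 * th (S.h (k₀ + i))) ≤ S.r (k₀ + i) :=
            mul_le_of_le_one_right h11.le (by linarith)
          have : t ≤ S.r (k₀ + i) := htr.trans h12
          linarith
        have h6 := h3 S k3 hI.cyl (k₀ + j) (k₀ + i + 1) (by omega) t ht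
          (by rw [Nat.add_sub_cancel]; exact htr) (ball_subset_ball h5) (M := M) (by
            have h7 := (hL.int t ht h5).mass
            have h8 := (abs_le.1 h7).2
            have h9 : τ * t ^ m ≤ 1 * t ^ m := by
              have : τ ≤ 1 := hS.τ_le.trans hε1
              gcongr
            rw [hM]; linarith)
        rw [show k₀ + j + 1 = k₀ + (j + 1) by ring, show k₀ + i + 1 = k₀ + (i + 1) by ring] at h6
        refine h6.trans ?_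
        have h15 : 0 < S.h (k₀ + j) ^ (1 + 4 * X.c) := Real.rpow_pos_of_pos (S.h_pos _) _
        show _ ≤ 2 * hN m T (F.lift (S.u (k₀ + (j + 1)))) ν t
          + CN * (S.r (k₀ + (j + 1)) / t) ^ 2 * S.h (k₀ + j) ^ (1 + 4 * X.c)
        gcongr
      mono := fun j s t hs hst ht4 htr => by
        have h5 := r_le_316 S hε1 (k₀ + j)
        have htr' : t ≤ S.r (k₀ + j) := htr
        refine (mono_of S hI (k₀ + j) hs hst ht4 (by linarith)).trans ?_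
        have h6 : 0 ≤ hN m T (F.lift (S.u (k₀ + j + 1))) ν t := hN_nonneg (hs.trans_le hst)
        rw [show k₀ + j + 1 = k₀ + (j + 1) by ring] at h6 ⊢
        gcongr
      δ_lim := hL.δ_lim
      hk_pos := fun j y h5 h6 => by
        have h7 := (hW j y ⟨h5, h6⟩).2.2.1
        have h8 : 0 < y := (low_range S hsm (k₀ + j) h5).1
        exact div_pos h7 (by positivity)
      hk_lt := fun j y h5 h6 => by
        have h7 := (hW j y ⟨h5, h6⟩).2.2.2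
        refine lt_of_le_of_lt h7 ?_
        rw [Real.exp_lt_one_iff]
        norm_num
      K1 := fun j y h5 h6 => by
        refine (k1_of S hsm hε1 hI hCk (k₀ + j) h5 h6 (fun t ht ht2 => (hK _ t ht).1 ht2)).trans ?_
        have h8 : 0 < y := (low_range S hsm (k₀ + j) h5).1
        have h9 := (hsm (k₀ + j)).th_pos
        have h10 : 0 ≤ hN m T (F.lift (S.u (k₀ + j + 1))) ν (y * (1 + th (S.h (k₀ + j)))) :=
          hN_nonneg (by positivity)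
        rw [show k₀ + j + 1 = k₀ + (j + 1) by ring] at h10 ⊢
        show _ ≤ CN * hN m T (F.lift (S.u (k₀ + (j + 1)))) ν (y * (1 + th (S.h (k₀ + j))))
        gcongr
      K2 := fun j y h5 h6 d h7 h8 => by
        have h9 := (hW j y ⟨h5, h6⟩).2.2.1
        have h10 : 0 < y := (low_range S hsm (k₀ + j) h5).1
        refine (k2_of S hsm hCk (k₀ + j) h5 h6 h9 (fun t ht d hd1 hd2 hd3 =>
          (hK _ t ht).2 d hd1 hd2 hd3) h7 h8).trans ?_
        have h11 : 0 < d := lt_of_lt_of_le (Real.rpow_pos_of_pos (S.h_pos _) _) h7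
        have h12 : 0 < Hw m T ν k (tube S (k₀ + j)) (wr S (k₀ + j)) y / y ^ 2 :=
          div_pos h9 (by positivity)
        show _ ≤ CN * d⁻¹ ^ 3 * (Hw m T ν k (tube S (k₀ + j)) (wr S (k₀ + j)) y / y ^ 2)
        gcongr }
  intro η hη
  obtain ⟨t₀, ht₀, H⟩ := W5.decay_abs hN η hη
  refine ⟨t₀, ht₀, fun i t s hi ht hs hs0 hB l x hl hx => ?_⟩
  exact H i t s hi.1 hi.2 ht (fun i x h5 h6 h7 => hB i x ⟨h5, h6⟩ h7) l x hl.1 hl.2 hx

end Vale.Agent.P214.INST
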