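import Vale.Agent.P214.INST.Sw

/-!
# P214, block INST: the dichotomy for the differential inequalities, real analysis (helper970)

At every scale `t` of window `k`, where all heights up to the adaptive collar are `≤ s`, there are a
relative collar `d` and a height bound `S'` such that the height of the reference of window `k` at
the scale `(1 + 2 d) t` is `≤ S'`, `(log 1/S')⁻⁹ ≤ d` and `(log 1/S')⁻²⁸ S' ≤ (log 1/s)⁻³ s`.
-/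

open Set Filter Topology

namespace Vale.Agent.P214.INST

noncomputable section

/-- the wanted pair (collar, height) -/
structure DS (S₀ R θ H t s d S' : ℝ) : Prop where
  d_pos : 0 < d
  d_le : d ≤ 1 / 2
  S_pos : 0 < S'
  S_le : S' ≤ S₀
  dS : ((Real.log S'⁻¹)⁻¹) ^ 9 ≤ d
  rad : (1 + 2 * d) * t < R * (1 - 9 * θ)
  tube : S' ^ (1 / 4 : ℝ) * t ≤ θ * R
  hgt : H ≤ S' * t ^ 2
  err : ((Real.log S'⁻¹)⁻¹) ^ 28 * S' ≤ ((Real.log s⁻¹)⁻¹) ^ 3 * s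

lemma ev_to_ex {p : ℝ → Prop} (h : ∀ᶠ s in 𝓝[>] (0:ℝ), p s) :
    ∃ t₁ : ℝ, 0 < t₁ ∧ ∀ s, 0 < s → s ≤ t₁ → p s := by
  rw [eventually_nhdsWithin_iff, Metric.eventually_nhds_iff] at h
  obtain ⟨ε, hε, h⟩ := h
  refine ⟨ε / 2, by positivity, fun x hx hxε => h ?_ hx⟩
  rw [dist_zero_right, Real.norm_eq_abs, abs_of_pos hx]
  linarith

/-- numerical facts for small `s` -/
lemma num_s {C₂ S₀ : ℝ} (hC₂ : 1 ≤ C₂) (hS₀ : 0 < S₀) : ∃ t₁ : ℝ, 0 < t₁ ∧ ∀ s, 0 < s → s ≤ t₁ →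
    2048 ≤ Real.log s⁻¹ ∧ ∀ S', 0 < S' → S' ≤ C₂ * Real.log s⁻¹ ^ 24 * s →
      S' ≤ S₀ ∧ ((Real.log S'⁻¹)⁻¹) ^ 9 ≤ ((Real.log s⁻¹)⁻¹) ^ 8 ∧
        S' ^ (1 / 4 : ℝ) ≤ ((Real.log s⁻¹)⁻¹) ^ 8 ∧
        ((Real.log S'⁻¹)⁻¹) ^ 28 * S' ≤ ((Real.log s⁻¹)⁻¹) ^ 3 * s := by
  apply ev_to_ex
  have a1 := (tendsto_rpow_div (1 / 2) (by norm_num) 24).eventually
    (gt_mem_nhds (show 0 < 1 / C₂ by positivity))
  have a2 := tendsto_log_inv.eventually (eventually_ge_atTop (max 2048 (2 ^ 28 * C₂)))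
  have a3 := (tendsto_rpow_div (1 / 2) (by norm_num) 0).eventually (gt_mem_nhds hS₀)
  have a4 := (tendsto_rpow_div (1 / 8) (by norm_num) 8).eventually
    (gt_mem_nhds (show (0:ℝ) < 1 by norm_num))
  filter_upwards [a1, a2, a3, a4, self_mem_nhdsWithin] with s b1 b2 b3 b4 hpos
  have hs : (0:ℝ) < s := hpos
  set Λ := Real.log s⁻¹ with hΛ
  have c1 : 2048 ≤ Λ := (le_max_left _ _).trans b2
  have c2 : 2 ^ 28 * C₂ ≤ Λ := (le_max_right _ _).trans b2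
  have hΛ0 : 0 < Λ := by linarith
  refine ⟨c1, fun S' hS' hle => ?_⟩
  have e0 : s = s ^ (1 / 2 : ℝ) * s ^ (1 / 2 : ℝ) := by
    rw [← Real.rpow_add hs]; norm_num
  have hsq : 0 < s ^ (1 / 2 : ℝ) := Real.rpow_pos_of_pos hs _
  have hS1 : S' ≤ s ^ (1 / 2 : ℝ) := by
    have h1 : C₂ * (s ^ (1 / 2 : ℝ) * Λ ^ 24) ≤ 1 := by
      calc C₂ * (s ^ (1 / 2 : ℝ) * Λ ^ 24) ≤ C₂ * (1 / C₂) := by gcongr
        _ = 1 := by field_simp
    calc S' ≤ C₂ * Λ ^ 24 * s := hle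
      _ = C₂ * Λ ^ 24 * (s ^ (1 / 2 : ℝ) * s ^ (1 / 2 : ℝ)) := by rw [← e0]
      _ = (C₂ * (s ^ (1 / 2 : ℝ) * Λ ^ 24)) * s ^ (1 / 2 : ℝ) := by ring
      _ ≤ 1 * s ^ (1 / 2 : ℝ) := by gcongr
      _ = _ := one_mul _
  have hL : Λ / 2 ≤ Real.log S'⁻¹ := by
    have h1 : Real.log (s ^ (1 / 2 : ℝ))⁻¹ ≤ Real.log S'⁻¹ :=
      Real.log_le_log (inv_pos.2 hsq) (inv_anti₀ hS' hS1)
    rw [Real.log_inv, Real.log_rpow hs] at h1
    have h2 : Real.log s = -Λ := by rw [hΛ, Real.log_inv]; ring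
    rw [h2] at h1
    linarith
  have hL0 : 0 < Real.log S'⁻¹ := by linarith
  have hinv : (Real.log S'⁻¹)⁻¹ ≤ 2 * Λ⁻¹ := by
    calc (Real.log S'⁻¹)⁻¹ ≤ (Λ / 2)⁻¹ := inv_anti₀ (by positivity) hL
      _ = 2 * Λ⁻¹ := by field_simp
  have hΛi : 0 < Λ⁻¹ := by positivity
  have hLi : 0 < (Real.log S'⁻¹)⁻¹ := by positivity
  have hm : Λ * Λ⁻¹ = 1 := mul_inv_cancel₀ hΛ0.ne'
  refine ⟨?_, ?_, ?_, ?_⟩
  · rw [pow_zero, mul_one] at b3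
    exact hS1.trans b3.le
  · calc ((Real.log S'⁻¹)⁻¹) ^ 9 ≤ (2 * Λ⁻¹) ^ 9 := pow_le_pow_left₀ hLi.le hinv 9
      _ = (512 * Λ⁻¹) * (Λ⁻¹) ^ 8 := by ring
      _ ≤ 1 * (Λ⁻¹) ^ 8 := by
          gcongr
          calc 512 * Λ⁻¹ ≤ Λ * Λ⁻¹ := by gcongr; linarith
            _ = 1 := hm
      _ = _ := one_mul _
  · calc S' ^ (1 / 4 : ℝ) ≤ (s ^ (1 / 2 : ℝ)) ^ (1 / 4 : ℝ) :=
          Real.rpow_le_rpow hS'.le hS1 (by norm_num)
      _ = s ^ (1 / 8 : ℝ) := by rw [← Real.rpow_mul hs.le]; norm_num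
      _ = s ^ (1 / 8 : ℝ) * Λ ^ 8 * (Λ⁻¹) ^ 8 := by
          rw [mul_assoc, ← mul_pow, hm, one_pow, mul_one]
      _ ≤ 1 * (Λ⁻¹) ^ 8 := by gcongr
      _ = _ := one_mul _
  · calc ((Real.log S'⁻¹)⁻¹) ^ 28 * S' ≤ (2 * Λ⁻¹) ^ 28 * (C₂ * Λ ^ 24 * s) :=
          mul_le_mul (pow_le_pow_left₀ hLi.le hinv 28) hle hS'.le (by positivity)
      _ = (2 ^ 28 * C₂) * (Λ * Λ⁻¹) ^ 24 * (Λ⁻¹) ^ 4 * s := by ring
      _ = (2 ^ 28 * C₂) * (Λ⁻¹) ^ 4 * s := by rw [hm, one_pow, mul_one]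
      _ ≤ Λ * (Λ⁻¹) ^ 4 * s := by gcongr
      _ = (Λ * Λ⁻¹) * (Λ⁻¹) ^ 3 * s := by ring
      _ = _ := by rw [hm, one_mul]

/-- numerical facts for small `h` -/
structure Nh (S₀ h : ℝ) : Prop where
  n1 : 4 * h ^ (3 / 4 : ℝ) ≤ S₀
  n2 : ((Real.log (4 * h ^ (3 / 4 : ℝ))⁻¹)⁻¹) ^ 9 ≤ thI h / 4
  n3 : (4 * h ^ (3 / 4 : ℝ)) ^ (1 / 4 : ℝ) ≤ thI h
  n4 : ((Real.log (4 * h ^ (3 / 4 : ℝ))⁻¹)⁻¹) ^ 28 * (4 * h ^ (3 / 4 : ℝ)) ≤
    ((Real.log h⁻¹)⁻¹) ^ 3 * h ^ (1 / 2 : ℝ)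
  n5 : h ^ (1 / 8 : ℝ) ≤ ((2 * Real.log h⁻¹)⁻¹) ^ 8

lemma exists_Nh {S₀ : ℝ} (hS₀ : 0 < S₀) : ∃ t₁ : ℝ, 0 < t₁ ∧ ∀ h, 0 < h → h ≤ t₁ → Nh S₀ h := by
  apply ev_to_ex
  have a1 := (tendsto_rpow_div (1 / 4) (by norm_num) 0).eventually
    (gt_mem_nhds (show (0:ℝ) < 1 / 4 by norm_num))
  have a2 := tendsto_log_inv.eventually (eventually_ge_atTop 4000)
  have a3 := (tendsto_rpow_div (3 / 4) (by norm_num) 0).eventually
    (gt_mem_nhds (show 0 < S₀ / 4 by positivity))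
  have a4 := ev_small (δ := 1 / 8) (by norm_num) 1 (η := 1) (by norm_num)
  have a5 := (tendsto_rpow_div (1 / 4) (by norm_num) 3).eventually
    (gt_mem_nhds (show (0:ℝ) < 1 / 4 by norm_num))
  have a6 := (tendsto_rpow_div (1 / 8) (by norm_num) 8).eventually
    (gt_mem_nhds (show (0:ℝ) < 1 / 256 by norm_num))
  filter_upwards [a1, a2, a3, a4, a5, a6, self_mem_nhdsWithin] with h b1 b2 b3 b4 b5 b6 hpos
  have hh : (0:ℝ) < h := hpos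
  set Λ := Real.log h⁻¹ with hΛ
  have hΛ0 : 0 < Λ := by linarith
  have hm : Λ * Λ⁻¹ = 1 := mul_inv_cancel₀ hΛ0.ne'
  have hΛi : 0 < Λ⁻¹ := by positivity
  rw [pow_zero, mul_one] at b1 b3
  have hq : 0 < h ^ (1 / 4 : ℝ) := Real.rpow_pos_of_pos hh _
  have hhf : 0 < h ^ (1 / 2 : ℝ) := Real.rpow_pos_of_pos hh _
  have e1 : h ^ (3 / 4 : ℝ) = h ^ (1 / 4 : ℝ) * h ^ (1 / 2 : ℝ) := by
    rw [← Real.rpow_add hh]; norm_num
  set S' := 4 * h ^ (3 / 4 : ℝ) with hS'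
  have hS'0 : 0 < S' := by positivity
  have hS1 : S' ≤ h ^ (1 / 2 : ℝ) := by
    rw [hS', e1]
    calc 4 * (h ^ (1 / 4 : ℝ) * h ^ (1 / 2 : ℝ)) = (4 * h ^ (1 / 4 : ℝ)) * h ^ (1 / 2 : ℝ) := by ring
      _ ≤ 1 * h ^ (1 / 2 : ℝ) := by gcongr; linarith
      _ = _ := one_mul _
  have hL : Λ / 2 ≤ Real.log S'⁻¹ := by
    have h1 : Real.log (h ^ (1 / 2 : ℝ))⁻¹ ≤ Real.log S'⁻¹ :=
      Real.log_le_log (inv_pos.2 hhf) (inv_anti₀ hS'0 hS1)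
    rw [Real.log_inv, Real.log_rpow hh] at h1
    have h2 : Real.log h = -Λ := by rw [hΛ, Real.log_inv]; ring
    rw [h2] at h1
    linarith
  have hL0 : 0 < Real.log S'⁻¹ := by linarith
  have hinv : (Real.log S'⁻¹)⁻¹ ≤ 2 * Λ⁻¹ := by
    calc (Real.log S'⁻¹)⁻¹ ≤ (Λ / 2)⁻¹ := inv_anti₀ (by positivity) hL
      _ = 2 * Λ⁻¹ := by field_simp
  have hLi : 0 < (Real.log S'⁻¹)⁻¹ := by positivity
  have hi1 : Λ⁻¹ ≤ 1 / 4000 := by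
    rw [inv_eq_one_div]; exact one_div_le_one_div_of_le (by norm_num) b2
  refine ⟨by linarith, ?_, ?_, ?_, ?_⟩
  · unfold thI
    rw [← hΛ]
    calc ((Real.log S'⁻¹)⁻¹) ^ 9 ≤ (2 * Λ⁻¹) ^ 9 := pow_le_pow_left₀ hLi.le hinv 9
      _ = (512 * (Λ⁻¹ * Λ⁻¹)) * (Λ⁻¹) ^ 7 := by ring
      _ ≤ (1 / 4) * (Λ⁻¹) ^ 7 := by
          gcongr
          nlinarith
      _ = _ := by ring
  · calc S' ^ (1 / 4 : ℝ) ≤ (h ^ (1 / 2 : ℝ)) ^ (1 / 4 : ℝ) :=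
          Real.rpow_le_rpow hS'0.le hS1 (by norm_num)
      _ = h ^ (1 / 8 : ℝ) := by rw [← Real.rpow_mul hh.le]; norm_num
      _ ≤ 1 * thI h ^ 1 := b4
      _ = _ := by rw [one_mul, pow_one]
  · have h3 : ((Real.log S'⁻¹)⁻¹) ^ 28 ≤ 1 := by
      refine pow_le_one₀ hLi.le (hinv.trans (by linarith))
    have h4 : S' ≤ (Λ⁻¹) ^ 3 * h ^ (1 / 2 : ℝ) := by
      rw [hS', e1]
      have h5 : 4 * h ^ (1 / 4 : ℝ) ≤ (Λ⁻¹) ^ 3 := by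
        calc 4 * h ^ (1 / 4 : ℝ) = 4 * h ^ (1 / 4 : ℝ) * (Λ * Λ⁻¹) ^ 3 := by
              rw [hm, one_pow, mul_one]
          _ = (4 * (h ^ (1 / 4 : ℝ) * Λ ^ 3)) * (Λ⁻¹) ^ 3 := by ring
          _ ≤ 1 * (Λ⁻¹) ^ 3 := by gcongr; linarith
          _ = _ := one_mul _
      calc 4 * (h ^ (1 / 4 : ℝ) * h ^ (1 / 2 : ℝ)) = (4 * h ^ (1 / 4 : ℝ)) * h ^ (1 / 2 : ℝ) := by
            ring
        _ ≤ _ := by gcongr
    calc ((Real.log S'⁻¹)⁻¹) ^ 28 * S' ≤ 1 * S' := by gcongr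
      _ = S' := one_mul _
      _ ≤ _ := h4
  · calc h ^ (1 / 8 : ℝ) = h ^ (1 / 8 : ℝ) * Λ ^ 8 * (Λ⁻¹) ^ 8 := by
          rw [mul_assoc, ← mul_pow, hm, one_pow, mul_one]
      _ ≤ (1 / 256) * (Λ⁻¹) ^ 8 := by gcongr
      _ = (2⁻¹ : ℝ) ^ 8 * (Λ⁻¹) ^ 8 := by congr 1; norm_num
      _ = ((2 * Λ)⁻¹) ^ 8 := by rw [mul_inv, mul_pow]

/-- the heights in the adaptive collar: if `x ≤ t (1 + 4 Λ⁻⁸)`, `Λ = log 1/s`, the height at `x` is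
at most `s`. -/
lemma adapt {X : ABS.Chain} {t s : ℝ} (ht : 0 < t) (hs : 0 < s) (hΛ : 2048 ≤ Real.log s⁻¹)
    (hB : X.Bdd t s) (h1 : ∀ i x, X.Win i x → X.h i x ≤ 1 / 2) {i : ℕ} {x : ℝ} (hx : X.Win i x)
    (hxt : x ≤ t * (1 + 4 * ((Real.log s⁻¹)⁻¹) ^ 8)) : X.h i x ≤ s := by
  by_contra hcon
  have hlt := not_le.1 hcon
  refine hcon (hB i x hx (hxt.trans ?_))
  set Λ := Real.log s⁻¹ with hΛd
  have hΛ0 : 0 < Λ := by linarith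
  have h2 : X.L i x ≤ Λ := Real.log_le_log (inv_pos.2 (hs.trans hlt)) (inv_anti₀ hs hlt.le)
  have h3 : 0 < X.L i x := Real.log_pos (by
    rw [one_lt_inv₀ (hs.trans hlt)]; linarith [h1 i x hx])
  have h4 : Λ⁻¹ ≤ (X.L i x)⁻¹ := inv_anti₀ h3 h2
  have h5 : (Λ⁻¹) ^ 6 ≤ ((X.L i x)⁻¹) ^ 6 := pow_le_pow_left₀ (by positivity) h4 6
  have h6 : 4 * (Λ⁻¹) ^ 8 ≤ (Λ⁻¹) ^ 6 := by
    have h7 : Λ⁻¹ ≤ 1 / 2048 := by
      rw [inv_eq_one_div]; exact one_div_le_one_div_of_le (by norm_num) hΛ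
    have h8 : 0 < Λ⁻¹ := by positivity
    have h9 : 4 * (Λ⁻¹ * Λ⁻¹) ≤ 1 := by nlinarith
    calc 4 * (Λ⁻¹) ^ 8 = (4 * (Λ⁻¹ * Λ⁻¹)) * (Λ⁻¹) ^ 6 := by ring
      _ ≤ 1 * (Λ⁻¹) ^ 6 := by gcongr
      _ = _ := one_mul _
  have h10 : 4 * (Λ⁻¹) ^ 8 ≤ ((X.L i x)⁻¹) ^ 6 := h6.trans h5
  gcongr

/-! ### smallness -/

/-- smallness conditions at one height -/
structure DSm (c c₀ h : ℝ) : Prop where
  pos : 0 < h
  big : 4000 ≤ Real.log h⁻¹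
  le_one : h ≤ 1
  s6 : h ^ (1 + 2 * c) ≤ c₀ * thI h ^ 3 * h ^ (1 + c)
  s7 : h ^ 2 ≤ c₀ * thI h ^ 3 * h ^ (1 + c)

lemma exists_DSm {c c₀ : ℝ} (hc : 0 < c) (hc1 : c < 1) (hc₀ : 0 < c₀) :
    ∃ t₁ : ℝ, 0 < t₁ ∧ ∀ h, 0 < h → h ≤ t₁ → DSm c c₀ h := by
  apply ev_to_ex
  have a0 := tendsto_log_inv.eventually (eventually_ge_atTop 4000)
  have a1 : ∀ᶠ h in 𝓝[>] (0:ℝ), h ≤ 1 := by
    filter_upwards [Ioo_mem_nhdsGT (show (0:ℝ) < 1 by norm_num)] with h hh using hh.2.le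
  have a2 := ev_small hc 3 hc₀
  have a3 := ev_small (δ := 1 - c) (by linarith) 3 hc₀
  filter_upwards [a0, a1, a2, a3, self_mem_nhdsWithin] with h b0 b1 b2 b3 hpos
  have hp : (0:ℝ) < h := hpos
  refine ⟨hp, b0, b1, ?_, ?_⟩
  · calc h ^ (1 + 2 * c) = h ^ c * h ^ (1 + c) := by
          rw [← Real.rpow_add hp]; congr 1; ring
      _ ≤ _ := by gcongr
  · calc h ^ 2 = h ^ (1 - c) * h ^ (1 + c) := by
          rw [← Real.rpow_add hp, ← Real.rpow_natCast]; congr 1; push_cast; ring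
      _ ≤ _ := by gcongr

section

variable {c c₀ h p : ℝ}

lemma DSm.th_pos (S : DSm c c₀ h) : 0 < thI h := by
  unfold thI
  have := S.big
  positivity

lemma DSm.th_le (S : DSm c c₀ h) : thI h ≤ 1 / 4000 := by
  unfold thI
  have hb := S.big
  have h1 : (Real.log h⁻¹)⁻¹ ≤ 1 / 4000 := by
    rw [inv_eq_one_div]; exact one_div_le_one_div_of_le (by norm_num) hb
  have h0 : 0 ≤ (Real.log h⁻¹)⁻¹ := by positivity
  calc (Real.log h⁻¹)⁻¹ ^ 7 ≤ (1 / 4000 : ℝ) ^ 7 := pow_le_pow_left₀ h0 h1 7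
    _ ≤ 1 / 4000 := by norm_num

lemma DSm.th_mono (S : DSm c c₀ h) {h' : ℝ} (h0 : 0 < h') (hh : h' ≤ h) : thI h' ≤ thI h := by
  unfold thI
  have h1 : Real.log h⁻¹ ≤ Real.log h'⁻¹ :=
    Real.log_le_log (inv_pos.2 S.pos) (inv_anti₀ h0 hh)
  have h2 : 0 < Real.log h⁻¹ := by linarith [S.big]
  exact pow_le_pow_left₀ (inv_nonneg.2 (h2.le.trans h1)) (inv_anti₀ h2 h1) 7

/-- the adaptive collar at a point of height `p` is much larger than the collar of the windows -/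
lemma DSm.collar (S : DSm c c₀ h) (hp : h ^ 2 ≤ p) (hp1 : p ≤ 1 / 2) :
    30 * thI h ≤ ((Real.log p⁻¹)⁻¹) ^ 6 := by
  have hp0 : 0 < p := lt_of_lt_of_le (pow_pos S.pos 2) hp
  have hb := S.big
  have h1 : Real.log p⁻¹ ≤ 2 * Real.log h⁻¹ := by
    have : Real.log p⁻¹ ≤ Real.log (h ^ 2)⁻¹ :=
      Real.log_le_log (inv_pos.2 hp0) (inv_anti₀ (pow_pos S.pos 2) hp)
    rw [← inv_pow, Real.log_pow] at this
    exact_mod_cast this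
  have h2 : 0 < Real.log p⁻¹ := Real.log_pos (by
    rw [one_lt_inv₀ hp0]; linarith)
  have h3 : (2 * Real.log h⁻¹)⁻¹ ^ 6 ≤ ((Real.log p⁻¹)⁻¹) ^ 6 :=
    pow_le_pow_left₀ (by positivity) (inv_anti₀ h2 h1) 6
  refine le_trans ?_ h3
  unfold thI
  set L := Real.log h⁻¹ with hL
  have hL0 : 0 < L := by linarith
  rw [inv_pow, inv_pow, mul_pow, mul_inv, ← div_eq_mul_inv, ← div_eq_mul_inv,
    div_le_div_iff₀ (by positivity) (by positivity)]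
  have : (30:ℝ) * 2 ^ 6 ≤ L := by linarith
  rw [inv_mul_eq_div, le_div_iff₀ (by norm_num)]
  calc 30 * L ^ 6 * 2 ^ 6 = (30 * 2 ^ 6) * L ^ 6 := by ring
    _ ≤ L * L ^ 6 := by gcongr
    _ = L ^ 7 := by ring

end

/-- a point `y` slightly above `R` is in the adaptive collar of every `t ≥ R (1 - 23 θ)` -/
lemma in_collar' {R θ δ t y : ℝ} (hR : 0 < R) (hθ : 0 < θ) (hθ1 : θ ≤ 1 / 4000)
    (hδ : 30 * θ ≤ δ) (hδ1 : δ ≤ 1 / 10) (ht : R * (1 - 23 * θ) ≤ t)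
    (hy : y ≤ R * (1 + δ / 30)) : y ≤ t * (1 + δ) := by
  have h1 : 0 ≤ R * (1 - 23 * θ) := mul_nonneg hR.le (by linarith)
  have hδ0 : 0 ≤ δ := by linarith
  calc y ≤ R * (1 + δ / 30) := hy
    _ ≤ (R * (1 - 23 * θ)) * (1 + δ) := by
        rw [mul_assoc]
        refine mul_le_mul_of_nonneg_left ?_ hR.le
        nlinarith [mul_nonneg hδ0 (show 0 ≤ δ - 30 * θ by linarith)]
    _ ≤ t * (1 + δ) := mul_le_mul_of_nonneg_right ht (by linarith)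

lemma close_num {R θ d t : ℝ} (hR : 0 ≤ R) (hθ : 0 ≤ θ) (hd : 0 ≤ d) (hd1 : d ≤ θ / 8)
    (hθ1 : θ ≤ 1 / 4000) (h : R * (1 - 10 * θ) < (1 + 2 * d) * t) (ht : 0 < t) :
    R * (1 - 11 * θ) ≤ t := by
  have h6 : 0 ≤ 1 - 2 * d := by linarith
  have h5 : R * (1 - 10 * θ) * (1 - 2 * d) ≤ t := by
    calc R * (1 - 10 * θ) * (1 - 2 * d) ≤ ((1 + 2 * d) * t) * (1 - 2 * d) :=
          mul_le_mul_of_nonneg_right h.le h6
      _ = (1 - 4 * d ^ 2) * t := by ring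
      _ ≤ 1 * t := mul_le_mul_of_nonneg_right (by nlinarith) ht.le
      _ = t := one_mul _
  refine le_trans ?_ h5
  rw [mul_assoc]
  refine mul_le_mul_of_nonneg_left ?_ hR
  nlinarith [mul_nonneg hθ hd]

/-! ### the input -/

/-- what the geometry has to deliver -/
structure DichIn (c c₀ C₁ : ℝ) (r h : ℕ → ℝ) (X : ABS.Chain) : Prop where
  r_pos : ∀ k, 0 < r k
  h_pos : ∀ k, 0 < h k
  h_next : ∀ k, h (k + 1) ≤ h k
  r_le : ∀ k, r (k + 1) ≤ r k * (1 - 12 * thI (h k))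
  T_eq : X.T = TI r h
  h_lim : Tendsto h atTop (𝓝 0)
  small : ∀ k, DSm c c₀ (h k)
  win_le : ∀ k x, X.Win k x → X.h k x ≤ Real.exp (-10)
  /-- window `k` is not tiny -/
  low' : ∀ k, r (k + 1) < r k * (1 - 12 * thI (h k)) →
    c₀ * thI (h k) ^ 3 * h k ^ (1 + c) ≤ X.h k (r (k + 1) * (1 + thI (h k)))
  low : ∀ k, ∃ y, X.Win k y ∧ c₀ * thI (h (k + 1)) ^ 3 * h (k + 1) ≤ X.h k y ∧
    y ≤ r (k + 1) * (1 + ((X.L k y)⁻¹) ^ 6 / 30)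
  top : ∀ k x, TI r h (k + 1) ≤ x → x ≤ r k * (1 - 9 * thI (h k)) → X.h k x ≤ h k ^ (3 / 4 : ℝ)
  cmp : ∀ k x d, TI r h (k + 1) ≤ x → h k ^ (1 / 8 : ℝ) ≤ d → d ≤ 1 / 2 →
    x * (1 + d) ≤ r (k + 1) * (1 - 9 * thI (h (k + 1))) →
    X.h (k + 1) x ≤ C₁ * ((d⁻¹) ^ 3 * X.h k (x * (1 + d)) + h k ^ (1 + 2 * c))

section

variable {c c₀ C₁ S₀ : ℝ} {r h : ℕ → ℝ} {X : ABS.Chain} {l : ℕ} {t s d : ℝ}

lemma DichIn.th_mono (I : DichIn c c₀ C₁ r h X) (k : ℕ) : thI (h (k + 1)) ≤ thI (h k) :=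
  (I.small k).th_mono (I.h_pos _) (I.h_next k)

/-- the collar above `r (k+1)` lies in window `k` -/
lemma DichIn.le_TI (I : DichIn c c₀ C₁ r h X) (k : ℕ) :
    r (k + 1) * (1 + thI (h k)) ≤ TI r h k := by
  have h1 := (I.small k).th_pos
  have h2 := (I.small k).th_le
  have h3 := I.r_pos k
  calc r (k + 1) * (1 + thI (h k)) ≤ (r k * (1 - 12 * thI (h k))) * (1 + thI (h k)) :=
        mul_le_mul_of_nonneg_right (I.r_le k) (by linarith)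
    _ ≤ TI r h k := by unfold TI; nlinarith [mul_pos h3 h1, mul_pos (mul_pos h3 h1) h1]

lemma DichIn.TI_pos (I : DichIn c c₀ C₁ r h X) (k : ℕ) : 0 < TI r h k :=
  mul_pos (I.r_pos k) (by linarith [(I.small k).th_le])

lemma DichIn.TI_le (I : DichIn c c₀ C₁ r h X) (k : ℕ) : TI r h k ≤ r k := by
  have h1 := (I.small k).th_pos
  have h3 := I.r_pos k
  unfold TI
  nlinarith [mul_pos h3 h1]

lemma DichIn.TI_anti (I : DichIn c c₀ C₁ r h X) (k : ℕ) : TI r h (k + 1) < TI r h k := by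
  have h1 := (I.small k).th_pos
  have h3 := I.r_pos (k + 1)
  calc TI r h (k + 1) ≤ r (k + 1) := I.TI_le _
    _ < r (k + 1) * (1 + thI (h k)) := by nlinarith [mul_pos h3 h1]
    _ ≤ _ := I.le_TI k

lemma DichIn.half (I : DichIn c c₀ C₁ r h X) : ∀ i x, X.Win i x → X.h i x ≤ 1 / 2 := by
  intro i x hx
  refine (I.win_le i x hx).trans ?_
  rw [Real.exp_neg, inv_le_comm₀ (Real.exp_pos _) (by norm_num)]
  have := Real.add_one_le_exp (10:ℝ)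
  linarith

lemma DichIn.L6 (I : DichIn c c₀ C₁ r h X) {i : ℕ} {x : ℝ} (hx : X.Win i x)
    (h0 : 0 < X.h i x) : ((X.L i x)⁻¹) ^ 6 ≤ 1 / 10 := by
  have h1 : 10 ≤ X.L i x := by
    have h2 := Real.log_le_log h0 (I.win_le i x hx)
    rw [Real.log_exp] at h2
    unfold ABS.Chain.L
    rw [Real.log_inv]
    linarith
  have h2 : (X.L i x)⁻¹ ≤ 1 / 10 := by
    rw [inv_eq_one_div]; exact one_div_le_one_div_of_le (by norm_num) h1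
  have h3 : 0 ≤ (X.L i x)⁻¹ := by positivity
  calc ((X.L i x)⁻¹) ^ 6 ≤ (1 / 10 : ℝ) ^ 6 := pow_le_pow_left₀ h3 h2 6
    _ ≤ 1 / 10 := by norm_num

/-- close to the top of a window, `s` is at least the height of the previous window -/
lemma low_s (hc : 0 < c) (hc₀ : 0 < c₀) (I : DichIn c c₀ C₁ r h X) (hB : X.Bdd t s)
    (ht : r (l + 2) * (1 - 11 * thI (h (l + 2))) ≤ t) :
    c₀ * thI (h (l + 1)) ^ 3 * h (l + 1) ^ (1 + c) ≤ s := by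
  have hθ := fun k => (I.small k).th_pos
  have hθ1 := fun k => (I.small k).th_le
  have hh0 := I.h_pos
  have h2 : thI (h (l + 2)) ≤ thI (h (l + 1)) := I.th_mono (l + 1)
  have a1 := I.r_pos (l + 2)
  have a2 := I.r_pos (l + 1)
  have a3 := hθ (l + 2)
  have a4 := hθ (l + 1)
  have a5 := hθ1 (l + 1)
  have hp : 0 < c₀ * thI (h (l + 1)) ^ 3 * h (l + 1) ^ (1 + c) :=
    mul_pos (mul_pos hc₀ (pow_pos a4 3)) (Real.rpow_pos_of_pos (hh0 _) _)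
  by_cases hk : r (l + 2) < r (l + 1) * (1 - 12 * thI (h (l + 1)))
  · have e1 := I.low' (l + 1) hk
    refine e1.trans ?_
    have hwin : X.Win (l + 1) (r (l + 2) * (1 + thI (h (l + 1)))) := by
      rw [ABS.Chain.Win, I.T_eq]
      refine ⟨(I.TI_le (l + 2)).trans ?_, I.le_TI (l + 1)⟩
      nlinarith [mul_pos a1 a4]
    have e3 := (I.small (l + 1)).collar ((I.small (l + 1)).s7.trans e1) (I.half _ _ hwin)
    refine hB _ _ hwin (in_collar' a1 a4 a5 e3 (I.L6 hwin (hp.trans_le e1)) ?_ ?_)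
    · refine le_trans (mul_le_mul_of_nonneg_left ?_ a1.le) ht
      linarith
    · refine mul_le_mul_of_nonneg_left ?_ a1.le
      have : thI (h (l + 1)) ≤ ((Real.log (X.h (l + 1) (r (l + 2) *
        (1 + thI (h (l + 1)))))⁻¹)⁻¹) ^ 6 / 30 := by linarith
      exact (add_le_add_iff_left 1).2 this
  · have hr : r (l + 2) = r (l + 1) * (1 - 12 * thI (h (l + 1))) :=
      le_antisymm (I.r_le (l + 1)) (not_lt.1 hk)
    obtain ⟨y, hwin, e1, hy⟩ := I.low l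
    have e2 : c₀ * thI (h (l + 1)) ^ 3 * h (l + 1) ^ (1 + c) ≤
        c₀ * thI (h (l + 1)) ^ 3 * h (l + 1) := by
      have h3 : h (l + 1) ^ (1 + c) ≤ h (l + 1) := by
        calc h (l + 1) ^ (1 + c) ≤ h (l + 1) ^ (1:ℝ) :=
              Real.rpow_le_rpow_of_exponent_ge (hh0 _) (I.small (l + 1)).le_one (by linarith)
          _ = _ := Real.rpow_one _
      exact mul_le_mul_of_nonneg_left h3 (by positivity)
    have e3 := e2.trans e1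
    refine e3.trans ?_
    have e4 := (I.small (l + 1)).collar ((I.small (l + 1)).s7.trans e3) (I.half _ _ hwin)
    refine hB _ _ hwin (in_collar' a2 a4 a5 e4 (I.L6 hwin (hp.trans_le e3)) ?_ hy)
    refine le_trans ?_ ht
    rw [hr, mul_assoc]
    refine mul_le_mul_of_nonneg_left ?_ a2.le
    nlinarith [mul_pos a3 a4]

/-- the facts which are common to all cases -/
structure Com (c c₀ C₁ S₀ : ℝ) (r h : ℕ → ℝ) (X : ABS.Chain) (l : ℕ) (t s : ℝ) : Prop where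
  I : DichIn c c₀ C₁ r h X
  ht : 0 < t
  hs : 0 < s
  hw : X.Win (l + 2) t
  hB : X.Bdd t s
  hΛ : 2048 ≤ Real.log s⁻¹
  hnum : ∀ S', 0 < S' → S' ≤ 8 * C₁ * Real.log s⁻¹ ^ 24 * s →
      S' ≤ S₀ ∧ ((Real.log S'⁻¹)⁻¹) ^ 9 ≤ ((Real.log s⁻¹)⁻¹) ^ 8 ∧
        S' ^ (1 / 4 : ℝ) ≤ ((Real.log s⁻¹)⁻¹) ^ 8 ∧
        ((Real.log S'⁻¹)⁻¹) ^ 28 * S' ≤ ((Real.log s⁻¹)⁻¹) ^ 3 * s
  n2 : Nh S₀ (h (l + 2))
  n1 : Nh S₀ (h (l + 1))

lemma X_H_eq (X : ABS.Chain) (k : ℕ) {x : ℝ} (hx : 0 < x) : X.H k x = X.h k x * x ^ 2 := by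
  unfold ABS.Chain.h
  rw [div_mul_cancel₀]
  positivity

lemma Com.d_facts (K : Com c c₀ C₁ S₀ r h X l t s) :
    0 < ((Real.log s⁻¹)⁻¹) ^ 8 ∧ ((Real.log s⁻¹)⁻¹) ^ 8 ≤ 1 / 2048 := by
  have hΛ := K.hΛ
  set Λ := Real.log s⁻¹ with hΛd
  have hΛ0 : 0 < Λ := by linarith
  have hΛi : 0 < Λ⁻¹ := by positivity
  have hi1 : Λ⁻¹ ≤ 1 / 2048 := by
    rw [inv_eq_one_div]; exact one_div_le_one_div_of_le (by norm_num) hΛ
  refine ⟨by positivity, ?_⟩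
  calc (Λ⁻¹) ^ 8 ≤ (Λ⁻¹) ^ 1 := pow_le_pow_of_le_one hΛi.le (by linarith) (by norm_num)
    _ ≤ _ := by rw [pow_one]; exact hi1

lemma Com.T_eq (K : Com c c₀ C₁ S₀ r h X l t s) (k : ℕ) :
    X.T k = r k * (1 - 10 * thI (h k)) := by
  rw [K.I.T_eq]; rfl

lemma Com.t_le (K : Com c c₀ C₁ S₀ r h X l t s) : t ≤ r (l + 2) := by
  refine K.hw.2.trans ?_
  rw [K.T_eq]
  have := K.I.r_pos (l + 2)
  have := (K.I.small (l + 2)).th_pos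
  nlinarith

/-- case (i) -/
lemma Com.case_i (K : Com c c₀ C₁ S₀ r h X l t s) (hC₁ : 1 ≤ C₁)
    (hcase : (1 + 2 * ((Real.log s⁻¹)⁻¹) ^ 8) * t ≤ X.T (l + 2)) :
    ∃ d S', DS S₀ (r (l + 2)) (thI (h (l + 2))) (X.H (l + 2) ((1 + 2 * d) * t)) t s d S' := by
  obtain ⟨hd0, hd1⟩ := K.d_facts
  obtain ⟨d, hd⟩ : ∃ d, d = ((Real.log s⁻¹)⁻¹) ^ 8 := ⟨_, rfl⟩
  rw [← hd] at hcase hd0 hd1
  have ht0 := K.ht
  have hs := K.hs
  have a1 := K.I.r_pos (l + 2)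
  have a2 := (K.I.small (l + 2)).th_pos
  have hw : X.Win (l + 2) ((1 + 2 * d) * t) := ⟨K.hw.1.trans (by nlinarith), hcase⟩
  have hx0 : 0 < (1 + 2 * d) * t := by positivity
  have e1 : X.h (l + 2) ((1 + 2 * d) * t) ≤ s :=
    adapt ht0 hs K.hΛ K.hB K.I.half hw (by rw [← hd]; nlinarith)
  have h9 : (1 + 2 * d) * t < r (l + 2) * (1 - 9 * thI (h (l + 2))) := by
    refine hcase.trans_lt ?_
    rw [K.T_eq]
    exact mul_lt_mul_of_pos_left (by linarith) a1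
  have e2 : X.h (l + 2) ((1 + 2 * d) * t) ≤ h (l + 2) ^ (3 / 4 : ℝ) :=
    K.I.top _ _ (by rw [← K.I.T_eq]; exact hw.1) h9.le
  have hq0 : 0 < h (l + 2) ^ (3 / 4 : ℝ) := Real.rpow_pos_of_pos (K.I.h_pos _) _
  obtain ⟨S, hSd⟩ : ∃ S, S = min s (h (l + 2) ^ (3 / 4 : ℝ)) := ⟨_, rfl⟩
  have hS0 : 0 < S := by rw [hSd]; exact lt_min hs hq0
  have hSs : S ≤ s := by rw [hSd]; exact min_le_left _ _
  have hSh : S ≤ h (l + 2) ^ (3 / 4 : ℝ) := by rw [hSd]; exact min_le_right _ _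
  have he : X.h (l + 2) ((1 + 2 * d) * t) ≤ S := by rw [hSd]; exact le_min e1 e2
  have hsC : 4 * S ≤ 8 * C₁ * Real.log s⁻¹ ^ 24 * s := by
    have h2 : (1:ℝ) ≤ Real.log s⁻¹ ^ 24 := one_le_pow₀ (by linarith [K.hΛ])
    have h3 : (4:ℝ) ≤ 8 * C₁ * Real.log s⁻¹ ^ 24 := by nlinarith
    calc 4 * S ≤ 4 * s := by linarith
      _ ≤ _ := mul_le_mul_of_nonneg_right h3 hs.le
  obtain ⟨q1, q2, q3, q4⟩ := K.hnum (4 * S) (by positivity) hsC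
  refine ⟨d, 4 * S, hd0, by linarith, by positivity, q1, by rw [hd]; exact q2, h9, ?_, ?_, q4⟩
  · calc (4 * S) ^ (1 / 4 : ℝ) * t
        ≤ (4 * h (l + 2) ^ (3 / 4 : ℝ)) ^ (1 / 4 : ℝ) * r (l + 2) :=
          mul_le_mul (Real.rpow_le_rpow (by positivity) (by linarith) (by norm_num)) K.t_le ht0.le
            (by positivity)
      _ ≤ _ := mul_le_mul_of_nonneg_right K.n2.n3 a1.le
  · rw [X_H_eq X _ hx0]
    have hdd : ((1 + 2 * d) * t) ^ 2 ≤ 4 * t ^ 2 := by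
      rw [mul_pow]
      refine mul_le_mul_of_nonneg_right ?_ (by positivity)
      nlinarith
    calc X.h (l + 2) ((1 + 2 * d) * t) * ((1 + 2 * d) * t) ^ 2
        ≤ S * ((1 + 2 * d) * t) ^ 2 := mul_le_mul_of_nonneg_right he (by positivity)
      _ ≤ S * (4 * t ^ 2) := mul_le_mul_of_nonneg_left hdd hS0.le
      _ = _ := by ring

/-- case (ii-b): comparison with the previous window -/
lemma Com.case_b (K : Com c c₀ C₁ S₀ r h X l t s) (hc : 0 < c) (hc₀ : 0 < c₀)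
    (hC₁ : 1 ≤ C₁) (hcase : X.T (l + 2) < (1 + 2 * ((Real.log s⁻¹)⁻¹) ^ 8) * t)
    (hda : ((Real.log s⁻¹)⁻¹) ^ 8 ≤ thI (h (l + 2)) / 8) :
    ∃ d S', DS S₀ (r (l + 2)) (thI (h (l + 2))) (X.H (l + 2) ((1 + 2 * d) * t)) t s d S' := by
  obtain ⟨hd0, hd1⟩ := K.d_facts
  obtain ⟨d, hd⟩ : ∃ d, d = ((Real.log s⁻¹)⁻¹) ^ 8 := ⟨_, rfl⟩
  rw [← hd] at hcase hd0 hd1 hda
  have ht0 := K.ht
  have hs := K.hs
  have a1 := K.I.r_pos (l + 2)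
  have a2 := (K.I.small (l + 2)).th_pos
  have a3 := (K.I.small (l + 2)).th_le
  have hclose := close_num a1.le a2.le hd0.le hda a3 (by rw [← K.T_eq]; exact hcase) ht0
  have hlow := low_s hc hc₀ K.I K.hB hclose
  have hΛ := K.hΛ
  have hΛ0 : 0 < Real.log s⁻¹ := by linarith
  -- the height of the previous window and `s`
  have b1 : h (l + 1) ^ (1 + 2 * c) ≤ s := (K.I.small (l + 1)).s6.trans hlow
  have b2 : h (l + 1) ^ (1 / 8 : ℝ) ≤ d := by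
    have h2 : h (l + 1) ^ 2 ≤ s := (K.I.small (l + 1)).s7.trans hlow
    have h3 : Real.log s⁻¹ ≤ 2 * Real.log (h (l + 1))⁻¹ := by
      have h4 : Real.log s⁻¹ ≤ Real.log (h (l + 1) ^ 2)⁻¹ :=
        Real.log_le_log (inv_pos.2 hs) (inv_anti₀ (pow_pos (K.I.h_pos _) 2) h2)
      rw [← inv_pow, Real.log_pow] at h4
      exact_mod_cast h4
    refine K.n1.n5.trans ?_
    rw [hd]
    exact pow_le_pow_left₀ (by
      have := (K.I.small (l + 1)).big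
      positivity) (inv_anti₀ hΛ0 h3) 8
  have hx0 : 0 < (1 + 2 * d) * t := by positivity
  -- the point `x (1 + d)`
  have h4d : (1 + 2 * d) * t * (1 + d) ≤ t * (1 + 4 * d) := by nlinarith [mul_pos hd0 ht0]
  have hr9 : t * (1 + 4 * d) ≤ r (l + 2) * (1 - 9 * thI (h (l + 2))) := by
    have h2 := K.hw.2
    rw [K.T_eq] at h2
    calc t * (1 + 4 * d) ≤ (r (l + 2) * (1 - 10 * thI (h (l + 2)))) *
          (1 + thI (h (l + 2)) / 2) := mul_le_mul h2 (by linarith) (by positivity)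
            (mul_nonneg a1.le (by linarith))
      _ ≤ _ := by
        rw [mul_assoc]
        refine mul_le_mul_of_nonneg_left ?_ a1.le
        nlinarith
  have hwin : X.Win (l + 1) ((1 + 2 * d) * t * (1 + d)) := by
    refine ⟨hcase.le.trans (by nlinarith), (h4d.trans hr9).trans ?_⟩
    rw [K.I.T_eq]
    have h3 := (K.I.small (l + 1)).th_pos
    refine le_trans (mul_le_mul_of_nonneg_left ?_ a1.le) (K.I.le_TI (l + 1))
    linarith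
  have b3 : X.h (l + 1) ((1 + 2 * d) * t * (1 + d)) ≤ s :=
    adapt ht0 hs hΛ K.hB K.I.half hwin (by rw [← hd]; exact h4d)
  have b4 : X.h (l + 2) ((1 + 2 * d) * t) ≤ C₁ * ((d⁻¹) ^ 3 * s + s) := by
    refine (K.I.cmp (l + 1) ((1 + 2 * d) * t) d (by rw [← K.I.T_eq]; exact hcase.le) b2
      (by linarith) (h4d.trans hr9)).trans ?_
    have h2 : 0 ≤ (d⁻¹) ^ 3 := by positivity
    have h3 : (d⁻¹) ^ 3 * X.h (l + 1) ((1 + 2 * d) * t * (1 + d)) ≤ (d⁻¹) ^ 3 * s :=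
      mul_le_mul_of_nonneg_left b3 h2
    exact mul_le_mul_of_nonneg_left (by linarith) (by linarith)
  have b5 : C₁ * ((d⁻¹) ^ 3 * s + s) ≤ 2 * C₁ * Real.log s⁻¹ ^ 24 * s := by
    have h2 : (d⁻¹) ^ 3 = Real.log s⁻¹ ^ 24 := by
      rw [hd, ← inv_pow, inv_inv, ← pow_mul]
    have h3 : (1:ℝ) ≤ Real.log s⁻¹ ^ 24 := one_le_pow₀ (by linarith)
    rw [h2]
    have h4 : s ≤ Real.log s⁻¹ ^ 24 * s := by nlinarith
    calc C₁ * (Real.log s⁻¹ ^ 24 * s + s) ≤ C₁ * (Real.log s⁻¹ ^ 24 * s + Real.log s⁻¹ ^ 24 * s) :=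
          mul_le_mul_of_nonneg_left (by linarith) (by linarith)
      _ = _ := by ring
  obtain ⟨S, hSd⟩ : ∃ S, S = 2 * C₁ * Real.log s⁻¹ ^ 24 * s := ⟨_, rfl⟩
  have hS0 : 0 < S := by rw [hSd]; positivity
  obtain ⟨q1, q2, q3, q4⟩ := K.hnum (4 * S) (by positivity) (by rw [hSd]; linarith)
  refine ⟨d, 4 * S, hd0, by linarith, by positivity, q1, by rw [hd]; exact q2, ?_, ?_, ?_, q4⟩
  · refine lt_of_lt_of_le ?_ hr9
    nlinarith [mul_pos hd0 ht0]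
  · refine mul_le_mul ?_ K.t_le ht0.le a2.le
    refine (q3.trans ?_)
    rw [← hd]
    linarith
  · rw [X_H_eq X _ hx0]
    have hdd : ((1 + 2 * d) * t) ^ 2 ≤ 4 * t ^ 2 := by
      rw [mul_pow]
      refine mul_le_mul_of_nonneg_right ?_ (by positivity)
      nlinarith
    calc X.h (l + 2) ((1 + 2 * d) * t) * ((1 + 2 * d) * t) ^ 2
        ≤ S * ((1 + 2 * d) * t) ^ 2 :=
          mul_le_mul_of_nonneg_right (b4.trans (by rw [hSd]; exact b5)) (by positivity)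
      _ ≤ S * (4 * t ^ 2) := mul_le_mul_of_nonneg_left hdd hS0.le
      _ = _ := by ring

/-- case (ii-a): the crude bound -/
lemma Com.case_a (K : Com c c₀ C₁ S₀ r h X l t s)
    (hda : thI (h (l + 2)) / 8 < ((Real.log s⁻¹)⁻¹) ^ 8) :
    ∃ d S', DS S₀ (r (l + 2)) (thI (h (l + 2))) (X.H (l + 2) ((1 + 2 * d) * t)) t s d S' := by
  have ht0 := K.ht
  have hs := K.hs
  have a1 := K.I.r_pos (l + 2)
  have a2 := (K.I.small (l + 2)).th_pos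
  have a3 := (K.I.small (l + 2)).th_le
  have a4 := (K.I.small (l + 2)).big
  have hh := K.I.h_pos (l + 2)
  have hΛ := K.hΛ
  obtain ⟨Λ, hΛd⟩ : ∃ Λ, Λ = Real.log s⁻¹ := ⟨_, rfl⟩
  obtain ⟨L, hL⟩ : ∃ L, L = Real.log (h (l + 2))⁻¹ := ⟨_, rfl⟩
  rw [← hΛd] at hΛ hda
  rw [← hL] at a4
  have hΛ0 : 0 < Λ := by linarith
  have hL0 : 0 < L := by linarith
  have hLL : Λ ≤ L / 2 := by
    by_contra hcon
    have h2 : L / 2 < Λ := not_le.1 hcon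
    have h3 : (Λ⁻¹) ^ 8 ≤ ((L / 2)⁻¹) ^ 8 :=
      pow_le_pow_left₀ (by positivity) (inv_anti₀ (by positivity) h2.le) 8
    have h4 : thI (h (l + 2)) = (L⁻¹) ^ 7 := by unfold thI; rw [hL]
    rw [h4] at hda
    have h5 : ((L / 2)⁻¹) ^ 8 = (256 * L⁻¹) * (L⁻¹) ^ 7 := by
      rw [show (L / 2)⁻¹ = 2 * L⁻¹ by field_simp]; ring
    rw [h5] at h3
    have h6 : 256 * L⁻¹ ≤ 1 / 8 := by
      rw [← div_eq_mul_inv, div_le_iff₀ hL0]
      linarith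
    have h7 : 0 < (L⁻¹) ^ 7 := by positivity
    nlinarith
  have hsh : h (l + 2) ^ (1 / 2 : ℝ) ≤ s := by
    have h2 : Real.log (h (l + 2)) = -L := by rw [hL, Real.log_inv]; ring
    have h3 : Real.log s = -Λ := by rw [hΛd, Real.log_inv]; ring
    rw [← Real.log_le_log_iff (Real.rpow_pos_of_pos hh _) hs, Real.log_rpow hh, h2, h3]
    linarith
  obtain ⟨d, hd⟩ : ∃ d, d = thI (h (l + 2)) / 4 := ⟨_, rfl⟩
  have hd0 : 0 < d := by rw [hd]; positivity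
  have hd1 : d ≤ 1 / 16000 := by rw [hd]; linarith
  have hq0 : 0 < h (l + 2) ^ (3 / 4 : ℝ) := Real.rpow_pos_of_pos hh _
  have hr9 : (1 + 2 * d) * t < r (l + 2) * (1 - 9 * thI (h (l + 2))) := by
    have h2 := K.hw.2
    rw [K.T_eq] at h2
    calc (1 + 2 * d) * t ≤ (1 + 2 * d) * (r (l + 2) * (1 - 10 * thI (h (l + 2)))) :=
          mul_le_mul_of_nonneg_left h2 (by linarith)
      _ = r (l + 2) * ((1 + 2 * d) * (1 - 10 * thI (h (l + 2)))) := by ring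
      _ < _ := by
        refine mul_lt_mul_of_pos_left ?_ a1
        rw [hd]
        nlinarith
  have hx0 : 0 < (1 + 2 * d) * t := by positivity
  refine ⟨d, 4 * h (l + 2) ^ (3 / 4 : ℝ), hd0, by linarith, by positivity, K.n2.n1, ?_, hr9, ?_,
    ?_, ?_⟩
  · rw [hd]; exact K.n2.n2
  · exact mul_le_mul K.n2.n3 K.t_le ht0.le a2.le
  · rw [X_H_eq X _ hx0]
    have hdd : ((1 + 2 * d) * t) ^ 2 ≤ 4 * t ^ 2 := by
      rw [mul_pow]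
      refine mul_le_mul_of_nonneg_right ?_ (by positivity)
      nlinarith
    have he := K.I.top (l + 2) ((1 + 2 * d) * t)
      (by rw [← K.I.T_eq]; exact K.hw.1.trans (by nlinarith)) hr9.le
    calc X.h (l + 2) ((1 + 2 * d) * t) * ((1 + 2 * d) * t) ^ 2
        ≤ h (l + 2) ^ (3 / 4 : ℝ) * ((1 + 2 * d) * t) ^ 2 :=
          mul_le_mul_of_nonneg_right he (by positivity)
      _ ≤ h (l + 2) ^ (3 / 4 : ℝ) * (4 * t ^ 2) := mul_le_mul_of_nonneg_left hdd hq0.le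
      _ = _ := by ring
  · refine K.n2.n4.trans ?_
    rw [← hΛd, ← hL]
    refine mul_le_mul ?_ hsh (by positivity) (by positivity)
    exact pow_le_pow_left₀ (by positivity) (inv_anti₀ hΛ0 (by linarith)) 3

end

/-- **the dichotomy** -/
theorem dich {c c₀ C₁ : ℝ} {r h : ℕ → ℝ} (hc : 0 < c) (hc₀ : 0 < c₀) (hC₁ : 1 ≤ C₁)
    {X : ABS.Chain} (I : DichIn c c₀ C₁ r h X) {S₀ : ℝ} (hS₀ : 0 < S₀) :
    ∃ t₀ > 0, ∀ i t s, X.Win i t → t ≤ t₀ → 0 < s → s ≤ t₀ → X.Bdd t s →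
      ∃ d S', DS S₀ (r i) (thI (h i)) (X.H i ((1 + 2 * d) * t)) t s d S' := by
  obtain ⟨t₁, ht₁, hN1⟩ := num_s (C₂ := 8 * C₁) (by linarith) hS₀
  obtain ⟨t₂, ht₂, hN2⟩ := exists_Nh hS₀
  have hTp : ∀ k, 0 < X.T k := fun k => by rw [I.T_eq]; exact I.TI_pos k
  have hTa : ∀ k, X.T (k + 1) < X.T k := fun k => by rw [I.T_eq]; exact I.TI_anti k
  have hTm : StrictAnti X.T := strictAnti_nat_of_succ_lt hTa
  obtain ⟨N, hN⟩ := (I.h_lim.eventually (gt_mem_nhds ht₂)).exists_forall_of_atTop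
  refine ⟨min t₁ (X.T (N + 4) / 2), lt_min ht₁ (by have := hTp (N + 4); positivity), ?_⟩
  intro i t s hi ht hs hst hB
  have ht' : t ≤ X.T (N + 4) / 2 := ht.trans (min_le_right _ _)
  have hst' : s ≤ t₁ := hst.trans (min_le_left _ _)
  have hiN : N + 4 < i + 1 := by
    by_contra hcon
    have h2 : X.T (N + 4) ≤ X.T (i + 1) := hTm.antitone (not_lt.1 hcon)
    have h3 := hTp (N + 4)
    linarith [hi.1]
  obtain ⟨l, rfl⟩ : ∃ l, i = l + 2 := ⟨i - 2, by omega⟩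
  obtain ⟨hΛ, hnum⟩ := hN1 s hs hst'
  have K : Com c c₀ C₁ S₀ r h X l t s :=
    { I := I, ht := (hTp _).trans_le hi.1, hs := hs, hw := hi,
      hB := hB, hΛ := hΛ, hnum := hnum,
      n2 := hN2 _ (I.h_pos _) (hN _ (by omega)).le
      n1 := hN2 _ (I.h_pos _) (hN _ (by omega)).le }
  by_cases hcase : (1 + 2 * ((Real.log s⁻¹)⁻¹) ^ 8) * t ≤ X.T (l + 2)
  · exact K.case_i hC₁ hcase
  · by_cases hda : ((Real.log s⁻¹)⁻¹) ^ 8 ≤ thI (h (l + 2)) / 8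
    · exact K.case_b hc hc₀ hC₁ (not_le.1 hcase) hda
    · exact K.case_a (not_le.1 hda)

end

end Vale.Agent.P214.INST
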