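import Vale.Agent.P214.INST.JumpA
import Vale.Agent.P214.INST.SwPair

/-!
# P214, block INST: the jump of the area excess at the switch radii
-/

open Set Filter Topology MeasureTheory Metric
open scoped RealInnerProductSpace ContDiff

namespace Vale.Agent.P214.INST

open WIN WSEQ FM CMP Vale.Agent.P214.ODE

/-- **[JUMP-A]**: both references with the tube of window `j` -/
theorem jumpA (E : Type*) [NormedAddCommGroup E] [InnerProductSpace ℝ E] [FiniteDimensional ℝ E]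
    [MeasurableSpace E] [BorelSpace E] (m n Q : ℕ) {k k' K : ℝ → ℝ} (hk : Kern k k' K)
    (hp : SwPairStmt E m n Q) : ∃ C' : ℝ, 0 < C' ∧
      Ev E m n Q fun T _ ν _ _ _ X _ _ _ S => ∀ j,
        |aw m Q T ν K (tube S j) (wr S (j + 1)) (Tr S (j + 1)) -
            aw m Q T ν K (tube S j) (wr S j) (Tr S (j + 1))| ≤
          Tr S (j + 1) ^ 2 * (C' * S.h j ^ (1 + 9 / 5 * X.c)) := by
  obtain ⟨C', hC', H⟩ := jump_core E m n Q hk
  refine ⟨C', hC', fun X C C₅ => ?_⟩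
  obtain ⟨ε₀, hε₀, H₀⟩ := hp eps0 eps0_pos le_rfl X C C₅
  refine ⟨min ε₀ 1, by positivity, fun T F ν P Kp δ ε τ₀ S hc hε j => ?_⟩
  obtain ⟨τ, h1, h2, h3, h4, h5⟩ := H₀ T F ν P Kp δ ε τ₀ S hc (hε.trans (min_le_left _ _)) j
  refine H T F ν P Kp δ X C C₅ ε τ₀ eps0 (1 / 3) S j τ hc (hε.trans (min_le_right _ _)) h1.toSw0 h2
    h3 h4 ?_
  rcases h5 with ⟨-, a, b⟩ | ⟨a, b⟩
  · exact Or.inl ⟨a, b⟩
  · exact Or.inr ⟨a, b⟩

end Vale.Agent.P214.INST
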