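import Vale.Agent.P214.INST.SwPair
import Vale.Agent.P214.INST.Tan
import Vale.Agent.P214.INST.Asm

/-!
# P214, block INST: sharp form of the bounds of the differentials at the centre
-/

set_option linter.all false

namespace Vale.Agent.P214.INST

open MeasureTheory

theorem tanSharpStmt (E : Type*) [NormedAddCommGroup E] [InnerProductSpace ℝ E]
    [FiniteDimensional ℝ E] [MeasurableSpace E] [BorelSpace E] (m n Q : ℕ) :
    TanSharpStmt E m n Q :=
  Ev.mono (Ev.and (tan_sharp E m n Q) (tan_strong E m n Q))
    fun T F ν P Kp δ X C C₅ ε τ S hS h j => ⟨h.1 j, h.2 (j + 1)⟩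

end Vale.Agent.P214.INST
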