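import Vale.Agent.P214.INST.JumpH
import Vale.Agent.P214.INST.JumpAE
import Vale.Agent.P214.INST.TubeW
import Vale.Agent.P214.INST.TanS

/-!
# P214, block INST (helper617): the jumps of the chain at the switch radii
-/

open Set Filter Topology MeasureTheory Metric
open scoped RealInnerProductSpace ContDiff

set_option linter.all false

namespace Vale.Agent.P214.INST

open WIN WSEQ FM

variable {m n Q : ℕ} {E : Type*} [NormedAddCommGroup E] [InnerProductSpace ℝ E]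
  [FiniteDimensional ℝ E] [MeasurableSpace E] [BorelSpace E]

/-- **[JUMP]** the jumps of the height and of the area excess at all switches (every window with
its own tube) -/
def JumpAllStmt (E : Type*) [NormedAddCommGroup E] [InnerProductSpace ℝ E] [FiniteDimensional ℝ E]
    [MeasurableSpace E] [BorelSpace E] (m n Q : ℕ) (k K : ℝ → ℝ) : Prop :=
  ∃ C' : ℝ, 0 < C' ∧ Ev E m n Q fun T _ ν _ _ _ X _ _ _ S => ∀ j,
    |Hw m T ν k (tube S (j + 1)) (wr S (j + 1)) (Tr S (j + 1)) -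
        Hw m T ν k (tube S j) (wr S j) (Tr S (j + 1))| ≤
      Tr S (j + 1) ^ 2 * (C' * S.h j ^ (1 + 9 / 5 * X.c)) ∧
    |aw m Q T ν K (tube S (j + 1)) (wr S (j + 1)) (Tr S (j + 1)) -
        aw m Q T ν K (tube S j) (wr S j) (Tr S (j + 1))| ≤
      Tr S (j + 1) ^ 2 * (C' * S.h j ^ (1 + 9 / 5 * X.c))

/-- **[JUMP]** -/
theorem jumpAllStmt {k k' K : ℝ → ℝ} {B : ℝ} (hk : Ker k k' K B) (hR : RefsStmt E m n Q)
    (hC : CylStmt E m n Q) : JumpAllStmt E m n Q k K := by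
  have hP : SwPairStmt E m n Q := swPairStmt hR hC (tanSharpStmt E m n Q)
  obtain ⟨C₁, hC₁, H₁⟩ := jumpH hP hk
  obtain ⟨C₂, hC₂, H₂⟩ := jumpA E m n Q hk.kb.kern hP
  have H₃ := ev_tube hk.kb.kern (by linarith [hk.kb.one]) hk.up hk.upK hR hC
  refine ⟨C₁ + C₂ + 1, by positivity, fun X C C₅ => ?_⟩
  obtain ⟨ε₁, hε₁, J₁⟩ := H₁ X C C₅
  obtain ⟨ε₂, hε₂, J₂⟩ := H₂ X C C₅
  obtain ⟨ε₃, hε₃, J₃⟩ := H₃ X C C₅
  refine ⟨min (min ε₁ ε₂) (min ε₃ 1), by positivity, ?_⟩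
  intro T F ν P Kp δ ε τ S hS hε j
  have q1 : ε ≤ ε₁ := hε.trans ((min_le_left _ _).trans (min_le_left _ _))
  have q2 : ε ≤ ε₂ := hε.trans ((min_le_left _ _).trans (min_le_right _ _))
  have q3 : ε ≤ ε₃ := hε.trans ((min_le_right _ _).trans (min_le_left _ _))
  have q4 : ε ≤ 1 := hε.trans ((min_le_right _ _).trans (min_le_right _ _))
  have a1 := J₁ T F ν P Kp δ ε τ S hS q1 j
  have a2 := J₂ T F ν P Kp δ ε τ S hS q2 j
  obtain ⟨-, a3, a4⟩ := J₃ T F ν P Kp δ ε τ S hS q3 j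
  have hh := S.h_pos j
  have hh1 : S.h j ≤ 1 := (S.h_le j).trans q4
  have hp : 0 ≤ S.h j ^ (1 + 9 / 5 * X.c) := Real.rpow_nonneg hh.le _
  have h32 : S.h j ^ (3 / 2 : ℝ) ≤ S.h j ^ (1 + 9 / 5 * X.c) :=
    Real.rpow_le_rpow_of_exponent_ge hh hh1 (by linarith [hS.ok.c_le])
  have hT : 0 ≤ Tr S (j + 1) ^ 2 := sq_nonneg _
  have b0 := mul_le_mul_of_nonneg_left h32 hT
  have tri : ∀ x y z : ℝ, |x - z| ≤ |x - y| + |y - z| := fun x y z => abs_sub_le x y z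
  have hx : 0 ≤ Tr S (j + 1) ^ 2 * S.h j ^ (1 + 9 / 5 * X.c) := mul_nonneg hT hp
  refine ⟨(tri _ (Hw m T ν k (tube S j) (wr S (j + 1)) (Tr S (j + 1))) _).trans ?_,
    (tri _ (aw m Q T ν K (tube S j) (wr S (j + 1)) (Tr S (j + 1))) _).trans ?_⟩
  · nlinarith [mul_nonneg hC₂.le hx]
  · nlinarith [mul_nonneg hC₁.le hx]

end Vale.Agent.P214.INST
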