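import Vale.Agent.P214.INST.JumpA
import Vale.Agent.P214.INST.Base
import Vale.Agent.P214.INST.SwPair
import Vale.Agent.P214.CMP.Main

/-!
# P214, block INST (helper617): the jump of the kernel height at the switch radii
-/

open Set Filter Topology MeasureTheory Metric
open scoped RealInnerProductSpace ContDiff

set_option linter.all false

namespace Vale.Agent.P214.INST

open WIN WSEQ FM FV CMP ODEF ODE

variable {m n Q : ℕ} {E : Type*} [NormedAddCommGroup E] [InnerProductSpace ℝ E]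
  [FiniteDimensional ℝ E] [MeasurableSpace E] [BorelSpace E]
variable {T : Submodule ℝ E} {F : Frame m n T} {ν : Measure E} {P : E → E →L[ℝ] E} {Kp : Set E}
  {δ : ℝ → ℝ} {X : Exps} {C C₅ ε : ℝ}

section general

variable {w w' : E → E} {η κ h₁ ρ t τ D : ℝ} {G : Set E}

/-- location of the points with foot in the region -/
lemma foot_loc (hS : Sw m T w w' η κ h₁ 0 ρ t τ G D ν P) : ∀ᵐ y ∂ν,
    PsiInv T w h₁ y ∈ Reg T w 0 t τ →
      ‖co T (PsiInv T w h₁ y)‖ ≤ D ∧ ‖T.starProjection y‖ < t * (1 + 5 * τ) + D := by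
  have H := hS.pair
  have hτt : 0 ≤ t * τ := mul_nonneg H.tpos.le H.τnn
  have hrad := hS.rad
  filter_upwards [hS.ae_slab] with y s1 hR
  have hbx : ‖bx T 0 (PsiInv T w h₁ y)‖ < t * (1 + 5 * τ) := hR
  have hco := s1 (hS.mem_G (by linarith))
  have h1 := H.adm.bx_le' 0 y
  have h2 : η * ‖co T (PsiInv T w h₁ y)‖ ≤ 1 * D := by
    refine mul_le_mul ?_ hco (norm_nonneg _) zero_le_one
    linarith [H.eps_le]
  rw [bx_zero_eq] at h1
  exact ⟨hco, by linarith⟩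

lemma meas_cyl (T : Submodule ℝ E) (R : ℝ) : MeasurableSet (Skel.cylSet T 0 R) :=
  measurableSet_ball.preimage T.starProjection.continuous.measurable

lemma mem_cyl {y : E} {R : ℝ} (h : ‖T.starProjection y‖ < R) : y ∈ Skel.cylSet T 0 R := by
  show T.starProjection y ∈ ball (0:E) R
  rwa [mem_ball_zero_iff]

/-- mass of the region -/
lemma reg_mass (hS : Sw m T w w' η κ h₁ 0 ρ t τ G D ν P) (hfin : IsFiniteMeasure ν)
    (hD : 2 * D ≤ t) :
    (fmeas T w h₁ ν).real (Reg T w 0 t τ) ≤ ν.real (Skel.cylSet T 0 (2 * t)) := by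
  have H := hS.pair
  have ht := H.tpos
  have h1 : (fmeas T w h₁ ν).real (Reg T w 0 t τ) = ν.real (PsiInv T w h₁ ⁻¹' Reg T w 0 t τ) := by
    unfold Measure.real fmeas
    rw [Measure.map_apply H.adm.aem hS.measurableSet_Reg]
  rw [h1]
  refine ENNReal.toReal_mono (measure_ne_top _ _) (measure_mono_ae ?_)
  have hs := hS.small
  have hts : t * (5 * τ) ≤ t * (5 / 16) := mul_le_mul_of_nonneg_left (by linarith) ht.le
  filter_upwards [foot_loc hS] with y hy hR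
  exact mem_cyl (by have := (hy hR).2; linarith)

/-- the height over the region, when the region stays over `ball 0 R` -/
lemma reg_height (hS : Sw m T w w' η κ h₁ 0 ρ t τ G D ν P) {R : ℝ}
    (hin : t * (1 + 5 * τ) + D ≤ R)
    (hi : IntegrableOn (fun y => ‖co T y - w y‖ ^ 2) (Skel.cylSet T 0 R) ν) :
    ∫ Y in Reg T w 0 t τ, ‖om T w Y‖ ^ 2 ∂(fmeas T w h₁ ν) ≤
      2 * ∫ y in Skel.cylSet T 0 R, ‖co T y - w y‖ ^ 2 ∂ν := by
  have H := hS.pair
  rw [← integral_indicator hS.measurableSet_Reg, hS.integral_eq, ← integral_const_mul,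
    ← integral_indicator (meas_cyl T R)]
  refine integral_mono_of_nonneg (Eventually.of_forall fun y =>
    indicator_nonneg (fun _ _ => sq_nonneg _) _) ?_ ?_
  · rw [integrable_indicator_iff (meas_cyl T R)]
    exact hi.const_mul _
  · filter_upwards [foot_loc hS] with y hy
    by_cases hR : PsiInv T w h₁ y ∈ Reg T w 0 t τ
    · have hm : y ∈ Skel.cylSet T 0 R := mem_cyl ((hy hR).2.trans_le hin)
      rw [indicator_of_mem hR, indicator_of_mem hm]
      exact H.adm.om_sq_le y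
    · rw [indicator_of_notMem hR]
      exact indicator_nonneg (fun _ _ => by positivity) _

/-- the height over the region, trivial bound -/
lemma reg_height' (hS : Sw m T w w' η κ h₁ 0 ρ t τ G D ν P) (hfin : IsFiniteMeasure ν)
    (hD0 : 0 ≤ D) (hD : 2 * D ≤ t) :
    ∫ Y in Reg T w 0 t τ, ‖om T w Y‖ ^ 2 ∂(fmeas T w h₁ ν) ≤
      ν.real (Skel.cylSet T 0 (2 * t)) * t ^ 2 := by
  have H := hS.pair
  have ht := H.tpos
  have hs := hS.small
  have hts : t * (5 * τ) ≤ t * (5 / 16) := mul_le_mul_of_nonneg_left (by linarith) ht.le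
  have key : ∫ Y in Reg T w 0 t τ, ‖om T w Y‖ ^ 2 ∂(fmeas T w h₁ ν) ≤
      ∫ y in Skel.cylSet T 0 (2 * t), t ^ 2 ∂ν := by
    rw [← integral_indicator hS.measurableSet_Reg, hS.integral_eq,
      ← integral_indicator (meas_cyl T _)]
    refine integral_mono_of_nonneg (Eventually.of_forall fun y =>
      indicator_nonneg (fun _ _ => sq_nonneg _) _) ?_ ?_
    · rw [integrable_indicator_iff (meas_cyl T _)]
      exact integrable_const _
    · filter_upwards [foot_loc hS] with y hy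
      by_cases hR : PsiInv T w h₁ y ∈ Reg T w 0 t τ
      · obtain ⟨a, b⟩ := hy hR
        have hm : y ∈ Skel.cylSet T 0 (2 * t) := mem_cyl (by linarith)
        rw [indicator_of_mem hR, indicator_of_mem hm]
        have h1 := H.adm.ref.norm_om_le (PsiInv T w h₁ y)
        have h2 : (1 + η) * ‖co T (PsiInv T w h₁ y)‖ ≤ 2 * D :=
          mul_le_mul (by linarith [H.eps_le]) a (norm_nonneg _) (by norm_num)
        exact pow_le_pow_left₀ (norm_nonneg _) (by linarith) 2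
      · rw [indicator_of_notMem hR]
        exact indicator_nonneg (fun _ _ => by positivity) _
  rw [setIntegral_const, smul_eq_mul] at key
  exact key

end general

/-- arithmetic of the two cases -/
lemma jumpH_arith {h h' τ c e r t M V B J : ℝ} (m n : ℕ) (hh : 0 < h) (h1 : h ≤ 1) (hh' : 0 < h')
    (hle : h' ≤ h) (hc : 0 < c) (hc1 : c ≤ 1 / 100) (he : 0 < e) (hec : e ≤ c / 100)
    (ht : 0 < t) (hr : 0 < r) (hrt : r ≤ 2 * t) (hM : 1 ≤ M) (hB : 0 ≤ B) (hV0 : 0 ≤ V)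
    (hJ : J ≤ 435 * B * τ * t ^ 2 * ((t ^ (m + 2))⁻¹ * V + √(M * ((t ^ (m + 2))⁻¹ * V)) + τ * M))
    (hcase : (τ = 4 * (n + 1) * h ^ (1 / 2 + 2 * c) ∧ V ≤ 2 * (r ^ (m + 2) * h')) ∨
      (h' < h ^ 4 ∧ τ = 4 * (n + 1) * h' ^ (1 / 2 - e) ∧ V ≤ M * t ^ m * t ^ 2)) :
    J ≤ t ^ 2 * (435 * B * (4 * (n + 1)) * (2 ^ (m + 3) * M * 2 + 4 * (n + 1) * M)
      * h ^ (1 + 9 / 5 * c)) := by
  have htm : 0 < t ^ (m + 2) := by positivity
  have hn : (0:ℝ) ≤ n := Nat.cast_nonneg n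
  have hU0 : 0 ≤ (t ^ (m + 2))⁻¹ * V := by positivity
  set U := (t ^ (m + 2))⁻¹ * V with hU
  have hM0 : 0 < M := by linarith
  have h2m : (1:ℝ) ≤ 2 ^ (m + 3) := one_le_pow₀ (by norm_num)
  -- it suffices to bound `τ * (U + √(M U) + τ M)`
  suffices hsuf : τ * (U + √(M * U) + τ * M) ≤
      (4 * (n + 1)) * (2 ^ (m + 3) * M * 2 + 4 * (n + 1) * M) * h ^ (1 + 9 / 5 * c) by
    calc J ≤ 435 * B * τ * t ^ 2 * (U + √(M * U) + τ * M) := hJ
      _ = t ^ 2 * (435 * B) * (τ * (U + √(M * U) + τ * M)) := by ring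
      _ ≤ t ^ 2 * (435 * B) * ((4 * (n + 1)) * (2 ^ (m + 3) * M * 2 + 4 * (n + 1) * M)
          * h ^ (1 + 9 / 5 * c)) := mul_le_mul_of_nonneg_left hsuf (by positivity)
      _ = _ := by ring
  rcases hcase with ⟨hτ, hV⟩ | ⟨h4, hτ, hV⟩
  · have hpb : 0 ≤ h ^ (1 / 2 + 2 * c) := Real.rpow_nonneg hh.le _
    have hτ0 : 0 ≤ τ := by rw [hτ]; positivity
    have e1 : U ≤ 2 ^ (m + 3) * h := by
      rw [hU]
      have : r ^ (m + 2) ≤ (2 * t) ^ (m + 2) := pow_le_pow_left₀ hr.le hrt _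
      calc (t ^ (m + 2))⁻¹ * V ≤ (t ^ (m + 2))⁻¹ * (2 * ((2 * t) ^ (m + 2) * h)) := by gcongr; exact hV.trans (by gcongr)
        _ = 2 ^ (m + 3) * h := by
          rw [mul_pow, pow_succ 2 (m + 2)]
          field_simp
    have e2 : U ≤ 2 ^ (m + 3) * M * h ^ (1 / 2 : ℝ) := by
      have : h ≤ h ^ (1 / 2 : ℝ) := by
        calc h = h ^ (1:ℝ) := (Real.rpow_one h).symm
          _ ≤ _ := Real.rpow_le_rpow_of_exponent_ge hh h1 (by norm_num)
      calc U ≤ 2 ^ (m + 3) * h := e1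
        _ ≤ 2 ^ (m + 3) * (M * h ^ (1 / 2 : ℝ)) := by
          gcongr
          nlinarith [Real.rpow_nonneg hh.le (1 / 2 : ℝ)]
        _ = _ := by ring
    have e3 : √(M * U) ≤ 2 ^ (m + 3) * M * h ^ (1 / 2 : ℝ) := by
      rw [← Real.sqrt_eq_rpow]
      apply Real.sqrt_le_iff.2
      refine ⟨by positivity, ?_⟩
      rw [mul_pow, Real.sq_sqrt hh.le]
      calc M * U ≤ M * (2 ^ (m + 3) * h) := by gcongr
        _ = (2 ^ (m + 3) * M) * h := by ring
        _ ≤ (2 ^ (m + 3) * M) ^ 2 * h := by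
          have : 1 ≤ 2 ^ (m + 3) * M := by nlinarith
          gcongr
          nlinarith
    have e4 : τ ≤ 4 * (n + 1) * h ^ (1 / 2 : ℝ) := by
      rw [hτ]
      gcongr 4 * (n + 1) * ?_
      exact Real.rpow_le_rpow_of_exponent_ge hh h1 (by linarith)
    have e5 : U + √(M * U) + τ * M ≤
        (2 ^ (m + 3) * M * 2 + 4 * (n + 1) * M) * h ^ (1 / 2 : ℝ) := by
      have : τ * M ≤ 4 * (n + 1) * h ^ (1 / 2 : ℝ) * M := by gcongr
      linarith
    calc τ * (U + √(M * U) + τ * M)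
        ≤ (4 * (n + 1) * h ^ (1 / 2 + 2 * c)) *
          ((2 ^ (m + 3) * M * 2 + 4 * (n + 1) * M) * h ^ (1 / 2 : ℝ)) := by
          rw [hτ] at e5 ⊢
          gcongr
      _ = (4 * (n + 1)) * (2 ^ (m + 3) * M * 2 + 4 * (n + 1) * M) *
          h ^ ((1 / 2 + 2 * c) + 1 / 2) := by rw [Real.rpow_add hh (1 / 2 + 2 * c) (1 / 2)]; ring
      _ ≤ _ := by
        gcongr ?_ * ?_
        exact Real.rpow_le_rpow_of_exponent_ge hh h1 (by linarith)
  · have hh1 : h' ≤ 1 := hle.trans h1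
    have hτ0 : 0 ≤ τ := by rw [hτ]; positivity
    have b2 : τ ≤ 4 * (n + 1) * h ^ (1 + 9 / 5 * c) := by
      rw [hτ]
      gcongr 4 * (n + 1) * ?_
      calc h' ^ (1 / 2 - e) ≤ (h ^ 4) ^ (1 / 2 - e) :=
            Real.rpow_le_rpow hh'.le h4.le (by linarith)
        _ = h ^ (4 * (1 / 2 - e)) := by
            rw [show h ^ 4 = h ^ (4:ℝ) by norm_cast, ← Real.rpow_mul hh.le]
        _ ≤ _ := Real.rpow_le_rpow_of_exponent_ge hh h1 (by linarith)
    have b4 : τ ≤ 4 * (n + 1) := by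
      rw [hτ]
      calc _ ≤ 4 * ((n:ℝ) + 1) * 1 := by
            gcongr
            exact Real.rpow_le_one hh'.le hh1 (by linarith)
        _ = _ := by ring
    have e1 : U ≤ M := by
      rw [hU]
      calc (t ^ (m + 2))⁻¹ * V ≤ (t ^ (m + 2))⁻¹ * (M * t ^ m * t ^ 2) := by gcongr
        _ = M := by rw [pow_add]; field_simp
    have e3 : √(M * U) ≤ M := by
      apply Real.sqrt_le_iff.2
      exact ⟨hM0.le, by nlinarith⟩
    have e5 : U + √(M * U) + τ * M ≤ 2 ^ (m + 3) * M * 2 + 4 * (n + 1) * M := by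
      have h6 : τ * M ≤ 4 * (n + 1) * M := by gcongr
      have h7 : M ≤ 2 ^ (m + 3) * M := by nlinarith
      linarith
    calc τ * (U + √(M * U) + τ * M)
        ≤ (4 * (n + 1) * h ^ (1 + 9 / 5 * c)) * (2 ^ (m + 3) * M * 2 + 4 * (n + 1) * M) := by
          gcongr
      _ = _ := by ring

/-- **[JUMP-H]**, core: the jump of the kernel height at the switch radius of window `j + 1`; the
tube is the one of window `j` for both references. -/
theorem jumpH_core {κ η τ τ₀ B : ℝ} {k k' : ℝ → ℝ} (hk : Profile k k') (hB0 : 0 ≤ B)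
    (hB : ∀ s, 0 ≤ s → |k s| ≤ B ∧ |k' s| ≤ B) (S : WSeq m n Q T F ν P Kp δ X C C₅ ε) (j : ℕ)
    (hc : Ctx τ₀ S) (hε : ε ≤ 1)
    (hS : CMP.Sw m T (wr S j) (wr S (j + 1)) η κ (tube S j) 0
        (S.r (j + 1) * (1 - 17 / 2 * th (S.h (j + 1)))) (Tr S (j + 1)) τ (Gr S j)
        (6 * (S.r j * S.h j ^ (2 / 5 : ℝ))) ν P)
    (h12 : 12 * (S.r j * S.h j ^ (2 / 5 : ℝ)) ≤ Tr S (j + 1))
    (hcase : (τ = 4 * (n + 1) * S.h j ^ (1 / 2 + 2 * X.c) ∧
          Tr S (j + 1) * (1 + 5 * τ) + 6 * (S.r j * S.h j ^ (2 / 5 : ℝ)) ≤ S.r (j + 1)) ∨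
        (S.h (j + 1) < S.h j ^ 4 ∧ τ = 4 * (n + 1) * S.h (j + 1) ^ (1 / 2 - X.e))) :
    |Hw m T ν k (tube S j) (wr S (j + 1)) (Tr S (j + 1)) -
        Hw m T ν k (tube S j) (wr S j) (Tr S (j + 1))| ≤
      Tr S (j + 1) ^ 2 * (435 * B * (4 * (n + 1)) *
        (2 ^ (m + 3) * ((Q * Skel.om m + 1) * 2 ^ m) * 2 +
          4 * (n + 1) * ((Q * Skel.om m + 1) * 2 ^ m)) * S.h j ^ (1 + 9 / 5 * X.c)) := by
  have hr := S.r_pos (j + 1)
  have hh := S.h_pos j
  have hh' := S.h_pos (j + 1)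
  have hh1 : S.h j ≤ 1 := (S.h_le j).trans hε
  have hh1' : S.h (j + 1) ≤ 1 := (S.h_le (j + 1)).trans hε
  have hsl : 0 ≤ S.r j * S.h j ^ (2 / 5 : ℝ) :=
    mul_nonneg (S.r_pos j).le (Real.rpow_nonneg hh.le _)
  have hth0 := th_nn hh' hh1'
  have hth1 := S.th_le (j + 1)
  have ht := hS.pair.tpos
  have hr1 := r_le16 S hε (j + 1)
  have hok := hc.ok
  have hle : S.h (j + 1) ≤ S.h j := by
    refine (S.h_succ j).trans ?_
    have := Real.rpow_le_rpow_of_exponent_ge hh hh1 (show 1 ≤ 1 + X.c by linarith [hok.c_pos])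
    rwa [Real.rpow_one] at this
  have hrθ : S.r (j + 1) * th (S.h (j + 1)) ≤ S.r (j + 1) * (1 / 120) :=
    mul_le_mul_of_nonneg_left hth1 hr.le
  have hrt : S.r (j + 1) ≤ 2 * Tr S (j + 1) := by
    unfold Tr; linarith
  have htr : Tr S (j + 1) ≤ S.r (j + 1) := by
    have := mul_nonneg hr.le hth0
    unfold Tr; linarith
  have hloc := (hc.loc.int (3 / 8) (by norm_num) le_rfl).cyl
  have hfin := hloc.fin
  have hom : 0 ≤ Skel.om m := ENNReal.toReal_nonneg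
  set M : ℝ := (Q * Skel.om m + 1) * 2 ^ m with hM
  have hQ : (0:ℝ) ≤ Q := Nat.cast_nonneg Q
  have hM1 : 1 ≤ M := by
    have h2 : (1:ℝ) ≤ 2 ^ m := one_le_pow₀ (by norm_num)
    have h3 : 0 ≤ (Q:ℝ) * Skel.om m := mul_nonneg hQ hom
    rw [hM]; nlinarith
  have hmass : ν.real (Skel.cylSet T 0 (2 * Tr S (j + 1))) ≤ M * Tr S (j + 1) ^ m := by
    have h1 := mass_cyl S hc hε (s := 2 * Tr S (j + 1)) (by positivity) (by linarith)
    rw [hM]
    calc _ ≤ (Q * Skel.om m + 1) * (2 * Tr S (j + 1)) ^ m := h1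
      _ = _ := by rw [mul_pow]; ring
  have h2D : 2 * (6 * (S.r j * S.h j ^ (2 / 5 : ℝ))) ≤ Tr S (j + 1) := by linarith
  have hMr := (reg_mass hS hfin h2D).trans hmass
  have h1 := hS.HF_sub hk hB hMr
  set V := ∫ Y in Reg T (wr S j) 0 (Tr S (j + 1)) τ, ‖om T (wr S j) Y‖ ^ 2
    ∂(fmeas T (wr S j) (tube S j) ν) with hV
  have hV0 : 0 ≤ V := integral_nonneg fun _ => sq_nonneg _
  have hcw : Continuous (wr S j) :=
    (COORD.contDiff_lift F (k := ∞) (S.refe (j + 1)).smooth).continuous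
  have hint : IntegrableOn (fun y => ‖co T y - wr S j y‖ ^ 2)
      (Skel.cylSet T 0 (S.r (j + 1))) ν :=
    S1.integrableOn_cont hloc (((co T).continuous.sub hcw).norm.pow 2)
      (closedBall_subset_ball (by linarith))
  refine jumpH_arith (J := |Hw m T ν k (tube S j) (wr S (j + 1)) (Tr S (j + 1)) -
        Hw m T ν k (tube S j) (wr S j) (Tr S (j + 1))|) (τ := τ) (h' := S.h (j + 1))
    (r := S.r (j + 1)) (V := V) (e := X.e) m n hh hh1 hh' hle hok.c_pos hok.c_le hok.e_pos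
    hok.e_le ht hr hrt hM1 hB0 hV0 h1 ?_
  rcases hcase with ⟨a, b⟩ | ⟨a, b⟩
  · refine Or.inl ⟨a, ?_⟩
    have h3 := reg_height hS b hint
    have h4 := hE_wr S j
    unfold hE at h4
    rw [← h4]
    exact h3
  · refine Or.inr ⟨a, b, ?_⟩
    refine (reg_height' hS hfin (by linarith) h2D).trans ?_
    exact mul_le_mul_of_nonneg_right hmass (sq_nonneg _)

/-- **[JUMP-H]** -/
theorem jumpH (hP : SwPairStmt E m n Q) {k k' K : ℝ → ℝ} {B : ℝ} (hk : Ker k k' K B) :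
    ∃ C' : ℝ, 0 < C' ∧ Ev E m n Q fun T _ ν _ _ _ X _ _ _ S => ∀ j,
      |Hw m T ν k (tube S j) (wr S (j + 1)) (Tr S (j + 1)) -
          Hw m T ν k (tube S j) (wr S j) (Tr S (j + 1))| ≤
        Tr S (j + 1) ^ 2 * (C' * S.h j ^ (1 + 9 / 5 * X.c)) := by
  have hom : 0 ≤ Skel.om m := ENNReal.toReal_nonneg
  have hB1 := hk.kb.one
  have hB0 : 0 < B := by linarith
  have hQ : (0:ℝ) ≤ Q := Nat.cast_nonneg Q
  have hkB : ∀ s, 0 ≤ s → |k s| ≤ B ∧ |k' s| ≤ B := fun s hs =>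
    ⟨by rw [abs_of_nonneg (hk.kb.kern.nonneg s)]; exact hk.kb.kB s hs, hk.kb.k'B s hs⟩
  refine ⟨435 * B * (4 * (n + 1)) * (2 ^ (m + 3) * ((Q * Skel.om m + 1) * 2 ^ m) * 2 +
          4 * (n + 1) * ((Q * Skel.om m + 1) * 2 ^ m)), by positivity, ?_⟩
  intro X C C₅
  obtain ⟨ε₀, hε₀, H⟩ := hP eps0 eps0_pos le_rfl X C C₅
  refine ⟨min ε₀ 1, lt_min hε₀ one_pos, fun T F ν P Kp δ ε τ₀ S hS hε j => ?_⟩
  obtain ⟨τ, a, -, b, -, d⟩ := H T F ν P Kp δ ε τ₀ S hS (hε.trans (min_le_left _ _)) j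
  exact jumpH_core hk.kb.kern.pk hB0.le hkB S j hS (hε.trans (min_le_right _ _)) a b
    (d.imp (fun h => ⟨h.2.1, h.2.2⟩) id)

end Vale.Agent.P214.INST
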