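import Vale.Agent.P214.INST.OdeWin
import Vale.Agent.P214.INST.Decay
import Vale.Agent.P214.INST.Lim
import Vale.Agent.P214.INST.Soft
import Vale.Agent.P214.INST.Tan
import Vale.Agent.P214.INST.Refs
import Vale.Agent.P214.INST.Cyl
import Vale.Agent.P214.INST.Fat
import Vale.Agent.P214.INST.Dich
import Vale.Agent.P214.INST.KerBd
import Vale.Agent.P214.INST.Ker3
import Vale.Agent.P214.LOCF.Main
import Vale.Agent.P214.WSEQ.Fin
import Vale.Agent.P214.UCA.Glue

/-!
# P214, block INST: the final assembly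

`uc_of_boxes`: `UC E m` from the flat rate lemma and the open boxes `LowStmt`, `SwitchStmt` of block
INST.
-/

open Set Filter Topology MeasureTheory Metric
open scoped RealInnerProductSpace ContDiff

set_option linter.all false

namespace Vale.Agent.P214.INST

variable {E : Type*} [NormedAddCommGroup E] [InnerProductSpace ℝ E] [FiniteDimensional ℝ E]
  [MeasurableSpace E] [BorelSpace E]

/-- **`UC` from the flat rate lemma**, modulo the open boxes of block INST -/
theorem uc_of_boxes {m : ℕ} (hm : 1 ≤ m) (hRF : ∀ Q, 1 ≤ Q → Skel.RateFlat E m Q)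
    (hLow : ∀ Q, 1 ≤ Q → LowStmt E m (Module.finrank ℝ E - m) Q ODEW.k3 ODEW.K3)
    (hSw : ∀ Q, 1 ≤ Q → SwitchStmt E m (Module.finrank ℝ E - m) Q ODEW.k3 ODEW.K3) :
    Skel.UC E m := by
  have hk := ker3
  have hT := fun Q => tanStmt E m (Module.finrank ℝ E - m) Q
  have hR := fun Q => refsStmt (hT Q)
  have hC := fun Q => cylStmt (hR Q)
  have hS := fun Q => softStmt E m (Module.finrank ℝ E - m) Q hk (hR Q) (hC Q)
  have hK := fun Q => kerStmt (Q := Q) hk (hR Q) (hC Q)
  refine UCA.uc_of_stmts hm (k := ODEW.k3) (K := ODEW.K3)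
    (fun Q hQ => WSEQ.windowsStmt E _ hm hQ)
    (fun Q _ => fatStmt E m _ Q) (fun Q hQ => ?_) (fun Q _ => decayStmt (hK Q) (hS Q))
    (fun Q _ => limStmt E m _ Q hk (hT Q) (hR Q)) (fun Q _ => hS Q) hSw
  exact odeStmt (LOCF.rateCurved E hm (hRF Q hQ)) hk (hR Q) (hC Q)
    (dichStmt (hK Q) (hLow Q hQ) (hS Q)) (hS Q)

end Vale.Agent.P214.INST
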