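import Vale.Agent.P214.INST.AreaLim
import Vale.Agent.P214.FM.Real
import Vale.Agent.P214.ODEW.Abs

/-!
# P214, block INST: small heights at one scale in Fermi coordinates

`near`: if the slab condition holds at all dyadic scales above `t`, a point whose base point or Fermi
base point lies in `ball 0 t` has both in `ball 0 (2t)`.
`HF_small`, `MF_close`: consequences for the kernel integrals of section FM at the centre `0`.
-/

open Set Filter Topology MeasureTheory Metric
open scoped RealInnerProductSpace ContDiff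

set_option linter.all false

namespace Vale.Agent.P214.INSTL

open FM FV ODE

variable {E : Type*} [NormedAddCommGroup E] [InnerProductSpace ℝ E] [FiniteDimensional ℝ E]
  {m : ℕ} {T : Submodule ℝ E} {w : E → E} {ε κ h₁ : ℝ} {t R₀ τ : ℝ} {Y : E}

lemma norm_w_le (hw : FM.Ref T w ε κ) (h0 : w 0 = 0) {δ r : ℝ}
    (hδ : ∀ y, ‖T.starProjection y‖ < r → ‖fderiv ℝ w y‖ ≤ δ) {Y : E}
    (hY : ‖T.starProjection Y‖ < r) : ‖w Y‖ ≤ δ * ‖T.starProjection Y‖ := by
  have h1 := (convex_ball (0:E) r).norm_image_sub_le_of_norm_hasFDerivWithin_le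
    (f := w) (f' := fderiv ℝ w) (C := δ) (fun z _ => (hw.diff z).hasFDerivAt.hasFDerivWithinAt)
    (fun z hz => hδ z ((norm_star_le T z).trans_lt (mem_ball_zero_iff.1 hz)))
    (mem_ball_self ((norm_nonneg _).trans_lt hY)) (mem_ball_zero_iff.2 hY)
  rw [h0, sub_zero, sub_zero, hw.base] at h1
  exact h1

/-- points near the centre -/
lemma near (hw : FM.Ref T w ε κ) (hε : ε ≤ 1 / 16) (h0 : w 0 = 0) (h1 : 0 < h₁) (ht : 0 < t)
    (hR : 2 * (t + 2 * ε * h₁) ≤ R₀) (hτ0 : 0 ≤ τ) (hτ : τ ≤ 1 / 16)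
    (hy : ∀ i : ℕ, 2 ^ i * t ≤ R₀ → ‖T.starProjection (Psi T w h₁ Y)‖ < 2 ^ i * t →
      ‖co T (Psi T w h₁ Y)‖ ≤ τ * (2 ^ i * t))
    (h : ‖T.starProjection Y‖ < t ∨ ‖T.starProjection (Psi T w h₁ Y)‖ < t) :
    ‖T.starProjection Y‖ < 2 * t ∧ ‖T.starProjection (Psi T w h₁ Y)‖ < 2 * t := by
  have hε0 := hw.eps_nonneg
  have hwY : ‖w Y‖ ≤ ε * ‖T.starProjection Y‖ :=
    norm_w_le hw h0 (r := ‖T.starProjection Y‖ + 1) (fun y _ => hw.slope y) (lt_add_one _)
  have e1 : co T Y = co T (Psi T w h₁ Y) - w Y := by rw [hw.co_Psi]; abel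
  have h2 : ‖co T Y‖ ≤ ‖co T (Psi T w h₁ Y)‖ + ε * ‖T.starProjection Y‖ := by
    rw [e1]; exact (norm_sub_le _ _).trans (by gcongr)
  have h3 := hw.norm_star_Psi_sub_le h1 Y
  have h4 := hw.norm_star_Psi_sub_le' h₁ Y
  set x := ‖T.starProjection (Psi T w h₁ Y)‖ with hx
  set X := ‖T.starProjection Y‖ with hX
  set v := ‖co T (Psi T w h₁ Y)‖ with hv
  have a1 : x ≤ X + ‖T.starProjection (Psi T w h₁ Y) - T.starProjection Y‖ := by
    calc x = ‖T.starProjection Y + (T.starProjection (Psi T w h₁ Y) - T.starProjection Y)‖ := by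
          rw [hx]; congr 1; abel
      _ ≤ _ := norm_add_le _ _
  have a2 : X ≤ x + ‖T.starProjection (Psi T w h₁ Y) - T.starProjection Y‖ := by
    calc X = ‖T.starProjection (Psi T w h₁ Y) -
          (T.starProjection (Psi T w h₁ Y) - T.starProjection Y)‖ := by rw [hX]; congr 1; abel
      _ ≤ _ := norm_sub_le _ _
  have hX0 : 0 ≤ X := norm_nonneg _
  have hx0 : 0 ≤ x := norm_nonneg _
  have hc0 := norm_nonneg (co T Y)
  have b1 : x ≤ X + ε * (v + ε * X) := a1.trans (by
    refine add_le_add le_rfl (h4.trans ?_); gcongr)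
  have b2 : X ≤ x + ε * (v + ε * X) := a2.trans (by
    refine add_le_add le_rfl (h4.trans ?_); gcongr)
  have hε2 : ε * ε ≤ 1 / 256 := by nlinarith
  rcases h with h | h
  · have hx2 : x < 2 * t := by
      by_contra hcon
      rw [not_lt] at hcon
      obtain ⟨i, hi1, hi2⟩ := exists_nat_pow_near (x := x / t) (y := (2:ℝ))
        (by rw [le_div_iff₀ ht]; linarith) (by norm_num)
      rw [le_div_iff₀ ht] at hi1
      rw [div_lt_iff₀ ht] at hi2
      have c1 : 2 ^ (i + 1) * t ≤ R₀ := by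
        calc 2 ^ (i + 1) * t = 2 * (2 ^ i * t) := by ring
          _ ≤ 2 * x := by gcongr
          _ ≤ 2 * (t + 2 * ε * h₁) := by
              have : x ≤ X + 2 * ε * h₁ := a1.trans (by gcongr)
              linarith
          _ ≤ R₀ := hR
      have c2 := hy (i + 1) c1 hi2
      have c3 : v ≤ 1 / 16 * (2 * x) := by
        calc v ≤ τ * (2 ^ (i + 1) * t) := c2
          _ = τ * (2 * (2 ^ i * t)) := by ring
          _ ≤ 1 / 16 * (2 * x) := by gcongr
      have c4 : ε * v ≤ 1 / 16 * (1 / 16 * (2 * x)) := by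
        have : 0 ≤ v := norm_nonneg _
        gcongr
      nlinarith
    exact ⟨by linarith, hx2⟩
  · have c2 := hy 0 (by
      have : 0 ≤ 2 * ε * h₁ := by positivity
      linarith) (by simpa using h)
    have c3 : v ≤ 1 / 16 * t := by
      calc v ≤ τ * (2 ^ 0 * t) := c2
        _ ≤ _ := by rw [pow_zero, one_mul]; gcongr
    have c4 : ε * v ≤ 1 / 16 * (1 / 16 * t) := by
      have : 0 ≤ v := norm_nonneg _
      gcongr
    refine ⟨?_, by linarith⟩
    nlinarith

/-- the height in Fermi coordinates near the centre -/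
lemma near_co (hw : FM.Ref T w ε κ) (h0 : w 0 = 0) {δ σ : ℝ}
    (hDw : ∀ y, ‖T.starProjection y‖ < 2 * t → ‖fderiv ℝ w y‖ ≤ δ)
    (hs : ‖T.starProjection (Psi T w h₁ Y)‖ < 2 * t → ‖co T (Psi T w h₁ Y)‖ ≤ σ * (2 * t))
    (h : ‖T.starProjection Y‖ < 2 * t ∧ ‖T.starProjection (Psi T w h₁ Y)‖ < 2 * t) :
    ‖co T Y‖ ≤ 2 * (σ + δ) * t := by
  have hδ : 0 ≤ δ := (norm_nonneg _).trans (hDw Y h.1)
  have hwY := norm_w_le hw h0 hDw h.1
  have e1 : co T Y = co T (Psi T w h₁ Y) - w Y := by rw [hw.co_Psi]; abel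
  rw [e1]
  calc _ ≤ ‖co T (Psi T w h₁ Y)‖ + ‖w Y‖ := norm_sub_le _ _
    _ ≤ σ * (2 * t) + δ * (2 * t) := by
        refine add_le_add (hs h.2) (hwY.trans ?_)
        gcongr
        exact h.1.le
    _ = _ := by ring

section int

variable [MeasurableSpace E] [BorelSpace E] {ν : Measure E} {P : E → E →L[ℝ] E} {u M B : ℝ}
  {k k' K : ℝ → ℝ} {Q : ℕ}

lemma integral_fmeas' (H : Adm T w ε κ h₁) (ν : Measure E) (g : E → ℝ) :
    ∫ Y, g Y ∂(fmeas T w h₁ ν) = ∫ y, g (PsiInv T w h₁ y) ∂ν := by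
  have h := H.integral_fmeas ν (fun y => g (PsiInv T w h₁ y))
  simp only [H.PsiInv_Psi] at h
  exact h

/-- the situation at the scale `t`: displacement and slab `u t`, mass `M t^m` -/
structure Sc (m : ℕ) (T : Submodule ℝ E) (w : E → E) (h₁ t : ℝ) (ν : Measure E) (u M : ℝ) :
    Prop where
  fin : IsFiniteMeasure ν
  pos : 0 < t
  near : ∀ᵐ y ∂ν, (‖T.starProjection (PsiInv T w h₁ y)‖ < t ∨ ‖T.starProjection y‖ < t) →
    ‖T.starProjection (PsiInv T w h₁ y)‖ < 2 * t ∧ ‖T.starProjection y‖ < 2 * t ∧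
      ‖co T (PsiInv T w h₁ y)‖ ≤ u * t
  mass : ν.real {y | ‖T.starProjection y‖ < 2 * t} ≤ M * t ^ m

lemma measurableSet_cyl (T : Submodule ℝ E) (r : ℝ) :
    MeasurableSet {y : E | ‖T.starProjection y‖ < r} :=
  (isOpen_lt (by fun_prop) continuous_const).measurableSet

/-- bound of an integral by its values over `ball 0 (2t)` -/
lemma Sc.int_le (S : Sc m T w h₁ t ν u M) {g : E → ℝ} {a : ℝ} (ha : 0 ≤ a)
    (hg : ∀ᵐ y ∂ν, ‖g y‖ ≤ if ‖T.starProjection y‖ < 2 * t then a else 0) :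
    |∫ y, g y ∂ν| ≤ a * (M * t ^ m) := by
  haveI := S.fin
  set C : Set E := {y | ‖T.starProjection y‖ < 2 * t} with hC
  have hmC : MeasurableSet C := measurableSet_cyl T _
  have h1 : ∀ᵐ y ∂ν, ‖g y‖ ≤ C.indicator (fun _ => a) y := by
    filter_upwards [hg] with y hy
    by_cases h : ‖T.starProjection y‖ < 2 * t
    · rw [if_pos h] at hy
      rwa [indicator_of_mem (show y ∈ C from h)]
    · rw [if_neg h] at hy
      rwa [indicator_of_notMem (show y ∉ C from h)]
  have h2 : Integrable (C.indicator fun _ => a) ν := (integrable_const a).indicator hmC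
  have h3 := norm_integral_le_of_norm_le h2 h1
  rw [integral_indicator hmC, setIntegral_const, smul_eq_mul] at h3
  rw [← Real.norm_eq_abs]
  refine h3.trans ?_
  rw [mul_comm]
  gcongr
  exact S.mass

lemma bx_zero (T : Submodule ℝ E) (y : E) : bx T 0 y = T.starProjection y := by
  rw [bx, sub_zero]

lemma aX_zero (T : Submodule ℝ E) (w : E → E) (y : E) : aX T w 0 y = ‖T.starProjection y‖ ^ 2 := by
  rw [aX, XX, bx_zero]

lemma kern_zero (hz : ∀ s, 1 ≤ s → k s = 0) (ht : 0 < t) {r : ℝ} (hr : t ≤ r) :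
    k (r ^ 2 / t ^ 2) = 0 := by
  refine hz _ ?_
  rw [one_le_div (by positivity)]
  gcongr

/-- **the height is small** -/
lemma Sc.HF_le (S : Sc m T w h₁ t ν u M) (H : Adm T w ε κ h₁) (hk : ODEW.KB k k' K B) :
    HF m T w 0 k (fmeas T w h₁ ν) t ≤ 4 * B * M * u ^ 2 * t ^ 2 := by
  have ht := S.pos
  have hB := hk.one
  have h1 : |∫ y, k (aX T w 0 (PsiInv T w h₁ y) / t ^ 2) *
      (vp T w 0 (PsiInv T w h₁ y) * ‖om T w (PsiInv T w h₁ y)‖ ^ 2) ∂ν| ≤
      (B * (4 * u ^ 2 * t ^ 2)) * (M * t ^ m) := by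
    refine S.int_le (by positivity) ?_
    filter_upwards [S.near] with y hy
    set Y := PsiInv T w h₁ y with hY
    by_cases h : ‖T.starProjection Y‖ < t
    · obtain ⟨-, h2, h3⟩ := hy (Or.inl h)
      rw [if_pos h2]
      have e1 : 0 ≤ k (aX T w 0 Y / t ^ 2) := hk.kern.nonneg _
      have e2 : k (aX T w 0 Y / t ^ 2) ≤ B := hk.kB _ (div_nonneg (sq_nonneg _) (sq_nonneg _))
      have e3 := Ref.vp_le_one (T := T) (w := w) 0 Y
      have e4 := H.ref.half_le_vp H.eps_le 0 Y
      have e5 : ‖om T w Y‖ ≤ 2 * (u * t) := by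
        unfold om
        have h4 := H.ref.norm_adj_fderiv_apply_le Y (co T Y)
        have h5 := H.eps_le
        have h6 := norm_nonneg (co T Y)
        calc _ ≤ ‖co T Y‖ + ‖adj (fderiv ℝ w Y) (co T Y)‖ := norm_sub_le _ _
          _ ≤ ‖co T Y‖ + 1 / 16 * ‖co T Y‖ := by
              refine add_le_add le_rfl (h4.trans ?_); gcongr
          _ ≤ 2 * (u * t) := by linarith
      rw [Real.norm_of_nonneg (by positivity)]
      calc k (aX T w 0 Y / t ^ 2) * (vp T w 0 Y * ‖om T w Y‖ ^ 2)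
          ≤ B * (1 * (2 * (u * t)) ^ 2) := by gcongr
        _ = _ := by ring
    · rw [not_lt] at h
      rw [aX_zero, kern_zero hk.kern.pk.zero ht h, zero_mul, norm_zero]
      split_ifs <;> positivity
  unfold HF kI
  rw [integral_fmeas' H]
  have htm : 0 < t ^ m := by positivity
  calc t ^ (-(m : ℤ)) * _ ≤ t ^ (-(m : ℤ)) * ((B * (4 * u ^ 2 * t ^ 2)) * (M * t ^ m)) := by
        gcongr
        exact (le_abs_self _).trans h1
    _ = _ := by
        rw [zpow_neg, zpow_natCast]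
        field_simp

/-- Lipschitz bound of the kernel `K` -/
lemma K_lip (hk : ODEW.KB k k' K B) {a b : ℝ} (ha : 0 ≤ a) (hb : 0 ≤ b) :
    |K a - K b| ≤ B / 2 * |a - b| := by
  have h := (convex_Ici (0:ℝ)).norm_image_sub_le_of_norm_hasDerivWithin_le
    (f := K) (f' := fun s => -(k s) / 2) (C := B / 2)
    (fun s _ => (hk.kern.pK.der s).hasDerivWithinAt) (fun s hs => by
      have h1 := hk.kB s hs
      have h2 := hk.kern.nonneg s
      rw [Real.norm_eq_abs, abs_le]
      constructor <;> linarith) (show b ∈ Ici (0:ℝ) from hb) (show a ∈ Ici (0:ℝ) from ha)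
  simpa [Real.norm_eq_abs] using h

/-- **mass in Fermi coordinates and mass of the cylinder** -/
lemma Sc.MF_close (S : Sc m T w h₁ t ν u M) (H : Adm T w ε κ h₁) (hk : ODEW.KB k k' K B) :
    |kI T w 0 (fmeas T w h₁ ν) K (fun _ => 1) t - ∫ y, K (‖T.starProjection y‖ ^ 2 / t ^ 2) ∂ν|
      ≤ B * u * (M * t ^ m) ∨ u < 0 := by
  rcases lt_or_ge u 0 with hu | hu
  · exact Or.inr hu
  left
  have ht := S.pos
  have hB := hk.one
  haveI := S.fin
  have hKc := hk.kern.pK.continuous
  have hbd : ∀ f : E → ℝ, Measurable f → (∀ y, 0 ≤ f y) → Integrable (fun y => K (f y)) ν := by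
    intro f hf h0
    refine Integrable.of_bound (hKc.measurable.comp hf).aestronglyMeasurable B ?_
    refine Eventually.of_forall fun y => ?_
    rw [Real.norm_of_nonneg (hk.kern.K_nonneg _)]
    exact hk.KB _ (h0 y)
  have hm1 : Measurable fun y => ‖T.starProjection (PsiInv T w h₁ y)‖ ^ 2 / t ^ 2 := by
    have := H.aem
    have h2 : Measurable fun y => T.starProjection (PsiInv T w h₁ y) :=
      T.starProjection.continuous.measurable.comp this
    exact (h2.norm.pow_const 2).div_const _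
  have hm2 : Measurable fun y => ‖T.starProjection y‖ ^ 2 / t ^ 2 := by
    have h2 : Measurable fun y => T.starProjection y := T.starProjection.continuous.measurable
    exact (h2.norm.pow_const 2).div_const _
  have e0 : kI T w 0 (fmeas T w h₁ ν) K (fun _ => 1) t =
      ∫ y, K (‖T.starProjection (PsiInv T w h₁ y)‖ ^ 2 / t ^ 2) ∂ν := by
    unfold kI
    rw [integral_fmeas' H]
    simp only [aX_zero, mul_one]
  rw [e0, ← integral_sub (hbd _ hm1 fun y => by positivity) (hbd _ hm2 fun y => by positivity)]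
  refine S.int_le (by positivity) ?_
  filter_upwards [S.near] with y hy
  set Y := PsiInv T w h₁ y with hY
  by_cases h : ‖T.starProjection Y‖ < t ∨ ‖T.starProjection y‖ < t
  · obtain ⟨h1, h2, h3⟩ := hy h
    rw [if_pos h2, Real.norm_eq_abs]
    refine (K_lip hk (by positivity) (by positivity)).trans ?_
    have h4 : ‖T.starProjection y - T.starProjection Y‖ ≤ 1 / 16 * (u * t) := by
      have h5 := H.ref.norm_star_Psi_sub_le' h₁ Y
      rw [hY, H.Psi_PsiInv, ← hY] at h5
      refine h5.trans ?_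
      have := H.eps_le
      have := norm_nonneg (co T Y)
      gcongr
    have h5 : |‖T.starProjection Y‖ - ‖T.starProjection y‖| ≤ 1 / 16 * (u * t) := by
      refine (abs_norm_sub_norm_le _ _).trans ?_
      rwa [norm_sub_rev]
    have h6 : |‖T.starProjection Y‖ ^ 2 / t ^ 2 - ‖T.starProjection y‖ ^ 2 / t ^ 2| ≤ u := by
      rw [← sub_div, abs_div, abs_of_pos (show (0:ℝ) < t ^ 2 by positivity),
        div_le_iff₀ (by positivity)]
      have e1 : ‖T.starProjection Y‖ ^ 2 - ‖T.starProjection y‖ ^ 2 =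
        (‖T.starProjection Y‖ - ‖T.starProjection y‖) *
          (‖T.starProjection Y‖ + ‖T.starProjection y‖) := by ring
      rw [e1, abs_mul]
      have n1 := norm_nonneg (T.starProjection Y)
      have n2 := norm_nonneg (T.starProjection y)
      rw [abs_of_nonneg (add_nonneg n1 n2)]
      calc _ ≤ 1 / 16 * (u * t) * (2 * t + 2 * t) := by
            gcongr
        _ ≤ u * t ^ 2 := by
            have : 0 ≤ u * t ^ 2 := by positivity
            nlinarith
    calc B / 2 * _ ≤ B / 2 * u := by gcongr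
      _ ≤ B * u := by nlinarith
  · rw [not_or, not_lt, not_lt] at h
    rw [kern_zero hk.kern.pK.zero ht h.1, kern_zero hk.kern.pK.zero ht h.2, sub_zero, norm_zero]
    split_ifs <;> positivity

end int

end Vale.Agent.P214.INSTL
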