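import Vale.Agent.P214.INST.SwMain
import Vale.Agent.P214.PATHG.Main

/-!
# P214: the singular set of a stationary integral varifold is null
-/

open Set MeasureTheory
open scoped ENNReal

namespace Vale.Agent.P214.INST

variable {E : Type*} [NormedAddCommGroup E] [InnerProductSpace ℝ E] [FiniteDimensional ℝ E]
  [MeasurableSpace E] [BorelSpace E]

/-- **`UC`**, unconditional -/
theorem uc_all {m : ℕ} (hm : 1 ≤ m) : Skel.UC E m := uc hm fun _ _ => PATHG.rateFlat E hm

/-- **The singular set of a stationary integral varifold has measure zero.** -/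
theorem null {m : ℕ} (hm : 1 ≤ m) {U : Set E} (hU : IsOpen U) (V : IntegralVarifold m U)
    (hV : V.IsStationary) : μH[m] V.sing = 0 :=
  Skel.main_of_UC (uc_all hm) hU V hV

end Vale.Agent.P214.INST
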