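import Vale.Agent.P214.RC2X.Ker
import Vale.Agent.P214.ODEW.OdeAbs

/-!
# P214, block INST: the differential inequalities of one reference at one scale

`ode_at` : from the data `RC2X.Inp` at the scale `t` (collar `d`, height `S`), with
`(log 1/S)^{-p} ≤ d` and `S ≤ S₀`, the functions `HF, jF, aF, bF` satisfy
`ABS.Ode (C κ) ((log 1/S)^{-A} S t²)`.
-/

open Set Filter Topology MeasureTheory Metric
open scoped RealInnerProductSpace ContDiff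

set_option linter.all false

namespace Vale.Agent.P214.INST

open FV ODE FM RC2X

/-- larger constants -/
lemma ode_mono {κ δ κ' δ' t H j a b H' a' : ℝ} (h : ABS.Ode κ δ t H j a b H' a') (ht : 0 ≤ t)
    (hκ : κ ≤ κ') (hδ : δ ≤ δ') : ABS.Ode κ' δ' t H j a b H' a' := by
  have hH := h.pos
  have h1 : κ * t * H ≤ κ' * t * H := by gcongr
  have h2 : 0 ≤ H + |j| + √(b * H) + max (j - a) 0 := by
    have := abs_nonneg j
    have := Real.sqrt_nonneg (b * H)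
    have := le_max_right (j - a) 0
    linarith
  have h3 : κ * t * (H + |j| + √(b * H) + max (j - a) 0) ≤
      κ' * t * (H + |j| + √(b * H) + max (j - a) 0) := by gcongr
  exact ⟨hH, h.bnn, h.cs, h.dH.trans (by linarith), by linarith [h.da], h.gap.trans (by linarith)⟩

variable {E : Type*} [NormedAddCommGroup E] [InnerProductSpace ℝ E] [FiniteDimensional ℝ E]
  [MeasurableSpace E] [BorelSpace E]

/-- the test functions of the differential inequalities at the scale `t` -/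
structure Tests (m : ℕ) (T : Submodule ℝ E) (w : E → E) (κ : ℝ) (z : E) (t : ℝ) (K : ℝ → ℝ)
    (M : ℝ) : Prop where
  one : ∃ M' : ℝ, 0 < M' ∧ M' ≤ M ∧ LOCF.Test3 T w z t (fun x => M'⁻¹ * K (aX T w z x / t ^ 2))
  two : ∃ M' : ℝ, 0 < M' ∧ M' ≤ M ∧ LOCF.Test3 T w z t (fun x => M'⁻¹ * (K (aX T w z x / t ^ 2) *
    (ODEW.cB m (Module.finrank ℝ E) * (κ * t) ^ 2 - tau m T w z t x)))
  le : ∀ x, aX T w z x < t ^ 2 → |tau m T w z t x| ≤ ODEW.cB m (Module.finrank ℝ E) * (κ * t) ^ 2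

lemma real1 {C₁ M' A₁ x H M e : ℝ} (hC : 0 ≤ C₁) (hM' : 0 ≤ M') (h1 : 4 * C₁ * M' ≤ A₁)
    (hx0 : 0 ≤ x) (hx1 : x ≤ 1) (hH : 0 ≤ H) (he : 0 ≤ e) {M₁ : ℝ} (hM : M₁ ≤ M) :
    4 * C₁ * M' * x ^ 2 * H + 2 * M₁ * e ≤ A₁ * x * H + (2 * M + 1) * e := by
  have h5 : M₁ * e ≤ M * e := by gcongr
  have h2 : 4 * C₁ * M' * x ^ 2 * H ≤ A₁ * x * H := by
    have h3 : x ^ 2 ≤ x := by nlinarith
    have h4 : 0 ≤ A₁ := le_trans (by positivity) h1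
    gcongr
  linarith

lemma real2 {Kx kx B c x τ : ℝ} (hK : Kx ≤ B * kx) (hK0 : 0 ≤ Kx) (hk0 : 0 ≤ kx) (hB : 0 ≤ B)
    (hc : 0 ≤ c) (hx0 : 0 ≤ x) (hx1 : x ≤ 1) (hτ : |τ| ≤ c * x ^ 2) :
    Kx * (c * x ^ 2 - τ) ≤ 2 * c * B * kx := by
  have h2 := (abs_le.1 hτ).1
  have h3 : x ^ 2 ≤ 1 := by nlinarith
  calc Kx * (c * x ^ 2 - τ) ≤ Kx * (2 * c * x ^ 2) := by
        refine mul_le_mul_of_nonneg_left ?_ hK0
        linarith
    _ ≤ (B * kx) * (2 * c * 1) := by gcongr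
    _ = _ := by ring

lemma real3 {O M Λ e : ℝ} (A : ℕ) (h : O * (2 * M + 1) ≤ Λ) (hΛ : 0 < Λ) (he : 0 ≤ e) :
    O * ((2 * M + 1) * ((Λ⁻¹) ^ (A + 1) * e)) ≤ (Λ⁻¹) ^ A * e := by
  calc O * ((2 * M + 1) * ((Λ⁻¹) ^ (A + 1) * e)) =
        (O * (2 * M + 1)) * Λ⁻¹ * ((Λ⁻¹) ^ A * e) := by rw [pow_succ]; ring
    _ ≤ Λ * Λ⁻¹ * ((Λ⁻¹) ^ A * e) := by gcongr
    _ = _ := by rw [mul_inv_cancel₀ hΛ.ne', one_mul]

/-- **The differential inequalities at one scale.** -/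
theorem ode_at {m Q : ℕ} (hRC : LOCF.RateCurved E m Q) {k k' K : ℝ → ℝ} {B ck M : ℝ}
    (hk : ODEW.KB k k' K B) (hck : 0 < ck) (hlow : KerLow ck k) (hM : 0 < M) (A p : ℕ) :
    ∃ C δ S₀ : ℝ, 0 ≤ C ∧ 0 < δ ∧ 0 < S₀ ∧ S₀ < 1 ∧ ∀ (T : Submodule ℝ E) (w : E → E)
      (ε κ h₁ : ℝ) (z : E) (t d S h : ℝ) (G : Set E) (h' : ℝ) (ν : Measure E)
      (P : E → E →L[ℝ] E),
      Inp m Q T w ε κ h₁ z t d S k h δ G h' ν P → S ≤ S₀ → ((Real.log S⁻¹)⁻¹) ^ p ≤ d →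
      h' ≤ 1 → κ * t ≤ eps0 → ODEW.Slp T w z κ t →
      Tests m T w κ z t K M → 0 < HF m T w z k (fmeas T w h₁ ν) t →
      DifferentiableAt ℝ (HF m T w z k (fmeas T w h₁ ν)) t ∧
      DifferentiableAt ℝ (aF m Q T w z K (fmeas T w h₁ ν)) t ∧
      ABS.Ode (C * κ) (((Real.log S⁻¹)⁻¹) ^ A * S * t ^ 2) t
        (HF m T w z k (fmeas T w h₁ ν) t) (jF m T w h₁ z K (fP T w h₁ P) (fmeas T w h₁ ν) t)
        (aF m Q T w z K (fmeas T w h₁ ν) t) (bF m T w h₁ z k (fP T w h₁ P) (fmeas T w h₁ ν) t)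
        (deriv (HF m T w z k (fmeas T w h₁ ν)) t)
        (deriv (aF m Q T w z K (fmeas T w h₁ ν)) t) := by
  have hk1 := hk.kern
  have hB := hk.one
  have hB0 : 0 ≤ B := zero_le_one.trans hB
  obtain ⟨C₁, δ₁, S₁, hC₁, hδ₁, hS₁, hS₁1, hrate⟩ := rate_ker hRC hk1 hck hlow (A + 1) p
  obtain ⟨S₂, hS₂, hS₂1, hsmall⟩ := small_at (E := E) (m := m) (Q := Q) hk1 hck hlow (A + 1) p
  set c := ODEW.cB m (Module.finrank ℝ E) with hc
  have hc1 : 50 ≤ c := ODEW.one_le_cB _ _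
  set A₁ : ℝ := 4 * C₁ * (B + 2 * c * B) with hA₁
  have hA₁0 : 0 ≤ A₁ := by positivity
  have hA₁B : 4 * C₁ * B ≤ A₁ := by
    have : 0 ≤ C₁ * (c * B) := by positivity
    rw [hA₁]; linarith
  have hA₁c : 4 * C₁ * (2 * c * B) ≤ A₁ := by
    have : 0 ≤ C₁ * B := by positivity
    rw [hA₁]; linarith
  set O := ODEW.cO m (Module.finrank ℝ E) B A₁ with hO
  have hO1 : 1 ≤ O := ODEW.one_le_cO _ _ hB hA₁0
  obtain ⟨S₃, hS₃, hlog⟩ := WIN.exists_of_ev (ev_log_ge (O * (2 * M + 1) + 1))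
  refine ⟨O, δ₁, min (min S₁ S₂) S₃, by linarith, hδ₁, by positivity,
    (min_le_left _ _).trans_lt ((min_le_left _ _).trans_lt hS₁1), ?_⟩
  intro T w ε κ h₁ z t d S h G h' ν P I hSS hLd hh' hκt hsl hT hpos
  have hS1 : S ≤ S₁ := hSS.trans ((min_le_left _ _).trans (min_le_left _ _))
  have hS2 : S ≤ S₂ := hSS.trans ((min_le_left _ _).trans (min_le_right _ _))
  have hS3 : S ≤ S₃ := hSS.trans (min_le_right _ _)
  have ht := I.tpos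
  have hS := I.Spos
  have hd := I.dpos
  have hA := I.conf.adm
  have hκ := hA.ref.knn
  have hS1' : S < 1 := hS1.trans_lt hS₁1
  obtain ⟨r1, -, -, r4⟩ := hsmall T w ε κ h₁ z t d S h δ₁ G h' ν P I hS2 hLd
  set Λ := Real.log S⁻¹ with hΛ
  have hΛ1 : O * (2 * M + 1) + 1 ≤ Λ := hlog S hS hS3
  have hΛ0 : 0 < Λ := by
    have : 0 < O * (2 * M + 1) := by positivity
    linarith
  set δ₂ : ℝ := (2 * M + 1) * ((Λ⁻¹) ^ (A + 1) * S * t ^ 2) with hδ₂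
  have hx0 : 0 ≤ (Λ⁻¹) ^ (A + 1) * S * t ^ 2 := by positivity
  have hδ₂0 : 0 ≤ δ₂ := by positivity
  have hκt0 : 0 ≤ κ * t := by positivity
  have hκt1 : κ * t ≤ 1 := hκt.trans (eps0_le.trans (by norm_num))
  obtain ⟨M₁, hM₁, hM₁M, hT1⟩ := hT.one
  obtain ⟨M₂, hM₂, hM₂M, hT2⟩ := hT.two
  have hHF : 0 ≤ HF m T w z k (fmeas T w h₁ ν) t := hpos.le
  have hw := hA.ref
  have hab : ∀ x, aX T w z (T.starProjection x) = aX T w z x := fun x => hw.aX_base z x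
  have hKk : ∀ x, K (aX T w z x / t ^ 2) ≤ B * k (aX T w z x / t ^ 2) := fun x =>
    hk.Kk _ (div_nonneg (aX_nonneg x) (sq_nonneg t))
  have hc0 : 0 ≤ c := by linarith
  -- the two uses of the rate lemma
  have g1 : 2 * t ^ (2 - (m : ℤ)) * FSig m Q T w (fmeas T w h₁ ν) (fP T w h₁ P)
      (fun x => K (aX T w z x / t ^ 2)) ≤
      A₁ * (κ * t) * HF m T w z k (fmeas T w h₁ ν) t + δ₂ := by
    refine (hrate T w ε κ h₁ z t d S h G h' ν P (fun x => K (aX T w z x / t ^ 2)) M₁ B I hS1 hLd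
      hM₁ hB0 hT1 (fun x => ?_)).trans (real1 hC₁.le hB0 hA₁B hκt0 hκt1 hHF hx0 hM₁M)
    rw [hab]; exact hKk x
  have g2 : 2 * t ^ (2 - (m : ℤ)) * FSig m Q T w (fmeas T w h₁ ν) (fP T w h₁ P)
      (fun x => K (aX T w z x / t ^ 2) * (c * (κ * t) ^ 2 - tau m T w z t x)) ≤
      A₁ * (κ * t) * HF m T w z k (fmeas T w h₁ ν) t + δ₂ := by
    refine (hrate T w ε κ h₁ z t d S h G h' ν P (fun x => K (aX T w z x / t ^ 2) *
      (c * (κ * t) ^ 2 - tau m T w z t x)) M₂ (2 * c * B) I hS1 hLd hM₂ (by positivity) hT2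
      (fun x => ?_)).trans (real1 hC₁.le (by positivity) hA₁c hκt0 hκt1 hHF hx0 hM₂M)
    rw [hab, hw.tau_base hA.eps_le z ht x]
    rcases lt_or_ge (aX T w z x) (t ^ 2) with h1 | h1
    · exact real2 (hKk x) (hk1.K_nonneg _) (hk1.nonneg _) hB0 hc0 hκt0 hκt1 (hT.le x h1)
    · have h2 : 1 ≤ aX T w z x / t ^ 2 := (one_le_div (by positivity)).2 h1
      rw [hk1.pK.zero _ h2, zero_mul]
      exact mul_nonneg (by positivity) (hk1.nonneg _)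
  have hX : S ^ (1 / 4 : ℝ) * (ODEW.XeF m T w z (fP T w h₁ P) (fmeas T w h₁ ν) t +
      ODEW.XuF m T w z (fmeas T w h₁ ν) t) ≤ δ₂ := r4.trans (by rw [hδ₂]; nlinarith)
  have hS4 : 0 ≤ S ^ (1 / 4 : ℝ) := Real.rpow_nonneg hS.le _
  have hS41 : S ^ (1 / 4 : ℝ) ≤ 1 := Real.rpow_le_one hS.le hS1'.le (by norm_num)
  obtain ⟨d1, d2, d3⟩ := ODEW.CylF.ode (Q := Q) (R := (1 + 2 * d) * t) (δ := δ₂) hA I.cylF I.min
    hh' hκt hsl I.ball hk ht (by nlinarith) hS4 hS41 r1 hA₁0 hδ₂0 hX g1 g2 hpos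
  refine ⟨d1, d2, ode_mono d3 ht.le le_rfl ?_⟩
  have e1 := real3 (O := O) (M := M) (e := S * t ^ 2) A (by linarith) hΛ0 (by positivity)
  rw [hδ₂, mul_assoc ((Λ⁻¹) ^ (A + 1)), mul_assoc ((Λ⁻¹) ^ A)]
  exact e1

end Vale.Agent.P214.INST
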