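import Vale.Agent.P214.INST.OdeAt
import Vale.Agent.P214.INST.DichProps
import Vale.Agent.P214.INST.Coarse
import Vale.Agent.P214.ODET.TauW

/-!
# P214, block INST, [ODE]: the field `ode` of the chain

`odeStmt`: from the curved rate lemma, `RefsStmt`, `CylStmt`, `DichStmt` and `SoftStmt` (positivity
of the heights).
-/

open Set Filter Topology MeasureTheory Metric
open scoped RealInnerProductSpace ContDiff

set_option linter.all false

namespace Vale.Agent.P214.INST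

open WIN WSEQ FM

variable {m n Q : ℕ} {E : Type*} [NormedAddCommGroup E] [InnerProductSpace ℝ E]
  [FiniteDimensional ℝ E] [MeasurableSpace E] [BorelSpace E]

/-- **[TAU-T]** (helper917): the test functions of the differential inequalities are test functions
of the curved rate lemma. -/
theorem tests {k k' K : ℝ → ℝ} {B : ℝ} (hk : ODEW.KB k k' K B) :
    ∃ M > 0, ∀ (T : Submodule ℝ E) (w : E → E) (ε κ h₁ : ℝ) (z : E) (t : ℝ) (G : Set E),
    Module.finrank ℝ T = m → Adm T w ε κ h₁ → 0 < κ → 0 < t → κ * t ≤ eps0 →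
    ODEW.Slp T w z κ t → MinimalOver T w G → ODE.BallIn T G z t → z ∈ T → Tests m T w κ z t K M := by
  have hB := hk.one
  have hcT := ODET.cTau_nonneg (Module.finrank ℝ E)
  have hc := ODEW.one_le_cB m (Module.finrank ℝ E)
  set c := ODEW.cB m (Module.finrank ℝ E) with hcd
  refine ⟨3 * B + 6 * (B * (c + ODET.cTau (Module.finrank ℝ E))), by positivity, ?_⟩
  intro T w ε κ h₁ z t G hdim H hκ ht hκt hs hmin hG hz
  have hκ1 : (κ * t) ^ 2 ≤ 1 := by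
    have h1 : κ * t ≤ 1 := hκt.trans (eps0_le.trans (by norm_num))
    have h2 : 0 ≤ κ * t := by positivity
    nlinarith
  have h0 : 0 ≤ B * (c + ODET.cTau (Module.finrank ℝ E)) := by positivity
  refine ⟨⟨3 * B, by linarith, by linarith, ODET.test3_K w hz hk ht le_rfl⟩,
    ⟨6 * (B * ((c + ODET.cTau (Module.finrank ℝ E)) * (κ * t) ^ 2)), by positivity, ?_,
      ODET.test3_cB H hdim ht hκt hs hmin hG hz hk (by positivity) le_rfl⟩, fun x hx => ?_⟩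
  · have h3 : B * ((c + ODET.cTau (Module.finrank ℝ E)) * (κ * t) ^ 2) ≤
        B * (c + ODET.cTau (Module.finrank ℝ E)) := by
      rw [← mul_assoc]
      exact mul_le_of_le_one_right h0 hκ1
    linarith
  · exact ODET.abs_tau_le_cB H hdim ht hκt hs hmin hG (lt_of_pow_lt_pow_left₀ 2 ht.le hx).le

/-- small slope at the scale `t`, from the slope outside the ball of radius `t / 4` -/
lemma slp_of {T : Submodule ℝ E} {w : E → E} {ε t : ℝ} (hw : Ref T w ε 1) (hm : 1 ≤ m)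
    (hdim : Module.finrank ℝ T = m) (ht : 0 < t)
    (h : ∀ Y, t / 4 ≤ ‖ODE.bx T 0 Y‖ → ‖fderiv ℝ w Y‖ ≤ ‖ODE.bx T 0 Y‖) :
    ODEW.Slp T w 0 1 t := by
  have hT : Nontrivial T := Module.nontrivial_of_finrank_pos (R := ℝ) (by omega)
  obtain ⟨e, he⟩ := exists_ne (0 : T)
  have he0 : (0:ℝ) < ‖(e : E)‖ := norm_pos_iff.2 (fun h0 => he (Subtype.ext h0))
  refine ⟨fun Y hY => ?_, fun Y hY => by rw [one_mul]; exact h Y hY⟩
  rw [one_mul]
  set Y' : E := (t / 4 / ‖(e : E)‖) • (e : E) with hY'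
  have hb : ODE.bx T 0 Y' = Y' := by
    rw [ODE.bx_eq, map_zero, sub_zero, hY']
    exact Submodule.starProjection_eq_self_iff.2 (T.smul_mem _ e.2)
  have hn : ‖Y'‖ = t / 4 := by
    rw [hY', norm_smul, Real.norm_eq_abs, abs_of_pos (by positivity)]
    field_simp
  have h1 : ‖fderiv ℝ w Y'‖ ≤ t / 4 := by
    have := h Y' (by rw [hb, hn])
    rwa [hb, hn] at this
  by_cases hc : t / 4 ≤ ‖ODE.bx T 0 Y‖
  · exact (h Y hc).trans hY
  rw [not_le] at hc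
  have h2 : ‖fderiv ℝ w Y - fderiv ℝ w Y'‖ ≤ 1 * ‖ODE.bx T 0 Y - ODE.bx T 0 Y'‖ := by
    rw [← hw.fderiv_base Y, ← hw.fderiv_base Y', ODE.bx_eq, ODE.bx_eq, map_zero, sub_zero,
      sub_zero]
    exact (convex_univ (𝕜 := ℝ) (E := E)).norm_image_sub_le_of_norm_hasFDerivWithin_le
      (f := fderiv ℝ w) (f' := D2 w) (C := 1)
      (fun z _ => (hw.diff1 z).hasFDerivAt.hasFDerivWithinAt)
      (fun z _ => hw.norm_D2_le z) (mem_univ _) (mem_univ _)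
  have h3 : ‖ODE.bx T 0 Y - ODE.bx T 0 Y'‖ ≤ t / 4 + t / 4 := by
    refine (norm_sub_le _ _).trans ?_
    rw [hb, hn]; linarith
  calc ‖fderiv ℝ w Y‖ = ‖(fderiv ℝ w Y - fderiv ℝ w Y') + fderiv ℝ w Y'‖ := by congr 1; abel
    _ ≤ 1 * ‖ODE.bx T 0 Y - ODE.bx T 0 Y'‖ + t / 4 := (norm_add_le _ _).trans (add_le_add h2 h1)
    _ ≤ t := by linarith

lemma inp_mono {T : Submodule ℝ E} {w : E → E} {ε κ h₁ : ℝ} {z : E} {t d S : ℝ} {k : ℝ → ℝ}
    {h δ δ' : ℝ} {G : Set E} {h' : ℝ} {ν : Measure E} {P : E → E →L[ℝ] E}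
    (I : RC2X.Inp m Q T w ε κ h₁ z t d S k h δ G h' ν P) (hδ : δ ≤ δ') :
    RC2X.Inp m Q T w ε κ h₁ z t d S k h δ' G h' ν P := by
  have ht := I.conf.pos
  obtain ⟨⟨a1, a2, a3, a4, a5, a6, a7⟩, b1, b2, b3, b4, b5, b6, b7, b8, b9, b10⟩ := I
  refine ⟨⟨a1, a2, ⟨a3.cyl, a3.mem, a3.pos, a3.int, a3.mass.trans (by gcongr)⟩,
    a4.trans (by gcongr), a5.trans hδ, a6.trans hδ, ?_⟩, b1, b2, b3, b4, b5, b6, b7, b8, b9, b10⟩
  filter_upwards [a7] with y h1 h2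
  exact (h1 h2).trans (by gcongr)

/-- **[ODE]** -/
theorem odeStmt {k k' K : ℝ → ℝ} {B : ℝ} (hRC : LOCF.RateCurved E m Q) (hk : Ker k k' K B)
    (hR : RefsStmt E m n Q) (hC : CylStmt E m n Q)
    (hD : DichStmt E m n Q k K) (hS : SoftStmt E m n Q k K) :
    ∃ κ : ℝ, 0 ≤ κ ∧ OdeStmt E m n Q k K κ := by
  obtain ⟨M, hM, hTest⟩ := tests (E := E) (m := m) hk.kb
  have hlow : RC2X.KerLow 1 k := fun s h0 h1 => by rw [one_mul]; exact hk.low s h0 h1
  obtain ⟨C₀, δ₁, S₀, hC₀, hδ₁, hS₀, hS₀1, hode⟩ :=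
    ode_at hRC hk.kb one_pos hlow hM 28 9
  set δ₀ : ℝ := min δ₁ (min (1 / 8) (8 * eps0)) with hδ₀
  have hδ₀0 : 0 < δ₀ := lt_min hδ₁ (lt_min (by norm_num) (by have := eps0_pos; positivity))
  refine ⟨C₀ * 1, by linarith, ?_⟩
  intro X C C₅
  obtain ⟨ε₁, hε₁, hR'⟩ := hR eps0 eps0_pos le_rfl X C C₅
  obtain ⟨ε₂, hε₂, hI'⟩ := inp_of hR hC hδ₀0 ((min_le_right _ _).trans (min_le_left _ _))
    ((min_le_right _ _).trans (min_le_right _ _)) X C C₅
  obtain ⟨ε₃, hε₃, hD'⟩ := hD S₀ hS₀ X C C₅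
  obtain ⟨ε₄, hε₄, hS'⟩ := hS X C C₅
  refine ⟨min (min (min ε₁ ε₂) (min ε₃ ε₄)) (1 / 2), by positivity, ?_⟩
  intro T F ν P Kp δ ε τ S hctx hε k₀ e hfat
  have hε1 : ε ≤ ε₁ := hε.trans ((min_le_left _ _).trans ((min_le_left _ _).trans
    (min_le_left _ _)))
  have hε2 : ε ≤ ε₂ := hε.trans ((min_le_left _ _).trans ((min_le_left _ _).trans
    (min_le_right _ _)))
  have hε3 : ε ≤ ε₃ := hε.trans ((min_le_left _ _).trans ((min_le_right _ _).trans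
    (min_le_left _ _)))
  have hε4 : ε ≤ ε₄ := hε.trans ((min_le_left _ _).trans ((min_le_right _ _).trans
    (min_le_right _ _)))
  have hεh : ε ≤ 1 / 2 := hε.trans (min_le_right _ _)
  obtain ⟨t₁, ht₁, hdich⟩ := hD' T F ν P Kp δ ε τ S hctx hε3 k₀ e (C₀ * 1) hfat
  obtain ⟨-, -, -, -, hsoft, -⟩ := hS' T F ν P Kp δ ε τ S hctx hε4 k₀ e (C₀ * 1) hfat
  refine ⟨min t₁ (min δ₀ (min (1 / 32) eps0)), lt_min ht₁ (lt_min hδ₀0 (lt_min (by norm_num)
    eps0_pos)), ?_⟩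
  intro i t s hwin htt hs hst hbdd
  have ht1 : t ≤ t₁ := htt.trans (min_le_left _ _)
  have ht2 : t ≤ δ₀ := htt.trans ((min_le_right _ _).trans (min_le_left _ _))
  have ht3 : t ≤ 1 / 32 := htt.trans ((min_le_right _ _).trans ((min_le_right _ _).trans
    (min_le_left _ _)))
  have ht4 : t ≤ eps0 := htt.trans ((min_le_right _ _).trans ((min_le_right _ _).trans
    (min_le_right _ _)))
  have hs1 : s ≤ t₁ := hst.trans (min_le_left _ _)
  obtain ⟨hadm, -, -, hflat⟩ := hR' T F ν P Kp δ ε τ S hctx hε1 (k₀ + i)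
  have hadm := hadm _ (tubeC_pos S (by linarith) (k₀ + i)) (tubeC_le S (by linarith) (k₀ + i))
  have hTr : Tr S (k₀ + i + 1) ≤ t := hwin.1
  have hTr0 : 0 < Tr S (k₀ + i + 1) := by
    have h1 := S.r_pos (k₀ + i + 1)
    have h2 := S.th_le (k₀ + i + 1)
    unfold Tr
    exact mul_pos h1 (by linarith)
  have ht : 0 < t := hTr0.trans_le hTr
  obtain ⟨d, s', hd, hd2, hs', hsS, hdp, hball, hH, htube, hrate⟩ := hdich i t s hwin ht1 hs hs1 hbdd
  obtain ⟨h, hI⟩ := hI' T F ν P Kp δ ε τ S hctx hε2 k (k₀ + i) t d s' ht ht2 ht3 hd hd2 hball hs'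
    hH htube
  have hI := inp_mono hI (min_le_left _ _ : δ₀ ≤ δ₁)
  have hdim : Module.finrank ℝ T = m := hI.cylF.dimT
  have hslp : ODEW.Slp T (wr S (k₀ + i)) 0 1 t :=
    slp_of hadm.ref hctx.m_pos hdim ht (hflat t hTr)
  have hpos : 0 < Hw m T ν k (tube S (k₀ + i)) (wr S (k₀ + i)) t := (hsoft i t hwin).2.2.1
  have hh' : 2 * (S.r (k₀ + i) * S.h (k₀ + i) ^ (2 / 5 : ℝ)) ≤ 1 := by
    have h1 : S.r (k₀ + i) ≤ 3 / 16 := by
      have := S.r_anti (by linarith) (Nat.zero_le (k₀ + i))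
      rwa [S.r_zero] at this
    have h2 := (S.h_pos (k₀ + i)).le
    have h3 : S.h (k₀ + i) ^ (2 / 5 : ℝ) ≤ 1 :=
      Real.rpow_le_one h2 ((S.h_le _).trans (by linarith)) (by norm_num)
    have h4 := (S.r_pos (k₀ + i)).le
    have h5 : 0 ≤ S.h (k₀ + i) ^ (2 / 5 : ℝ) := Real.rpow_nonneg h2 _
    nlinarith
  have ht4' : 1 * t ≤ eps0 := by rw [one_mul]; exact ht4
  obtain ⟨-, -, key⟩ := hode T (wr S (k₀ + i)) _ 1 (tube S (k₀ + i)) 0 t d s' h
    (Gr S (k₀ + i)) _ ν P hI hsS hdp hh' ht4' hslp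
    (hTest T (wr S (k₀ + i)) _ 1 _ 0 t (Gr S (k₀ + i)) hdim hadm one_pos ht ht4' hslp hI.min
      (RC2X.BallIn.mono hI.ball (by nlinarith)) T.zero_mem) hpos
  refine ode_mono key ht.le le_rfl ?_
  have h0 : 0 ≤ t ^ 2 := sq_nonneg t
  gcongr

end Vale.Agent.P214.INST
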