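import Vale.Agent.P214.INST.SwD
import Vale.Agent.P214.INST.Dich
import Vale.Agent.P214.INST.JumpH
import Vale.Agent.P214.INST.JumpAE
import Vale.Agent.P214.INST.TubeW
import Vale.Agent.P214.INST.TanS
import Vale.Agent.P214.INST.Main

/-!
# P214, block INST: the switches

* `jumpStmt` : the jumps of height and area excess at the switch radii;
* `lowStmt`  : `LowStmt`;
* `switchStmt` : `SwitchStmt`;
* `uc` : `UC` from the flat rate lemma.
-/

open Set Filter Topology MeasureTheory Metric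
open scoped RealInnerProductSpace ContDiff

set_option linter.all false

noncomputable section

namespace Vale.Agent.P214.INST

open WSEQ

variable {m n Q : ℕ} {E : Type*} [NormedAddCommGroup E] [InnerProductSpace ℝ E]
  [FiniteDimensional ℝ E] [MeasurableSpace E] [BorelSpace E]
variable {k k' K : ℝ → ℝ} {B : ℝ}

/-- **the jumps at the switch radii** -/
theorem jumpStmt (hk : Ker k k' K B) (hR : RefsStmt E m n Q) (hC : CylStmt E m n Q)
    (hT : TanSharpStmt E m n Q) :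
    ∃ C' : ℝ, 0 < C' ∧ Ev E m n Q fun T _ ν _ _ _ X _ _ _ S => ∀ j,
      |Hw m T ν k (tube S (j + 1)) (wr S (j + 1)) (Tr S (j + 1)) -
          Hw m T ν k (tube S j) (wr S j) (Tr S (j + 1))| ≤
        Tr S (j + 1) ^ 2 * (C' * S.h j ^ (1 + 9 / 5 * X.c)) ∧
      |aw m Q T ν K (tube S (j + 1)) (wr S (j + 1)) (Tr S (j + 1)) -
          aw m Q T ν K (tube S j) (wr S j) (Tr S (j + 1))| ≤
        Tr S (j + 1) ^ 2 * (C' * S.h j ^ (1 + 9 / 5 * X.c)) := by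
  have hP := swPairStmt hR hC hT
  obtain ⟨C₁, hC₁, H₁⟩ := jumpH hP hk
  obtain ⟨C₂, hC₂, H₂⟩ := jumpA E m n Q hk.kb.kern hP
  have H₃ := ev_tube hk.kb.kern (by have := hk.kb.one; linarith) hk.up hk.upK hR hC
  refine ⟨max C₁ C₂ + 1, by positivity, ?_⟩
  intro X C C₅
  by_cases hX : X.OK m
  swap
  · exact ⟨1, one_pos, fun T F ν P Kp δ ε τ S hS _ => absurd hS.ok hX⟩
  have hc := hX.c_le
  obtain ⟨ε₀, hε₀, H⟩ := (H₁.and (H₂.and H₃)) X C C₅
  refine ⟨min ε₀ 1, lt_min hε₀ one_pos, fun T F ν P Kp δ ε τ S hS hε j => ?_⟩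
  obtain ⟨h1, h2, h3⟩ := H T F ν P Kp δ ε τ S hS (hε.trans (min_le_left _ _))
  obtain ⟨-, h4, h5⟩ := h3 j
  have hh := S.h_pos j
  have hh1 : S.h j ≤ 1 := (S.h_le j).trans (hε.trans (min_le_right _ _))
  have hp : S.h j ^ (3 / 2 : ℝ) ≤ S.h j ^ (1 + 9 / 5 * X.c) :=
    Real.rpow_le_rpow_of_exponent_ge hh hh1 (by linarith)
  have hT2 : 0 ≤ Tr S (j + 1) ^ 2 := sq_nonneg _
  have hpp : 0 ≤ S.h j ^ (1 + 9 / 5 * X.c) := (Real.rpow_pos_of_pos hh _).le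
  have key : ∀ x y z D : ℝ, D ≤ max C₁ C₂ → |x - y| ≤ Tr S (j + 1) ^ 2 * S.h j ^ (3 / 2 : ℝ) →
      |y - z| ≤ Tr S (j + 1) ^ 2 * (D * S.h j ^ (1 + 9 / 5 * X.c)) →
      |x - z| ≤ Tr S (j + 1) ^ 2 * ((max C₁ C₂ + 1) * S.h j ^ (1 + 9 / 5 * X.c)) := by
    intro x y z D hD hxy hyz
    calc |x - z| ≤ |x - y| + |y - z| := abs_sub_le _ _ _
      _ ≤ Tr S (j + 1) ^ 2 * S.h j ^ (1 + 9 / 5 * X.c) +
          Tr S (j + 1) ^ 2 * (max C₁ C₂ * S.h j ^ (1 + 9 / 5 * X.c)) := by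
        refine add_le_add (hxy.trans (mul_le_mul_of_nonneg_left hp hT2)) (hyz.trans ?_)
        exact mul_le_mul_of_nonneg_left (mul_le_mul_of_nonneg_right hD hpp) hT2
      _ = _ := by ring
  exact ⟨key _ _ _ C₁ (le_max_left _ _) h4 (h1 j), key _ _ _ C₂ (le_max_right _ _) h5 (h2 j)⟩

/-- **`LowStmt`** -/
theorem lowStmt (hk : Ker k k' K B) (hR : RefsStmt E m n Q) (hC : CylStmt E m n Q)
    (hSoft : SoftStmt E m n Q k K) : LowStmt E m n Q k K :=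
  lowStmt_of_swDat (by positivity) (swDat hk hR hC hSoft)

/-- **`SwitchStmt`** -/
theorem switchStmt (hk : Ker k k' K B) (hR : RefsStmt E m n Q) (hC : CylStmt E m n Q)
    (hT : TanSharpStmt E m n Q) (hSoft : SoftStmt E m n Q k K) : SwitchStmt E m n Q k K := by
  obtain ⟨C', hC', H₁⟩ := jumpStmt hk hR hC hT
  have H₂ := swDat' hk hR hC hSoft (C₀ := max (2 ^ m * 16 * B) C') (le_max_left _ _)
  intro X C C₅
  obtain ⟨ε₀, hε₀, H⟩ := (H₁.and H₂) X C C₅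
  refine ⟨ε₀, hε₀, fun T F ν P Kp δ ε τ S hS hε k₀ hfat => ?_⟩
  obtain ⟨h1, h2, h3⟩ := H T F ν P Kp δ ε τ S hS hε
  have hX := hS.ok
  have I := h3 k₀ (fun _ => 0) 0 hfat
  obtain ⟨e, e1, e2, e3, e4⟩ := switch_fields (c := X.c) (c₀ := (512 * 2 ^ m)⁻¹)
    (X := chain k K 0 (fun _ => 0) S k₀) hX.c_pos (by positivity) I (fun i => h2 (k₀ + i))
    hfat rfl rfl (fun i => by
      have h4 := h1 (k₀ + i)
      have hp : 0 ≤ S.h (k₀ + i) ^ (1 + 9 / 5 * X.c) :=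
        (Real.rpow_pos_of_pos (S.h_pos _) _).le
      have h5 : Tr S (k₀ + i + 1) ^ 2 * (C' * S.h (k₀ + i) ^ (1 + 9 / 5 * X.c)) ≤
          Tr S (k₀ + i + 1) ^ 2 *
            (max (2 ^ m * 16 * B) C' * S.h (k₀ + i) ^ (1 + 9 / 5 * X.c)) := by
        gcongr
        exact le_max_right _ _
      exact ⟨h4.1.trans h5, h4.2.trans h5⟩)
  refine ⟨e, fun κ => ⟨fun i => ?_, e1, e2, fun i t s ht hb => e3 i t s ht hb⟩⟩
  rcases e4 i with h | ⟨l, y, a1, a2, a3, a4, a5⟩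
  · exact Or.inl h
  · exact Or.inr ⟨l, y, a1, a2, a3, a4, a5⟩

/-- **`UC` from the flat rate lemma** -/
theorem uc {m : ℕ} (hm : 1 ≤ m) (hRF : ∀ Q, 1 ≤ Q → Skel.RateFlat E m Q) : Skel.UC E m := by
  have hk := ker3
  have hT := fun Q => tanStmt E m (Module.finrank ℝ E - m) Q
  have hR := fun Q => refsStmt (hT Q)
  have hC := fun Q => cylStmt (hR Q)
  have hS := fun Q => softStmt E m (Module.finrank ℝ E - m) Q hk (hR Q) (hC Q)
  exact uc_of_boxes hm hRF (fun Q _ => lowStmt hk (hR Q) (hC Q) (hS Q))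
    (fun Q _ => switchStmt hk (hR Q) (hC Q) (tanSharpStmt E m _ Q) (hS Q))

end Vale.Agent.P214.INST
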