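import Vale.Agent.P214.INST.Props
import Vale.Agent.P214.HSW.SupW
import Vale.Agent.P214.TCH.Near

/-!
# P214, block INST: a linear function close to the heights is small
-/

open Set Filter Topology MeasureTheory Metric
open scoped RealInnerProductSpace ContDiff

set_option linter.all false

namespace Vale.Agent.P214.INST

open WIN WSEQ FM

variable {m n Q : ℕ} {E : Type*} [NormedAddCommGroup E] [InnerProductSpace ℝ E]
  [FiniteDimensional ℝ E] [MeasurableSpace E] [BorelSpace E]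

/-- a unit vector of `T` in which `A` is at least half as large as its norm -/
lemma exists_unit {T : Submodule ℝ E} {A : E →L[ℝ] E} (hA : ∀ y, A y = A (T.starProjection y))
    (h0 : A ≠ 0) : ∃ v ∈ T, ‖v‖ = 1 ∧ ‖A‖ / 2 ≤ ‖A v‖ := by
  have hA0 : 0 < ‖A‖ := norm_pos_iff.2 h0
  obtain ⟨x, hx, hx2⟩ : ∃ x : E, ‖x‖ < 1 ∧ ‖A‖ / 2 < ‖A x‖ :=
    ContinuousLinearMap.exists_lt_apply_of_lt_opNorm A (by linarith)
  have h1 : 0 < ‖A (T.starProjection x)‖ := by rw [← hA]; linarith
  have h2 : T.starProjection x ≠ 0 := by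
    intro h
    rw [h, map_zero, norm_zero] at h1
    exact lt_irrefl _ h1
  have h3 : 0 < ‖T.starProjection x‖ := norm_pos_iff.2 h2
  have h4 : ‖T.starProjection x‖ ≤ 1 :=
    (T.norm_starProjection_apply_le x).trans hx.le
  refine ⟨‖T.starProjection x‖⁻¹ • T.starProjection x,
    T.smul_mem _ (Submodule.starProjection_apply_mem T x), ?_, ?_⟩
  · rw [norm_smul, norm_inv, norm_norm, inv_mul_cancel₀ h3.ne']
  · rw [map_smul, norm_smul, norm_inv, norm_norm, ← hA]
    have h5 : 1 ≤ ‖T.starProjection x‖⁻¹ := (one_le_inv₀ h3).2 h4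
    have h6 : 0 ≤ ‖A x‖ := norm_nonneg _
    nlinarith

/-- **smallness of a linear function which is close to the heights** -/
theorem lin_small (E : Type*) [NormedAddCommGroup E] [InnerProductSpace ℝ E]
    [FiniteDimensional ℝ E] [MeasurableSpace E] [BorelSpace E] (m Q : ℕ) (hm : 1 ≤ m)
    (hQ : 1 ≤ Q) : ∃ δ C : ℝ, 0 < δ ∧ 0 < C ∧ ∀ (T : Submodule ℝ E) (R h B : ℝ) (ν : Measure E)
      (P : E → E →L[ℝ] E) (w : E → E) (A : E →L[ℝ] E) (M : ℝ), Skel.IntCyl m Q T 0 R h δ ν P →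
      Skel.exc T ν P 0 R ≤ δ * R ^ m → KMS.Ref T w → (∀ y, ‖w y‖ ≤ M) →
      (∀ y, A y = A (T.starProjection y)) → 0 ≤ h → 0 ≤ B →
      (∀ y, ‖T.starProjection y‖ < R → ‖w y - A (T.starProjection y)‖ ≤ B * R) →
      ‖A‖ ^ 2 ≤ C * (STR.hN m T w ν R + (h / R) ^ 2 + B ^ 2) := by
  have hom : 0 < Skel.om m := TCH.om_pos m
  obtain ⟨δ, hδ, hnik⟩ := TCH.nik (E := E) m Q hm (η := Skel.om m / 4) (by positivity) le_rfl
  set c : ℝ := 3 / 4 * Skel.om m * (1 / 8) ^ m with hc
  have hc0 : 0 < c := by positivity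
  refine ⟨min δ (Skel.om m / 4), 192 * (1 / c + 1), by positivity, by positivity, ?_⟩
  intro T R h B ν P w A M hI hexc hw hM hA hh0 hB0 hwA
  have hR := hI.pos
  have hfin := hI.cyl.fin
  have hhN : 0 ≤ STR.hN m T w ν R := by
    unfold STR.hN WIN.hE
    have : 0 ≤ ∫ y in Skel.cylSet T 0 R, ‖KMS.rel T w y‖ ^ 2 ∂ν :=
      integral_nonneg fun y => by positivity
    positivity
  by_cases hA0 : A = 0
  · rw [hA0, norm_zero]
    have : 0 ≤ (192 * (1 / c + 1)) * (STR.hN m T w ν R + (h / R) ^ 2 + B ^ 2) := by positivity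
    simpa using this
  obtain ⟨v, hvT, hv1, hvA⟩ := exists_unit hA hA0
  -- the ball
  set z : E := (R / 2) • v with hz
  have hzT : z ∈ T := T.smul_mem _ hvT
  have hzn : ‖z‖ = R / 2 := by
    rw [hz, norm_smul, hv1, mul_one, Real.norm_of_nonneg (by positivity)]
  have hI' : Skel.IntCyl m Q T z (R / 8) h (Skel.om m / 4) ν P := by
    refine hnik T 0 R h ν P (TCH.IntCyl.weaken hI (min_le_right _ _))
      (hexc.trans (by gcongr; exact min_le_left _ _)) z (R / 8) hzT (by linarith) ?_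
    rw [sub_zero, hzn]; linarith
  have hmass : c * R ^ m ≤ ν.real (Skel.cylSet T z (R / 8)) := by
    have h1 := (abs_le.1 hI'.mass).1
    have h2 : (R / 8) ^ m = (1 / 8) ^ m * R ^ m := by rw [← mul_pow]; ring
    have h3 : (1:ℝ) ≤ Q := by exact_mod_cast hQ
    rw [h2] at h1
    have h4 : 0 ≤ (1 / 8 : ℝ) ^ m * R ^ m := by positivity
    have h5 : Skel.om m * ((1 / 8 : ℝ) ^ m * R ^ m) ≤ Q * Skel.om m * ((1 / 8) ^ m * R ^ m) := by
      have := mul_nonneg hom.le h4
      nlinarith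
    rw [hc]; nlinarith
  have hsub : Skel.cylSet T z (R / 8) ⊆ Skel.cylSet T 0 R := by
    intro y hy
    have h1 : T.starProjection y ∈ ball z (R / 8) := hy
    show T.starProjection y ∈ ball (0:E) R
    rw [mem_ball, dist_eq_norm] at h1
    rw [mem_ball, dist_zero_right]
    calc ‖T.starProjection y‖ = ‖(T.starProjection y - z) + z‖ := by rw [sub_add_cancel]
      _ ≤ ‖T.starProjection y - z‖ + ‖z‖ := norm_add_le _ _
      _ < R := by rw [hzn]; linarith
  have hsm := KMS.measurableSet_cylSet T z (R / 8)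
  have hint : IntegrableOn (fun y => ‖KMS.rel T w y‖ ^ 2) (Skel.cylSet T 0 R) ν :=
    HSW.integrableOn_rel_sq' (z := 0) (R := R) hI.cyl hw hM subset_rfl
  -- pointwise bound
  have hpt : ∀ᵐ y ∂(ν.restrict (Skel.cylSet T z (R / 8))),
      (‖A‖ * R / 8) ^ 2 ≤ 3 * ‖KMS.rel T w y‖ ^ 2 + 3 * (h ^ 2 + (B * R) ^ 2) := by
    rw [ae_restrict_iff' hsm]
    filter_upwards [hI.cyl.slab] with y hy hyz
    have hy0 := hsub hyz
    have h1 := hy hy0
    have hpy : ‖T.starProjection y‖ < R := by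
      have : T.starProjection y ∈ ball (0:E) R := hy0
      rwa [mem_ball, dist_zero_right] at this
    have h2 := hwA y hpy
    have hyz' : ‖T.starProjection y - z‖ < R / 8 := by
      have : T.starProjection y ∈ ball z (R / 8) := hyz
      rwa [mem_ball, dist_eq_norm] at this
    -- lower bound
    have h3 : ‖A‖ * R / 8 ≤ ‖A (T.starProjection y)‖ := by
      have e1 : A (T.starProjection y) = A z + A (T.starProjection y - z) := by
        rw [← map_add]; congr 1; abel
      have e2 : ‖A z‖ = R / 2 * ‖A v‖ := by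
        rw [hz, map_smul, norm_smul, Real.norm_of_nonneg (by positivity)]
      have e3 : ‖A (T.starProjection y - z)‖ ≤ ‖A‖ * (R / 8) :=
        (A.le_opNorm _).trans (by gcongr)
      have e4 : ‖A z‖ - ‖A (T.starProjection y - z)‖ ≤ ‖A (T.starProjection y)‖ := by
        rw [e1]
        have := norm_sub_le (A z + A (T.starProjection y - z)) (A (T.starProjection y - z))
        rw [add_sub_cancel_right] at this
        linarith
      have e5 : R / 2 * (‖A‖ / 2) ≤ R / 2 * ‖A v‖ := by gcongr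
      rw [e2] at e4
      linarith
    -- upper bound
    have h4 : ‖A (T.starProjection y)‖ ≤ ‖KMS.rel T w y‖ + h + B * R := by
      have e1 : A (T.starProjection y)
          = (FV.co T y - KMS.rel T w y) - (w y - A (T.starProjection y)) := by
        unfold KMS.rel; abel
      rw [e1]
      calc _ ≤ ‖FV.co T y - KMS.rel T w y‖ + ‖w y - A (T.starProjection y)‖ := norm_sub_le _ _
        _ ≤ (‖FV.co T y‖ + ‖KMS.rel T w y‖) + B * R := add_le_add (norm_sub_le _ _) h2
        _ ≤ _ := by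
          have : ‖FV.co T y‖ ≤ h := by rw [FV.co_apply]; exact h1
          linarith
    have h5 : 0 ≤ ‖A‖ * R / 8 := by positivity
    have h6 := h3.trans h4
    have h7 : (‖A‖ * R / 8) ^ 2 ≤ (‖KMS.rel T w y‖ + h + B * R) ^ 2 :=
      pow_le_pow_left₀ h5 h6 2
    nlinarith [sq_nonneg (‖KMS.rel T w y‖ - h), sq_nonneg (‖KMS.rel T w y‖ - B * R),
      sq_nonneg (h - B * R)]
  have hI1 : ν.real (Skel.cylSet T z (R / 8)) * (‖A‖ * R / 8) ^ 2 ≤
      3 * WIN.hE T w ν R + ν.real (Skel.cylSet T z (R / 8)) * (3 * (h ^ 2 + (B * R) ^ 2)) := by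
    have h1 : ∫ y in Skel.cylSet T z (R / 8), (‖A‖ * R / 8) ^ 2 ∂ν ≤
        ∫ y in Skel.cylSet T z (R / 8),
          (3 * ‖KMS.rel T w y‖ ^ 2 + 3 * (h ^ 2 + (B * R) ^ 2)) ∂ν := by
      refine integral_mono_ae (integrable_const _) ?_ hpt
      exact ((hint.mono_set hsub).const_mul 3).add (integrable_const _)
    rw [integral_add ((hint.mono_set hsub).const_mul 3) (integrable_const _),
      integral_const_mul] at h1
    simp only [integral_const, smul_eq_mul, measureReal_restrict_apply_univ] at h1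
    have h2 : ∫ y in Skel.cylSet T z (R / 8), ‖KMS.rel T w y‖ ^ 2 ∂ν ≤ WIN.hE T w ν R := by
      unfold WIN.hE
      exact setIntegral_mono_set hint (ae_of_all _ fun y => by positivity) hsub.eventuallyLE
    linarith
  have hEq : WIN.hE T w ν R = R ^ (m + 2) * STR.hN m T w ν R := by
    unfold STR.hN; field_simp
  set V := ν.real (Skel.cylSet T z (R / 8)) with hV
  have hV0 : 0 < V := lt_of_lt_of_le (by positivity) hmass
  have h8 : (‖A‖ * R / 8) ^ 2 ≤ 3 * (R ^ 2 * STR.hN m T w ν R / c) + 3 * (h ^ 2 + (B * R) ^ 2) := by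
    have h9 : R ^ (m + 2) * STR.hN m T w ν R ≤ V * (R ^ 2 * STR.hN m T w ν R / c) := by
      have : R ^ (m + 2) * STR.hN m T w ν R = (c * R ^ m) * (R ^ 2 * STR.hN m T w ν R / c) := by
        field_simp
        ring
      rw [this]
      gcongr
    have h10 : V * (‖A‖ * R / 8) ^ 2 ≤
        V * (3 * (R ^ 2 * STR.hN m T w ν R / c) + 3 * (h ^ 2 + (B * R) ^ 2)) := by
      rw [hEq] at hI1
      nlinarith
    exact le_of_mul_le_mul_left h10 hV0
  have h11 : ‖A‖ ^ 2 ≤ 192 * (STR.hN m T w ν R / c + (h / R) ^ 2 + B ^ 2) := by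
    have h12 : (‖A‖ * R / 8) ^ 2 = R ^ 2 * (‖A‖ ^ 2 / 64) := by ring
    have h13 : 3 * (R ^ 2 * STR.hN m T w ν R / c) + 3 * (h ^ 2 + (B * R) ^ 2)
        = R ^ 2 * (3 * (STR.hN m T w ν R / c + (h / R) ^ 2 + B ^ 2)) := by
      field_simp
      ring
    rw [h12, h13] at h8
    have := le_of_mul_le_mul_left h8 (by positivity : (0:ℝ) < R ^ 2)
    linarith
  refine h11.trans ?_
  have h14 : 0 ≤ (h / R) ^ 2 := by positivity
  have h15 : 0 ≤ B ^ 2 := by positivity
  have h16 : 0 ≤ 1 / c := by positivity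
  have h17 : STR.hN m T w ν R / c = 1 / c * STR.hN m T w ν R := by ring
  rw [h17]
  have h18 : 0 ≤ 1 / c * ((h / R) ^ 2 + B ^ 2) := by positivity
  nlinarith

end Vale.Agent.P214.INST
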