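import Vale.Agent.P214.ODET.TauW
import Vale.Agent.P214.INST.OdeAt

/-!
# P214, block INST: the test functions of the differential inequalities

`exists_tests` : `Tests m T w κ z t K M` with one constant `M`, at every centre `z ∈ T`, on a minimal
reference with small slope at the scale `t`.
-/

open Set Filter Topology MeasureTheory Metric
open scoped RealInnerProductSpace ContDiff

set_option linter.all false

namespace Vale.Agent.P214.INST

open FV ODE FM

variable {E : Type*} [NormedAddCommGroup E] [InnerProductSpace ℝ E] [FiniteDimensional ℝ E]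
  [MeasurableSpace E] [BorelSpace E]

theorem exists_tests (E : Type*) [NormedAddCommGroup E] [InnerProductSpace ℝ E]
    [FiniteDimensional ℝ E] [MeasurableSpace E] [BorelSpace E] (m : ℕ) {k k' K : ℝ → ℝ} {B : ℝ}
    (hk : ODEW.KB k k' K B) :
    ∃ M : ℝ, 0 < M ∧ ∀ (T : Submodule ℝ E) (w : E → E) (ε κ h₁ : ℝ) (z : E) (t : ℝ) (G : Set E),
      Module.finrank ℝ T = m → Adm T w ε κ h₁ → z ∈ T → 0 < t → κ * t ≤ eps0 →
      ODEW.Slp T w z κ t → MinimalOver T w G → BallIn T G z t → Tests m T w κ z t K M := by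
  have hB := hk.one
  have hc : 0 ≤ ODEW.cB m (Module.finrank ℝ E) := by
    unfold ODEW.cB; have := cT_nonneg; positivity
  have hC := ODET.cTau_nonneg (Module.finrank ℝ E)
  have hq : 0 ≤ B * (ODEW.cB m (Module.finrank ℝ E) + ODET.cTau (Module.finrank ℝ E)) := by
    positivity
  refine ⟨3 * B + 6 * (B * (ODEW.cB m (Module.finrank ℝ E) + ODET.cTau (Module.finrank ℝ E))),
    by positivity, ?_⟩
  intro T w ε κ h₁ z t G hT H hz ht hκ hs hmin hG
  have hk0 := H.ref.knn
  have hx0 : 0 ≤ κ * t := by positivity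
  have hx : (κ * t) ^ 2 ≤ 1 :=
    pow_le_one₀ hx0 (hκ.trans (eps0_le.trans (by norm_num)))
  refine ⟨⟨_, by positivity, le_rfl, ODET.test3_K w hz hk ht (by linarith)⟩,
    ⟨_, by positivity, le_rfl, ODET.test3_cB H hT ht hκ hs hmin hG hz hk (by positivity) ?_⟩,
    fun x hx => ODET.abs_tau_le_cB H hT ht hκ hs hmin hG ?_⟩
  · have h1 : B * ((ODEW.cB m (Module.finrank ℝ E) + ODET.cTau (Module.finrank ℝ E))
        * (κ * t) ^ 2) ≤ B * (ODEW.cB m (Module.finrank ℝ E) + ODET.cTau (Module.finrank ℝ E)) := by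
      calc _ = (B * (ODEW.cB m (Module.finrank ℝ E) + ODET.cTau (Module.finrank ℝ E)))
            * (κ * t) ^ 2 := by ring
        _ ≤ (B * (ODEW.cB m (Module.finrank ℝ E) + ODET.cTau (Module.finrank ℝ E))) * 1 := by
            gcongr
        _ = _ := mul_one _
    linarith
  · have h4 : ‖bx T z x‖ ^ 2 < t ^ 2 := hx
    exact (lt_of_pow_lt_pow_left₀ 2 ht.le h4).le

end Vale.Agent.P214.INST
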