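import Vale.Agent.P214.INST.KerBd
import Vale.Agent.P214.QP.IntV

/-!
# P214, block INST: the kernel heights near the switch radii (helper700)

One window `j`, reference `w = wr S j`, tube `tube S j`, `R₁ = S.r (j+1)`, `q = h_j^{1/4}`.
* `Wd.up_sw`  : the kernel height at `Tr S (j+1)` is `≤ C h_j^{1+c}`;
* `Wd.low_fat` : non-tiny window, the kernel height at `R₁ (1 + θ_j)` is `≥ c θ_j³ h_j^{1+c}`;
* `Wd.low_A`, `Wd.low_B` : the two cases of the lower bound by `h_{j+1}`.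
-/

open Set Filter Topology MeasureTheory Metric
open scoped RealInnerProductSpace ContDiff

set_option linter.all false

namespace Vale.Agent.P214.INST

open WIN WSEQ FM

variable {m n Q : ℕ} {E : Type*} [NormedAddCommGroup E] [InnerProductSpace ℝ E]
  [FiniteDimensional ℝ E] [MeasurableSpace E] [BorelSpace E]
variable {T : Submodule ℝ E} {F : Frame m n T} {ν : Measure E} {P : E → E →L[ℝ] E} {Kp : Set E}
  {δ : ℝ → ℝ} {X : Exps} {C C₅ ε : ℝ}
variable {S : WSeq m n Q T F ν P Kp δ X C C₅ ε} {j : ℕ} {η t d B : ℝ} {k k' : ℝ → ℝ}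

/-- the kernel near the boundary -/
lemma ker_up {K : ℝ → ℝ} (hkb : ODEW.KB k k' K B) {s : ℝ} (h0 : 0 ≤ s) (h1 : s ≤ 1) :
    k s ≤ B * (1 - s) := by
  have hk1 : k 1 = 0 := hkb.kern.pk.zero 1 le_rfl
  have h2 := (convex_Icc (0:ℝ) 1).norm_image_sub_le_of_norm_hasDerivWithin_le
    (f := k) (f' := k') (C := B) (fun x hx => (hkb.kern.pk.der x).hasDerivWithinAt)
    (fun x hx => by rw [Real.norm_eq_abs]; exact hkb.k'B x hx.1) (x := 1) (y := s)
    (by constructor <;> norm_num) ⟨h0, h1⟩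
  rw [hk1, sub_zero, Real.norm_eq_abs, Real.norm_eq_abs, abs_of_nonneg (hkb.kern.nonneg s),
    abs_of_nonpos (by linarith)] at h2
  linarith

lemma hN_nonneg {w : E → E} {t : ℝ} (ht : 0 ≤ t) : 0 ≤ STR.hN m T w ν t := by
  unfold STR.hN WIN.hE
  have : 0 ≤ ∫ y in Skel.cylSet T 0 t, ‖KMS.rel T w y‖ ^ 2 ∂ν := integral_nonneg fun _ => sq_nonneg _
  positivity

lemma int_eq_hN {w : E → E} {t : ℝ} (ht : 0 < t) :
    ∫ y in Skel.cylSet T 0 t, ‖FV.co T y - w y‖ ^ 2 ∂ν = t ^ (m + 2) * STR.hN m T w ν t := by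
  unfold STR.hN WIN.hE KMS.rel
  field_simp

/-- numbers at the lower end of a window -/
structure End (S : WSeq m n Q T F ν P Kp δ X C C₅ ε) (j : ℕ) : Prop where
  c₅_pos : 0 < X.c₅
  c₅_le : X.c₅ ≤ 1 / 20
  num' : Num S (j + 1)
  r_ge : S.r j * S.h j ^ X.c₅ ≤ S.r (j + 1)
  r_le : S.r (j + 1) ≤ S.r j * (1 - 12 * th (S.h j))

lemma end_of {τ : ℝ} (hS : Ctx τ S) (hN : Num S (j + 1)) : End S j := by
  refine ⟨hS.ok.c₅_pos, ?_, hN, (S.nxt j).r_ge, (S.nxt j).r_le⟩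
  have e1 := hS.ok.c₅_le
  have e2 := hS.ok.c_le
  linarith

namespace Wd

variable (W : Wd S η j)

include W

/-- `r_j h_j^{2/5} ≤ R₁ h_j^{1/4}` -/
lemma disp_end (H : End S j) :
    S.r j * S.h j ^ (2 / 5 : ℝ) ≤ S.r (j + 1) * S.h j ^ (1 / 4 : ℝ) := by
  refine disp_small W.num.hpos W.h_le_one W.num.rpos H.c₅_le (le_trans ?_ H.r_ge)
  have := W.num.rpos
  have h1 : S.h j ^ (2 * X.c₅) ≤ S.h j ^ X.c₅ :=
    Real.rpow_le_rpow_of_exponent_ge W.num.hpos W.h_le_one (by linarith [H.c₅_pos])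
  gcongr

lemma r_le_end (H : End S j) : S.r (j + 1) * (1 + th (S.h j)) ≤ S.r j * (1 - 11 * th (S.h j)) := by
  have h1 := W.num.th_pos
  have h2 := W.num.th_le
  have h3 := W.num.rpos
  calc S.r (j + 1) * (1 + th (S.h j)) ≤ (S.r j * (1 - 12 * th (S.h j))) * (1 + th (S.h j)) := by
        gcongr; exact H.r_le
    _ ≤ _ := by nlinarith [mul_pos h3 h1, mul_pos (mul_pos h3 h1) h1]

omit W in
/-- a stray point has a small kernel weight -/
lemma _root_.Vale.Agent.P214.FM.Adm.stray_le {w : E → E} {h₁ κ R q : ℝ} {K : ℝ → ℝ}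
    (A : Adm T w η κ h₁) (hkb : ODEW.KB k k' K B) (ht0 : 0 < t) (htR : t ≤ R) (hq0 : 0 ≤ q)
    (hq1 : q ≤ 1) {y : E} (hyt : ‖ODE.bx T 0 (PsiInv T w h₁ y)‖ < t)
    (hyR : R ≤ ‖ODE.bx T 0 y‖) (hd : η * ‖FV.co T (PsiInv T w h₁ y)‖ ≤ 1 / 8 * (R * q)) :
    hIn T w h₁ 0 k t y ≤ B * q * ‖FV.co T y - w y‖ ^ 2 ∧ ‖ODE.bx T 0 y‖ < R + 1 / 8 * (R * q) := by
  have hB := hkb.one
  have h1 := A.bx_le' 0 y
  have hR : 0 < R := ht0.trans_le htR
  set x := ‖ODE.bx T 0 (PsiInv T w h₁ y)‖ with hx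
  have hxR : R * (1 - q / 8) ≤ x := by
    have e : R * (1 - q / 8) = R - 1 / 8 * (R * q) := by ring
    rw [e]; linarith
  refine ⟨?_, by linarith⟩
  have ht2 : 0 < t ^ 2 := by positivity
  have e1 : aX T w 0 (PsiInv T w h₁ y) = x ^ 2 := rfl
  have hs0 : 0 ≤ x ^ 2 / t ^ 2 := div_nonneg (sq_nonneg _) ht2.le
  have hs : 1 - q / 4 ≤ x ^ 2 / t ^ 2 := by
    rw [le_div_iff₀ ht2]
    calc (1 - q / 4) * t ^ 2 ≤ (1 - q / 8) ^ 2 * t ^ 2 := by
          gcongr; nlinarith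
      _ ≤ (1 - q / 8) ^ 2 * R ^ 2 := by gcongr
      _ = (R * (1 - q / 8)) ^ 2 := by ring
      _ ≤ x ^ 2 := pow_le_pow_left₀ (mul_nonneg hR.le (by linarith)) hxR 2
  have hs1 : x ^ 2 / t ^ 2 ≤ 1 := by
    rw [div_le_one ht2]
    exact pow_le_pow_left₀ (norm_nonneg _) hyt.le 2
  have h6 := ker_up hkb hs0 hs1
  have h7 : k (x ^ 2 / t ^ 2) ≤ B * (q / 4) :=
    h6.trans (by gcongr; linarith)
  have h8 := A.om_sq_le y
  have v1 := Ref.vp_le_one (T := T) (w := w) 0 (PsiInv T w h₁ y)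
  have v0 := A.ref.half_le_vp A.eps_le 0 (PsiInv T w h₁ y)
  have hnn : 0 ≤ vp T w 0 (PsiInv T w h₁ y) * ‖om T w (PsiInv T w h₁ y)‖ ^ 2 :=
    mul_nonneg (by linarith) (sq_nonneg _)
  have h9 : vp T w 0 (PsiInv T w h₁ y) * ‖om T w (PsiInv T w h₁ y)‖ ^ 2 ≤
      1 * (2 * ‖FV.co T y - w y‖ ^ 2) := by gcongr
  have hsq := sq_nonneg ‖FV.co T y - w y‖
  have hBq : 0 ≤ B * (q / 4) := mul_nonneg (by linarith) (by linarith)
  unfold hIn
  rw [e1]
  calc _ ≤ B * (q / 4) * (1 * (2 * ‖FV.co T y - w y‖ ^ 2)) := mul_le_mul h7 h9 hnn hBq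
    _ = 1 / 2 * (B * q * ‖FV.co T y - w y‖ ^ 2) := by ring
    _ ≤ _ := by
        have : 0 ≤ B * q * ‖FV.co T y - w y‖ ^ 2 :=
          mul_nonneg (mul_nonneg (by linarith) hq0) hsq
        linarith

/-- pointwise bound of the integrand near the switch radius -/
lemma hIn_sw {K : ℝ → ℝ} (hkb : ODEW.KB k k' K B) {R : ℝ} (ht0 : 0 < t) (htR : t ≤ R)
    (hR9 : R ≤ S.r j * (1 - 9 * th (S.h j)))
    (hdisp : S.r j * S.h j ^ (2 / 5 : ℝ) ≤ R * S.h j ^ (1 / 4 : ℝ)) :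
    ∀ᵐ y ∂ν, hIn T (wr S j) (tube S j) 0 k t y ≤
      (Skel.cylSet T 0 R).indicator (fun y => 2 * B * ‖FV.co T y - wr S j y‖ ^ 2) y +
      (Skel.cylSet T 0 (R * (1 + S.h j ^ (1 / 4 : ℝ)))).indicator
        (fun y => B * S.h j ^ (1 / 4 : ℝ) * ‖FV.co T y - wr S j y‖ ^ 2) y := by
  have N := W.num
  have hB := hkb.one
  have hq := W.q_pos
  have hq1 : S.h j ^ (1 / 4 : ℝ) ≤ 1 := by linarith [N.quart, N.th_le]
  have hR0 : 0 < R := ht0.trans_le htR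
  filter_upwards [W.slab'] with y hy
  have hnn2 : 0 ≤ (Skel.cylSet T 0 (R * (1 + S.h j ^ (1 / 4 : ℝ)))).indicator
      (fun y => B * S.h j ^ (1 / 4 : ℝ) * ‖FV.co T y - wr S j y‖ ^ 2) y :=
    indicator_nonneg (fun _ _ => mul_nonneg (mul_nonneg (by linarith) hq.le) (sq_nonneg _)) _
  have hnn1 : 0 ≤ (Skel.cylSet T 0 R).indicator
      (fun y => 2 * B * ‖FV.co T y - wr S j y‖ ^ 2) y :=
    indicator_nonneg (fun _ _ => mul_nonneg (by linarith) (sq_nonneg _)) _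
  obtain ⟨a, b⟩ := W.adm.hIn_le (z := 0) hkb.kern.pk.zero hkb.kB hkb.kern.nonneg ht0 y
  by_cases hyt : ‖ODE.bx T 0 (PsiInv T (wr S j) (tube S j) y)‖ < t
  · rw [indicator_of_mem (by exact hyt)] at b
    by_cases hyR : y ∈ Skel.cylSet T 0 R
    · rw [indicator_of_mem hyR]; linarith
    · -- a stray
      rw [indicator_of_notMem hyR, zero_add]
      have hyR' : R ≤ ‖ODE.bx T 0 y‖ := by
        rw [← setOf_bx_zero] at hyR
        exact not_lt.1 hyR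
      have h2 := hy (by
        rw [← bx_zero]
        exact hyt.trans_le (htR.trans hR9))
      have h4 := W.adm.ref.eps_nonneg
      have h5 : η * ‖FV.co T (PsiInv T (wr S j) (tube S j) y)‖ ≤
          1 / 8 * (R * S.h j ^ (1 / 4 : ℝ)) := by
        calc _ ≤ 1 / 16 * (2 * (S.r j * S.h j ^ (2 / 5 : ℝ))) := by
              have := W.η_le
              gcongr
          _ ≤ 1 / 16 * (2 * (R * S.h j ^ (1 / 4 : ℝ))) := by gcongr
          _ = _ := by ring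
      obtain ⟨c1, c2⟩ := W.adm.stray_le hkb ht0 htR hq.le hq1 hyt hyR' h5
      have hmem : y ∈ Skel.cylSet T 0 (R * (1 + S.h j ^ (1 / 4 : ℝ))) := by
        rw [← setOf_bx_zero]
        show ‖ODE.bx T 0 y‖ < R * (1 + S.h j ^ (1 / 4 : ℝ))
        have := mul_pos hR0 hq
        have e : R * (1 + S.h j ^ (1 / 4 : ℝ)) = R + R * S.h j ^ (1 / 4 : ℝ) := by ring
        rw [e]; linarith
      rw [indicator_of_mem hmem]
      exact c1
  · rw [indicator_of_notMem (by exact hyt)] at b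
    linarith

/-- integrated form -/
lemma int_sw {K : ℝ → ℝ} (hkb : ODEW.KB k k' K B) {R : ℝ} (ht0 : 0 < t) (htR : t ≤ R)
    (hR9 : R * (1 + S.h j ^ (1 / 4 : ℝ)) ≤ S.r j * (1 - 9 * th (S.h j)))
    (hdisp : S.r j * S.h j ^ (2 / 5 : ℝ) ≤ R * S.h j ^ (1 / 4 : ℝ)) :
    ∫ y, hIn T (wr S j) (tube S j) 0 k t y ∂ν ≤
      2 * B * (R ^ (m + 2) * STR.hN m T (wr S j) ν R) + B * S.h j ^ (1 / 4 : ℝ) *
        ((R * (1 + S.h j ^ (1 / 4 : ℝ))) ^ (m + 2) *
        STR.hN m T (wr S j) ν (R * (1 + S.h j ^ (1 / 4 : ℝ)))) := by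
  have N := W.num
  have hq := W.q_pos
  have hR0 : 0 < R := ht0.trans_le htR
  have hRR : R ≤ R * (1 + S.h j ^ (1 / 4 : ℝ)) := by
    have := mul_pos hR0 hq
    linarith
  have hR8 : R * (1 + S.h j ^ (1 / 4 : ℝ)) < 3 / 8 := by
    refine hR9.trans_lt ?_
    nlinarith [N.th_pos, N.rpos, N.rle]
  have i1 : Integrable ((Skel.cylSet T 0 R).indicator
      (fun y => 2 * B * ‖FV.co T y - wr S j y‖ ^ 2)) ν :=
    (integrable_indicator_iff (KMS.measurableSet_cylSet T 0 R)).2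
      (Integrable.const_mul (W.int R (hRR.trans_lt hR8)) (2 * B))
  have i2 : Integrable ((Skel.cylSet T 0 (R * (1 + S.h j ^ (1 / 4 : ℝ)))).indicator
      (fun y => B * S.h j ^ (1 / 4 : ℝ) * ‖FV.co T y - wr S j y‖ ^ 2)) ν :=
    (integrable_indicator_iff (KMS.measurableSet_cylSet T 0 _)).2
      (Integrable.const_mul (W.int _ hR8) _)
  have htr : t ≤ S.r j := by
    refine htR.trans (hRR.trans (hR9.trans ?_))
    nlinarith [N.th_pos, N.rpos]
  have hI := W.integrable (t := t) hkb.kern.pk.continuous hkb.kern.pk.zero hkb.kB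
    hkb.kern.nonneg ht0 htr
  have h2 := integral_mono_ae hI (i1.add i2) (W.hIn_sw hkb ht0 htR (hRR.trans hR9) hdisp)
  simp only [Pi.add_apply] at h2
  rw [integral_add i1 i2, integral_indicator (KMS.measurableSet_cylSet T 0 _),
    integral_indicator (KMS.measurableSet_cylSet T 0 _), integral_const_mul,
    integral_const_mul, int_eq_hN (m := m) hR0,
    int_eq_hN (m := m) (lt_of_lt_of_le hR0 hRR)] at h2
  exact h2

/-- **upper bound at the switch radius** -/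
lemma up_sw {K : ℝ → ℝ} (H : End S j) (hkb : ODEW.KB k k' K B) {C' e : ℝ} (hC' : 0 ≤ C')
    (htop : ∀ t, S.r j * S.h j ^ X.c₅ ≤ t → t ≤ S.r j * (1 - 8 * th (S.h j)) →
      STR.hN m T (wr S j) ν t ≤ C' * S.h j ^ (1 - e)) :
    Hw m T ν k (tube S j) (wr S j) (Tr S (j + 1)) ≤ Tr S (j + 1) ^ 2 *
      (2 ^ m * 8 * B * (S.h (j + 1) + 2 ^ m * 4 * C' * (S.h j ^ (1 / 4 : ℝ) * S.h j ^ (1 - e)))) := by
  have N := W.num
  have N' := H.num'
  have hr := N'.rpos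
  have hB := hkb.one
  have hq := W.q_pos
  have hq1 : S.h j ^ (1 / 4 : ℝ) ≤ 1 := by linarith [N.quart, N.th_le]
  have htR : Tr S (j + 1) ≤ S.r (j + 1) := by
    unfold Tr; nlinarith [N'.th_pos]
  have htR2 : S.r (j + 1) ≤ 2 * Tr S (j + 1) := by
    unfold Tr; nlinarith [N'.th_le]
  have ht0 : 0 < Tr S (j + 1) := by linarith
  have hRj : S.r (j + 1) * (1 + S.h j ^ (1 / 4 : ℝ)) ≤ S.r j * (1 - 11 * th (S.h j)) := by
    refine le_trans ?_ (W.r_le_end H)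
    have : S.h j ^ (1 / 4 : ℝ) ≤ th (S.h j) := by linarith [N.quart, N.th_pos]
    gcongr
  have hRj9 : S.r (j + 1) * (1 + S.h j ^ (1 / 4 : ℝ)) ≤ S.r j * (1 - 9 * th (S.h j)) := by
    refine hRj.trans ?_
    nlinarith [mul_pos N.rpos N.th_pos]
  have h1 := W.int_sw hkb ht0 htR hRj9 (W.disp_end H)
  have h2 : STR.hN m T (wr S j) ν (S.r (j + 1) * (1 + S.h j ^ (1 / 4 : ℝ))) ≤
      C' * S.h j ^ (1 - e) := by
    refine htop _ ?_ ?_
    · refine H.r_ge.trans ?_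
      nlinarith
    · refine hRj.trans ?_
      nlinarith [mul_pos N.rpos N.th_pos]
  have e1 : STR.hN m T (wr S j) ν (S.r (j + 1)) = S.h (j + 1) := (S.h_eq (j + 1)).symm
  rw [e1] at h1
  have hh1 : 0 < S.h (j + 1) := S.h_pos _
  have hh2 : 0 < S.h j ^ (1 - e) := Real.rpow_pos_of_pos N.hpos _
  have h0 := hN_nonneg (m := m) (T := T) (ν := ν) (w := wr S j)
    (t := S.r (j + 1) * (1 + S.h j ^ (1 / 4 : ℝ))) (by positivity)
  have h4 : S.r (j + 1) * (1 + S.h j ^ (1 / 4 : ℝ)) ≤ 2 * S.r (j + 1) := by nlinarith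
  generalize S.h j ^ (1 / 4 : ℝ) = q at *
  generalize STR.hN m T (wr S j) ν (S.r (j + 1) * (1 + q)) = g at *
  generalize S.h j ^ (1 - e) = b at *
  generalize S.h (j + 1) = h' at *
  unfold Hw
  rw [W.adm.HF_eq, zpow_neg, zpow_natCast]
  generalize ∫ y, hIn T (wr S j) (tube S j) 0 k (Tr S (j + 1)) y ∂ν = I at *
  generalize S.r (j + 1) = R at *
  generalize Tr S (j + 1) = t at *
  have h8 : R ^ (m + 2) ≤ 2 ^ m * 4 * t ^ (m + 2) := by
    calc R ^ (m + 2) ≤ (2 * t) ^ (m + 2) := by gcongr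
      _ = _ := by rw [mul_pow, pow_add 2]; ring
  have h9 : (R * (1 + q)) ^ (m + 2) ≤ 2 ^ m * 4 * R ^ (m + 2) := by
    calc (R * (1 + q)) ^ (m + 2) ≤ (2 * R) ^ (m + 2) := by gcongr
      _ = _ := by rw [mul_pow, pow_add 2]; ring
  have h10 : I ≤ R ^ (m + 2) * (2 * B) * (h' + 2 ^ m * 4 * C' * (q * b)) := by
    have h5 : B * q * ((R * (1 + q)) ^ (m + 2) * g) ≤
        B * q * (2 ^ m * 4 * R ^ (m + 2) * (C' * b)) := by gcongr
    have h7 : 0 ≤ R ^ (m + 2) * B * (2 ^ m * 4 * C' * (q * b)) := by positivity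
    nlinarith
  calc (t ^ m)⁻¹ * I ≤ (t ^ m)⁻¹ * (R ^ (m + 2) * (2 * B) * (h' + 2 ^ m * 4 * C' * (q * b))) := by
        gcongr
    _ ≤ (t ^ m)⁻¹ * (2 ^ m * 4 * t ^ (m + 2) * (2 * B) * (h' + 2 ^ m * 4 * C' * (q * b))) := by
        gcongr
    _ = _ := by rw [pow_add t]; field_simp; ring

/-- **non-tiny window**: the kernel height at `R₁ (1 + θ_j)` -/
lemma low_fat {K : ℝ → ℝ} (H : End S j) (hkb : ODEW.KB k k' K B)
    (hk3 : ∀ s, 0 ≤ s → s ≤ 1 → (1 - s) ^ 3 ≤ k s)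
    (hfat : S.r (j + 1) < S.r j * (1 - 12 * th (S.h j))) :
    S.r (j + 1) ^ 2 * ((128 * 2 ^ m)⁻¹ * th (S.h j) ^ 3 * S.h j ^ (1 + X.c)) ≤
      Hw m T ν k (tube S j) (wr S j) (S.r (j + 1) * (1 + th (S.h j))) := by
  have N := W.num
  have hr := H.num'.rpos
  have hθ := N.th_pos
  have hθ1 := N.th_le
  set R := S.r (j + 1) with hR
  -- a radius slightly above `R`
  obtain ⟨t, ht1, ht2⟩ := exists_between (show R < min (S.r j * (1 - 12 * th (S.h j)))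
    (R * (1 + th (S.h j) / 4)) from lt_min hfat (by nlinarith))
  have ht3 := lt_min_iff.1 ht2
  have ht0 : 0 < t := hr.trans ht1
  set d := R * (1 + th (S.h j)) / t - 1 with hd
  have htd : t * (1 + d) = R * (1 + th (S.h j)) := by rw [hd]; field_simp; ring
  have hd1 : d ≤ th (S.h j) := by
    have : R * (1 + th (S.h j)) / t ≤ 1 + th (S.h j) := by
      rw [div_le_iff₀ ht0]
      nlinarith
    linarith
  have hd2 : th (S.h j) / 2 ≤ d := by
    have : 1 + th (S.h j) / 2 ≤ R * (1 + th (S.h j)) / t := by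
      rw [le_div_iff₀ ht0]
      calc (1 + th (S.h j) / 2) * t ≤ (1 + th (S.h j) / 2) * (R * (1 + th (S.h j) / 4)) := by
            have := ht3.2.le
            gcongr
        _ ≤ R * (1 + th (S.h j)) := by
            have : (1 + th (S.h j) / 2) * (1 + th (S.h j) / 4) ≤ 1 + th (S.h j) := by nlinarith
            nlinarith
    linarith
  have hend := W.r_le_end H
  have h1 := W.lower H.c₅_le hkb.kern.pk.continuous hkb.kern.pk.zero hkb.kB hkb.kern.nonneg hk3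
    (t := t) (d := d) (by
      refine le_trans ?_ (H.r_ge.trans ht1.le)
      have := N.rpos
      have h1 : S.h j ^ (2 * X.c₅) ≤ S.h j ^ X.c₅ :=
        Real.rpow_le_rpow_of_exponent_ge N.hpos W.h_le_one (by linarith [H.c₅_pos])
      gcongr) (by linarith [N.quart]) (by linarith) (by
      rw [htd]
      refine hend.trans ?_
      nlinarith [mul_pos N.rpos hθ])
  rw [htd] at h1
  have h2 : S.h j ^ (1 + X.c) < STR.hN m T (wr S j) ν t := (S.nxt j).h_gt t ht1 ht3.1.le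
  have hd0 : 0 < d := by linarith
  set g := Hw m T ν k (tube S j) (wr S j) (R * (1 + th (S.h j))) with hg
  have hpw : 0 < S.h j ^ (1 + X.c) := Real.rpow_pos_of_pos N.hpos _
  have h3 : S.h j ^ (1 + X.c) ≤ 16 * 2 ^ m * d⁻¹ ^ 3 * (t ^ 2)⁻¹ * g := h2.le.trans h1
  have h4 : (t ^ 2 * d ^ 3 / (16 * 2 ^ m)) * S.h j ^ (1 + X.c) ≤ g := by
    calc (t ^ 2 * d ^ 3 / (16 * 2 ^ m)) * S.h j ^ (1 + X.c) ≤
          (t ^ 2 * d ^ 3 / (16 * 2 ^ m)) * (16 * 2 ^ m * d⁻¹ ^ 3 * (t ^ 2)⁻¹ * g) := by gcongr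
      _ = g := by field_simp
  refine le_trans ?_ h4
  have h5 : R ^ 2 ≤ t ^ 2 := pow_le_pow_left₀ hr.le ht1.le 2
  have h6 : (th (S.h j) / 2) ^ 3 ≤ d ^ 3 := pow_le_pow_left₀ (by positivity) hd2 3
  calc R ^ 2 * ((128 * 2 ^ m)⁻¹ * th (S.h j) ^ 3 * S.h j ^ (1 + X.c)) =
        (R ^ 2 * (th (S.h j) / 2) ^ 3 / (16 * 2 ^ m)) * S.h j ^ (1 + X.c) := by
        rw [mul_inv]; field_simp; ring
    _ ≤ _ := by gcongr

/-- **case A**: no strays at distance `θ_{j+1} R₁` -/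
lemma low_A {K : ℝ → ℝ} (H : End S j) (hkb : ODEW.KB k k' K B)
    (hk3 : ∀ s, 0 ≤ s → s ≤ 1 → (1 - s) ^ 3 ≤ k s) (hθθ : th (S.h (j + 1)) ≤ th (S.h j))
    (hA : ∀ᵐ y ∂ν, ‖T.starProjection y‖ < S.r (j + 1) →
      ‖FV.co T y - wr S j y‖ ≤ th (S.h (j + 1)) * S.r (j + 1)) :
    S.r (j + 1) ^ 2 * ((16 * 2 ^ m)⁻¹ * th (S.h (j + 1)) ^ 3 * S.h (j + 1)) ≤
      Hw m T ν k (tube S j) (wr S j) (S.r (j + 1) * (1 + th (S.h (j + 1)))) := by
  have N := W.num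
  have N' := H.num'
  have hr := N'.rpos
  have hθ := N'.th_pos
  have hθ1 := N'.th_le
  have hend := W.r_le_end H
  have ht0 : 0 < S.r (j + 1) * (1 + th (S.h (j + 1))) := by positivity
  have htr : S.r (j + 1) * (1 + th (S.h (j + 1))) ≤ S.r j := by
    have : S.r (j + 1) * (1 + th (S.h (j + 1))) ≤ S.r (j + 1) * (1 + th (S.h j)) := by gcongr
    nlinarith [mul_pos N.rpos N.th_pos]
  have hlow : ∀ᵐ y ∂ν, y ∈ Skel.cylSet T 0 (S.r (j + 1)) → th (S.h (j + 1)) ^ 3 / 4 ≤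
      k (aX T (wr S j) 0 (PsiInv T (wr S j) (tube S j) y) /
        (S.r (j + 1) * (1 + th (S.h (j + 1)))) ^ 2) := by
    filter_upwards [hA] with y hy hyt
    have hyt' : ‖T.starProjection y‖ < S.r (j + 1) := by
      have h0 : T.starProjection y ∈ ball (0:E) (S.r (j + 1)) := hyt
      exact mem_ball_zero_iff.1 h0
    have h1 := W.adm.le_bx' 0 y
    have h2 := hy hyt'
    have h4 := W.adm.ref.eps_nonneg
    have h5 := W.adm.co_le y
    unfold aX XX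
    refine ker_low hk3 hr hθ (by linarith) (norm_nonneg _) ?_
    rw [bx_zero] at h1 ⊢
    rw [bx_zero] at h1
    have h6 : η * ‖FV.co T (PsiInv T (wr S j) (tube S j) y)‖ ≤
        1 / 16 * (256 / 255 * (th (S.h (j + 1)) * S.r (j + 1))) := by
      have := W.η_le
      calc _ ≤ 1 / 16 * (256 / 255 * ‖FV.co T y - wr S j y‖) := by gcongr
        _ ≤ _ := by gcongr
    have h7 := mul_pos hθ hr
    nlinarith
  have h1 := W.adm.HF_ge m (z := 0) hkb.kern.nonneg ht0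
    (KMS.measurableSet_cylSet T 0 (S.r (j + 1)))
    (W.integrable hkb.kern.pk.continuous hkb.kern.pk.zero hkb.kB hkb.kern.nonneg ht0 htr)
    (by positivity : 0 ≤ th (S.h (j + 1)) ^ 3 / 4) hlow
  rw [int_eq_hN (m := m) hr] at h1
  have e1 : STR.hN m T (wr S j) ν (S.r (j + 1)) = S.h (j + 1) := (S.h_eq (j + 1)).symm
  rw [e1] at h1
  refine le_trans ?_ h1
  have hh1 : 0 < S.h (j + 1) := S.h_pos _
  generalize th (S.h (j + 1)) = θ at *
  generalize S.h (j + 1) = h' at *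
  generalize S.r (j + 1) = R at *
  have h2 : ((2 * R) ^ m)⁻¹ ≤ ((R * (1 + θ)) ^ m)⁻¹ := by
    have : R * (1 + θ) ≤ 2 * R := by nlinarith
    gcongr
  calc R ^ 2 * ((16 * 2 ^ m)⁻¹ * θ ^ 3 * h') =
        θ ^ 3 / 4 / 4 * ((2 * R) ^ m)⁻¹ * (R ^ (m + 2) * h') := by
        rw [mul_pow, pow_add R]; field_simp; ring
    _ ≤ _ := by gcongr

/-- **case B**: a support point of height `a` near `C_{R₁}` is visible at `R₁ + 4 a` -/
lemma low_B {K : ℝ → ℝ} (H : End S j) (hkb : ODEW.KB k k' K B)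
    (hk3 : ∀ s, 0 ≤ s → s ≤ 1 → (1 - s) ^ 3 ≤ k s) {δ' H' : ℝ}
    (hI : Skel.IntCyl m Q T 0 (3 / 8) H' δ' ν P) {y₀ : E} (hy₀ : y₀ ∈ ν.support)
    (hy₁ : ‖T.starProjection y₀‖ < S.r (j + 1)) {a : ℝ} (ha : a = ‖FV.co T y₀ - wr S j y₀‖)
    (ha0 : 0 < a) (ha1 : a ≤ S.r (j + 1) * S.h j ^ (1 / 4 : ℝ)) :
    S.r (j + 1) ^ 2 * (cg m * (8 ^ m)⁻¹ * (a / S.r (j + 1)) ^ (m + 5)) ≤
      Hw m T ν k (tube S j) (wr S j) (S.r (j + 1) + 4 * a) := by
  have N := W.num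
  have N' := H.num'
  have hr := N'.rpos
  have hq := W.q_pos
  have hq1 : 16 * S.h j ^ (1 / 4 : ℝ) ≤ th (S.h j) := by linarith [N.quart]
  have hq2 : th (S.h j) ≤ 1 / 120 := N.th_le
  have hend := W.r_le_end H
  have ha2 : 16 * a ≤ S.r (j + 1) * th (S.h j) := by nlinarith
  have ha3 : 16 * a ≤ S.r (j + 1) := by nlinarith
  have ht0 : 0 < S.r (j + 1) + 4 * a := by positivity
  have hrj : S.r (j + 1) ≤ S.r j := by nlinarith [mul_pos N.rpos N.th_pos, H.r_le]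
  have htr : S.r (j + 1) + 4 * a ≤ S.r j := by nlinarith [mul_pos N.rpos N.th_pos]
  have hfin := hI.cyl.fin
  -- geometry of the ball
  have hgeo : ∀ y ∈ closedBall y₀ (a / 4), a / 2 ≤ ‖FV.co T y - wr S j y‖ ∧
      ‖FV.co T y - wr S j y‖ ≤ 2 * a ∧ ‖T.starProjection y‖ < S.r (j + 1) + a / 4 := by
    intro y hy
    rw [mem_closedBall, dist_eq_norm] at hy
    have h1 : ‖(FV.co T y - wr S j y) - (FV.co T y₀ - wr S j y₀)‖ ≤ a / 2 := by
      have e1 : (FV.co T y - wr S j y) - (FV.co T y₀ - wr S j y₀) =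
          FV.co T (y - y₀) - (wr S j y - wr S j y₀) := by rw [map_sub]; abel
      rw [e1]
      have h2 := FV.norm_co_le T (y - y₀)
      have h3 := W.adm.ref.norm_w_sub_le y₀ y
      have h4 : ‖ODE.bx T y₀ y‖ ≤ a / 4 := (FV.norm_star_le T _).trans hy
      have h5 := W.adm.ref.eps_nonneg
      have h6 : η * ‖ODE.bx T y₀ y‖ ≤ 1 / 16 * (a / 4) := by
        have := W.η_le
        gcongr
      refine (norm_sub_le _ _).trans ?_
      linarith
    have h2 := norm_sub_norm_le (FV.co T y₀ - wr S j y₀) (FV.co T y - wr S j y)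
    rw [norm_sub_rev (FV.co T y₀ - wr S j y₀), ← ha] at h2
    have h3 := norm_sub_norm_le (FV.co T y - wr S j y) (FV.co T y₀ - wr S j y₀)
    rw [← ha] at h3
    refine ⟨by linarith, by linarith, ?_⟩
    have h4 : ‖T.starProjection y‖ ≤ ‖T.starProjection y₀‖ + ‖T.starProjection (y - y₀)‖ := by
      calc ‖T.starProjection y‖ = ‖T.starProjection y₀ + T.starProjection (y - y₀)‖ := by
            rw [map_sub]; congr 1; abel
        _ ≤ _ := norm_add_le _ _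
    have h5 := FV.norm_star_le T (y - y₀)
    linarith
  set d := 4 * a / S.r (j + 1) with hd
  have hd0 : 0 < d := by positivity
  have hd1 : d ≤ 1 / 2 := by
    rw [hd, div_le_iff₀ hr]; linarith
  have hRd : S.r (j + 1) * (1 + d) = S.r (j + 1) + 4 * a := by
    rw [hd]; field_simp
  have hRd4 : S.r (j + 1) * (1 + d / 4) = S.r (j + 1) + a := by
    rw [hd]; field_simp
  have hlow : ∀ᵐ y ∂ν, y ∈ closedBall y₀ (a / 4) → d ^ 3 / 4 ≤
      k (aX T (wr S j) 0 (PsiInv T (wr S j) (tube S j) y) / (S.r (j + 1) + 4 * a) ^ 2) := by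
    refine Eventually.of_forall fun y hy => ?_
    obtain ⟨g1, g2, g3⟩ := hgeo y hy
    have h1 := W.adm.le_bx' 0 y
    have h4 := W.adm.ref.eps_nonneg
    have h5 := W.adm.co_le y
    rw [← hRd]
    unfold aX XX
    refine ker_low hk3 hr hd0 hd1 (norm_nonneg _) ?_
    rw [bx_zero] at h1 ⊢
    rw [bx_zero] at h1
    rw [hRd4]
    have h6 : η * ‖FV.co T (PsiInv T (wr S j) (tube S j) y)‖ ≤ 1 / 16 * (256 / 255 * (2 * a)) := by
      have := W.η_le
      calc _ ≤ 1 / 16 * (256 / 255 * ‖FV.co T y - wr S j y‖) := by gcongr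
        _ ≤ _ := by gcongr
    linarith
  have h1 := W.adm.HF_ge m (z := 0) hkb.kern.nonneg ht0
    (measurableSet_closedBall (x := y₀) (ε := a / 4))
    (W.integrable hkb.kern.pk.continuous hkb.kern.pk.zero hkb.kB hkb.kern.nonneg ht0 htr)
    (by positivity : 0 ≤ d ^ 3 / 4) hlow
  -- mass of the ball
  have hmass := QP.low_intCyl hI hy₀ (s := a / 4) (by positivity) (by
    rw [sub_zero]
    linarith [N.rle])
  have hsub : closedBall y₀ (a / 4) ⊆ Skel.cylSet T 0 (S.r j) := by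
    intro y hy
    have := (hgeo y hy).2.2
    show T.starProjection y ∈ ball (0:E) (S.r j)
    rw [mem_ball_zero_iff]
    linarith
  have hint : IntegrableOn (fun y => ‖FV.co T y - wr S j y‖ ^ 2) (closedBall y₀ (a / 4)) ν :=
    (W.int (S.r j) (by linarith [N.rle])).mono_set hsub
  have h2 : (a / 2) ^ 2 * ν.real (closedBall y₀ (a / 4)) ≤
      ∫ y in closedBall y₀ (a / 4), ‖FV.co T y - wr S j y‖ ^ 2 ∂ν := by
    have h3 : ∫ y in closedBall y₀ (a / 4), (a / 2) ^ 2 ∂ν ≤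
        ∫ y in closedBall y₀ (a / 4), ‖FV.co T y - wr S j y‖ ^ 2 ∂ν := by
      refine setIntegral_mono_on (integrable_const _) hint measurableSet_closedBall
        fun y hy => ?_
      exact pow_le_pow_left₀ (by positivity) (hgeo y hy).1 2
    rw [setIntegral_const, smul_eq_mul, mul_comm] at h3
    exact h3
  have hcg := cg_pos m
  have h3 : (a / 2) ^ 2 * (cg m * (a / 4) ^ m) ≤
      ∫ y in closedBall y₀ (a / 4), ‖FV.co T y - wr S j y‖ ^ 2 ∂ν :=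
    (mul_le_mul_of_nonneg_left hmass (sq_nonneg _)).trans h2
  refine le_trans ?_ h1
  have h4 : ((2 * S.r (j + 1)) ^ m)⁻¹ ≤ ((S.r (j + 1) + 4 * a) ^ m)⁻¹ := by
    have : S.r (j + 1) + 4 * a ≤ 2 * S.r (j + 1) := by linarith
    gcongr
  have h5 : d ^ 3 / 4 / 4 * ((2 * S.r (j + 1)) ^ m)⁻¹ * ((a / 2) ^ 2 * (cg m * (a / 4) ^ m)) ≤
      d ^ 3 / 4 / 4 * ((S.r (j + 1) + 4 * a) ^ m)⁻¹ *
        ∫ y in closedBall y₀ (a / 4), ‖FV.co T y - wr S j y‖ ^ 2 ∂ν := by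
    gcongr
  refine le_trans (le_of_eq ?_) h5
  rw [hd]
  generalize S.r (j + 1) = R at *
  have e8 : (8:ℝ) ^ m = 2 ^ m * 4 ^ m := by rw [← mul_pow]; norm_num
  rw [e8, div_pow, div_pow, mul_pow 2 R, div_pow a 4, pow_add a, pow_add R]
  field_simp
  ring

end Wd

end Vale.Agent.P214.INST
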